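import Vale.Agent.P046.Tree.Greedy

/-!
# Truncated local rules and their sandwich property
-/

set_option linter.unusedSectionVars false

namespace Vale.Agent.P046.Tree

open Finset

variable {V τ : Type} [DecidableEq V] [DecidableEq τ]
variable (sd : τ → Finset V)

/-- No member of the greedy matching before time `i` covers `e`. -/
def Uncov (σ : τ → ℕ) (H : Finset τ) (e : V) (i : ℕ) : Prop :=
  ∀ T ∈ greedy sd σ H, e ∈ sd T → i ≤ σ T

/-- The members of `H` at `f`, apart from the parent `P`. -/
def br (H : Finset τ) (f : V) (P : Option τ) : Finset τ :=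
  H.filter (fun T => f ∈ sd T ∧ P ≠ some T)

/-- Depth `k` truncation of the survival rule of `f`, the parent being ignored. -/
def alive (σ : τ → ℕ) (H : Finset τ) : ℕ → V → Option τ → ℕ → Prop
  | 0, _, _, _ => True
  | k + 1, f, P, i => ∀ T ∈ br sd H f P, σ T < i →
      ¬ ∀ g ∈ (sd T).erase f, alive σ H k g (some T) (σ T)

lemma br_some_subset (H : Finset τ) (f : V) (P : Option τ) : br sd H f P ⊆ br sd H f none := by
  intro T hT
  simp only [br, mem_filter] at hT ⊢
  exact ⟨hT.1, hT.2.1, by simp⟩

lemma alive_parent (σ : τ → ℕ) (H : Finset τ) {k : ℕ} {f : V} {T0 : τ} {i : ℕ}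
    (hi : i ≤ σ T0) : alive sd σ H k f (some T0) i ↔ alive sd σ H k f none i := by
  cases k with
  | zero => simp [alive]
  | succ k =>
    simp only [alive]
    refine ⟨fun h T hT hTi => h T ?_ hTi, fun h T hT hTi => h T (br_some_subset sd H f _ hT) hTi⟩
    simp only [br, mem_filter] at hT ⊢
    refine ⟨hT.1, hT.2.1, fun he => ?_⟩
    rw [Option.some_inj] at he
    subst he
    omega

variable [Fintype τ]

lemma uncov_iff {σ : τ → ℕ} {H : Finset τ} (hinj : Set.InjOn σ H) (e : V) (i : ℕ) :
    Uncov sd σ H e i ↔ ∀ T ∈ H, e ∈ sd T → σ T < i →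
      ¬ ∀ g ∈ (sd T).erase e, Uncov sd σ H g (σ T) := by
  constructor
  · intro h T hT heT hTi hall
    have hTg : T ∉ greedy sd σ H := fun hg => absurd (h T hg heT) (by omega)
    obtain ⟨u, hu, huT, hdis⟩ := greedy_blocked sd hinj hT hTg
    rw [not_disjoint_iff] at hdis
    obtain ⟨g, hgT, hgu⟩ := hdis
    rcases eq_or_ne g e with rfl | hge
    · exact absurd (h u hu hgu) (by omega)
    · exact absurd (hall g (mem_erase.2 ⟨hge, hgT⟩) u hu hgu) (by omega)
  · intro h T hTg heT
    by_contra hTi
    apply h T (mem_greedy sd hTg) heT (by omega)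
    intro g hg u hu hgu
    rcases eq_or_ne u T with rfl | huT
    · exact le_rfl
    · exact absurd (greedy_disjoint sd hu hTg huT)
        (not_disjoint_iff.2 ⟨g, hgu, (mem_erase.1 hg).2⟩)

lemma alive_sandwich {σ : τ → ℕ} {H : Finset τ} (hinj : Set.InjOn σ H) :
    ∀ k e i, (Even k → Uncov sd σ H e i → alive sd σ H k e none i) ∧
      (Odd k → alive sd σ H k e none i → Uncov sd σ H e i) := by
  intro k
  induction k with
  | zero => exact fun e i => ⟨fun _ _ => trivial, fun h => by simp at h⟩
  | succ k ih =>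
    intro e i
    constructor
    · intro hk hu T hT hTi hall
      simp only [br, mem_filter] at hT
      refine (uncov_iff sd hinj e i).1 hu T hT.1 hT.2.1 hTi (fun g hg => ?_)
      exact (ih g (σ T)).2 (by rwa [Nat.even_add_one, Nat.not_even_iff_odd] at hk)
        ((alive_parent sd σ H le_rfl).1 (hall g hg))
    · intro hk ha
      rw [uncov_iff sd hinj]
      intro T hT heT hTi hall
      refine ha T (by simp [br, hT, heT]) hTi (fun g hg => ?_)
      exact (alive_parent sd σ H le_rfl).2
        ((ih g (σ T)).1 (by rwa [Nat.odd_add_one, Nat.not_odd_iff_even] at hk) (hall g hg))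

/-- The members of `H` on which the depth `k` rule of `f` depends. -/
def dep (H : Finset τ) : ℕ → V → Option τ → Finset τ
  | 0, _, _ => ∅
  | k + 1, f, P => (br sd H f P).biUnion
      (fun T => insert T (((sd T).erase f).biUnion (fun g => dep H k g (some T))))

/-- The dependencies of the depth `k` rule of `f` form a tree. -/
def IsTree (H : Finset τ) : ℕ → V → Option τ → Prop
  | 0, _, _ => True
  | k + 1, f, P =>
      (Set.PairwiseDisjoint (br sd H f P : Set τ)
          (fun T => insert T (((sd T).erase f).biUnion (fun g => dep sd H k g (some T))))) ∧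
      ∀ T ∈ br sd H f P,
        Set.PairwiseDisjoint (((sd T).erase f : Finset V) : Set V)
            (fun g => dep sd H k g (some T)) ∧
        ∀ g ∈ (sd T).erase f, T ∉ dep sd H k g (some T) ∧ IsTree H k g (some T)

lemma alive_congr {σ σ' : τ → ℕ} (H : Finset τ) : ∀ k f P i,
    (∀ T ∈ dep sd H k f P, σ T = σ' T) →
    (alive sd σ H k f P i ↔ alive sd σ' H k f P i) := by
  intro k
  induction k with
  | zero => simp [alive]
  | succ k ih =>
    intro f P i h
    simp only [alive]
    refine forall₂_congr (fun T hT => ?_)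
    have hmem : ∀ g ∈ (sd T).erase f, ∀ U ∈ dep sd H k g (some T), σ U = σ' U :=
      fun g hg U hU => h U (mem_biUnion.2 ⟨T, hT, mem_insert_of_mem (mem_biUnion.2 ⟨g, hg, hU⟩)⟩)
    rw [h T (mem_biUnion.2 ⟨T, hT, mem_insert_self _ _⟩)]
    exact imp_congr_right (fun _ => not_congr (forall₂_congr (fun g hg => ih g _ _ (hmem g hg))))

/-- The survival probability on the unfolded tree with `N` slots. -/
noncomputable def phi (H : Finset τ) (N : ℕ) : ℕ → V → Option τ → ℕ → ℝ
  | 0, _, _, _ => 1
  | k + 1, f, P, i => ∏ T ∈ br sd H f P,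
      (1 - (∑ j ∈ range i, ∏ g ∈ (sd T).erase f, phi H N k g (some T) j) / N)

end Vale.Agent.P046.Tree
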