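import Vale.Agent.P046.Tree.Balls
import Vale.Agent.P046.Tree.Local

/-!
The bad root bounds, for the tree predicate of the greedy local rules.
-/

namespace Vale.Agent.P046.Balls

open Finset

variable {n : ℕ} {V τ : Type} [DecidableEq V] [DecidableEq τ]
variable {sd : τ → Finset V} {H : Finset τ}

lemma dep_eq : ∀ (k : ℕ) (f : V) (P : Option τ), Tree.dep sd H k f P = gsupp sd H k P f
  | 0, _, _ => rfl
  | k + 1, f, P => by simp only [Tree.dep, gsupp, Tree.br, gstar, dep_eq k]

lemma isTree_iff : ∀ (k : ℕ) (f : V) (P : Option τ),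
    Tree.IsTree sd H k f P ↔ GTree sd H k P f
  | 0, _, _ => Iff.rfl
  | k + 1, f, P => by
    simp only [Tree.IsTree, GTree, Tree.br, gstar, dep_eq, isTree_iff k]
    refine and_congr_right fun _ => forall₂_congr fun T _ => and_congr_right fun _ =>
      forall₂_congr fun g _ => and_comm

variable {F : Finset (Finset (Fin n))} {ev : V → Finset (Fin n)} {tv : τ → Finset (Fin n)}

/-- An edge that is not bad has a tree neighbourhood. -/
theorem local_isTree_of_not_bad (hev : Function.Injective ev) (htv : Function.Injective tv)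
    (hT : ∀ T ∈ H, (sd T).Nonempty → tv T ∈ triangles F)
    (hs : ∀ T g, g ∈ sd T → ev g ∈ sides (tv T))
    {k R : ℕ} (hR : 2 * k ≤ R) {e : V} (he : (ev e).card = 2) (heF : ev e ∈ F)
    (hbad : ¬ Bad R F (ev e)) : Tree.IsTree sd H k e none :=
  (isTree_iff k e none).2 (isTree_of_not_bad hev htv hT hs hR he heF hbad)

open Classical in
/-- The roots without a tree neighbourhood are no more than the bad pairs. -/
theorem local_card_not_isTree_le [Fintype V] (hev : Function.Injective ev)
    (htv : Function.Injective tv) (hT : ∀ T ∈ H, (sd T).Nonempty → tv T ∈ triangles F)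
    (hs : ∀ T g, g ∈ sd T → ev g ∈ sides (tv T)) (hpair : ∀ e, (ev e).card = 2)
    (hF : ∀ e, ev e ∈ F) {k R : ℕ} (hR : 2 * k ≤ R) :
    ((univ : Finset V).filter fun e => ¬ Tree.IsTree sd H k e none).card ≤
      (((univ : Finset (Fin n)).powersetCard 2).filter fun e => Bad R F e).card := by
  simp only [isTree_iff]
  exact card_not_isTree_le hev htv hT hs hpair hF hR

/-- Few roots have dependencies meeting those of a given root. -/
theorem local_card_overlap_le [Fintype V] {Δ : ℕ} (h3 : ∀ T, (sd T).card ≤ 3)
    (hΔ : ∀ g, (H.filter fun T => g ∈ sd T).card ≤ Δ) (good : Finset V) (k : ℕ) (e : V) :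
    (good.filter fun e' =>
      ¬ Disjoint (Tree.dep sd H k e none) (Tree.dep sd H k e' none)).card ≤
        (3 * Δ + 3) ^ (2 * k) := by
  simp only [dep_eq]
  exact card_overlap_le h3 hΔ good k e

end Vale.Agent.P046.Balls
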