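import Vale.Agent.P046.Tree.Final

/-!
# Concentration of the number of uncovered vertices
-/

set_option linter.unusedSectionVars false

namespace Vale.Agent.P046.Tree

open Finset

variable {V τ : Type} [Fintype V] [DecidableEq V] [Fintype τ] [DecidableEq τ]
variable (sd : τ → Finset V) (H : Finset τ)

lemma expMatch_nonneg : ∀ (H : Finset τ) (g : Finset τ → ℝ), (∀ M, 0 ≤ g M) →
    0 ≤ expMatch sd g H := by
  intro H
  induction H using Finset.strongInduction with
  | H H ih =>
    intro g hg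
    rw [expMatch]
    split_ifs
    · exact hg _
    · refine div_nonneg (sum_nonneg fun t _ => ih _ ((ssubset_iff_of_subset (rest_subset sd H _)).2
        ⟨t.1, t.2, fun h => by simp [rest] at h⟩) _ fun M => hg _) (Nat.cast_nonneg _)

/-- One step of neighbourhood growth. -/
def grow (S : Finset V) : Finset V :=
  S ∪ (H.filter (fun T => ¬ Disjoint (sd T) S)).biUnion sd

/-- Neighbourhood of radius `k`. -/
def ball : ℕ → Finset V → Finset V
  | 0, S => S
  | k + 1, S => ball k (grow sd H S)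

lemma grow_mono {S S' : Finset V} (h : S ⊆ S') : grow sd H S ⊆ grow sd H S' :=
  union_subset_union h (biUnion_subset_biUnion_of_subset_left _
    (monotone_filter_right _ fun _ _ hT hd => hT (hd.mono_right h)))

lemma ball_mono : ∀ (k : ℕ) {S S' : Finset V}, S ⊆ S' → ball sd H k S ⊆ ball sd H k S'
  | 0, _, _, h => h
  | k + 1, _, _, h => ball_mono k (grow_mono sd H h)

lemma ball_add : ∀ (a b : ℕ) (S : Finset V), ball sd H (a + b) S = ball sd H b (ball sd H a S)
  | 0, b, S => by rw [Nat.zero_add]; rfl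
  | a + 1, b, S => by
    rw [Nat.add_right_comm]
    exact ball_add a b _

lemma ball_succ' (k : ℕ) (S : Finset V) : ball sd H (k + 1) S = grow sd H (ball sd H k S) := by
  rw [ball_add sd H k 1 S]; rfl

lemma subset_ball : ∀ (k : ℕ) (S : Finset V), S ⊆ ball sd H k S
  | 0, _ => subset_rfl
  | k + 1, S => subset_union_left.trans (subset_ball k (grow sd H S))

lemma grow_adj {T : τ} (hT : T ∈ H) {u v : V} (hu : u ∈ sd T) (hv : v ∈ sd T) :
    v ∈ grow sd H {u} :=
  mem_union_right _ (mem_biUnion.2 ⟨T, mem_filter.2 ⟨hT, by simpa using hu⟩, hv⟩)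

lemma ball_symm : ∀ (k : ℕ) {u v : V}, u ∈ ball sd H k {v} → v ∈ ball sd H k {u}
  | 0, u, v, h => by simp only [ball, mem_singleton] at h ⊢; exact h.symm
  | k + 1, u, v, h => by
    rw [ball_succ', grow, mem_union] at h
    rcases h with h | h
    · exact ball_mono sd H k subset_union_left (ball_symm k h)
    · obtain ⟨T, hT, huT⟩ := mem_biUnion.1 h
      obtain ⟨hTH, hdis⟩ := mem_filter.1 hT
      obtain ⟨w, hwT, hw⟩ := not_disjoint_iff.1 hdis
      exact ball_mono sd H k (singleton_subset_iff.2 (grow_adj sd H hTH huT hwT)) (ball_symm k hw)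

lemma dep_ball : ∀ (k : ℕ) (f : V) (P : Option τ) (T : τ), T ∈ dep sd H k f P →
    T ∈ H ∧ ∃ u ∈ sd T, u ∈ ball sd H k {f}
  | 0, f, P, T, h => by simp [dep] at h
  | k + 1, f, P, T, h => by
    simp only [dep, mem_biUnion, mem_insert] at h
    obtain ⟨T', hT', rfl | ⟨g, hg, hTg⟩⟩ := h
    · exact ⟨(mem_filter.1 hT').1, f, (mem_filter.1 hT').2.1,
        subset_ball sd H _ _ (mem_singleton_self f)⟩
    · obtain ⟨h1, u, hu, hu'⟩ := dep_ball k g (some T') T hTg
      exact ⟨h1, u, hu, ball_mono sd H k (singleton_subset_iff.2 (grow_adj sd H (mem_filter.1 hT').1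
        (mem_filter.1 hT').2.1 (mem_erase.1 hg).2)) hu'⟩

lemma conflict_ball {k : ℕ} {f g : V} (h : ¬ Disjoint (dep sd H k f none) (dep sd H k g none)) :
    g ∈ ball sd H (k + 1 + k) {f} := by
  obtain ⟨T, h1, h2⟩ := not_disjoint_iff.1 h
  obtain ⟨hT, u, hu, hu'⟩ := dep_ball sd H k f none T h1
  obtain ⟨-, v, hv, hv'⟩ := dep_ball sd H k g none T h2
  rw [ball_add]
  refine ball_mono sd H k (singleton_subset_iff.2 ?_) (ball_symm sd H k hv')
  rw [ball_succ']
  exact grow_mono sd H (singleton_subset_iff.2 hu') (grow_adj sd H hT hu hv)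

variable {sd H}
variable {D eps lam c1 c2 : ℝ} {y : V → ℝ} (h : Regular sd H D eps lam c1 c2 y)
include h

lemma grow_card (S : Finset V) : ((grow sd H S).card : ℝ) ≤ 9 * D * S.card := by
  have hDp : 0 < D := lt_of_lt_of_le one_pos h.hD
  have he1 : eps ≤ 1 / 4000 := by
    have := h.hsmall
    have := one_le_pow₀ (n := 2) h.hlam
    nlinarith [h.heps]
  have h1 : (grow sd H S).card ≤ S.card + ((H.filter (fun T => ¬ Disjoint (sd T) S)).biUnion sd).card :=
    card_union_le _ _
  have h2 : ((H.filter (fun T => ¬ Disjoint (sd T) S)).biUnion sd).card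
      ≤ ∑ f ∈ S, 3 * deg sd H f := by
    calc _ ≤ (S.biUnion fun f => (br sd H f none).biUnion sd).card := by
          refine card_le_card fun v hv => ?_
          obtain ⟨T, hT, hvT⟩ := mem_biUnion.1 hv
          obtain ⟨hTH, hd⟩ := mem_filter.1 hT
          obtain ⟨f, hf, hfS⟩ := not_disjoint_iff.1 hd
          exact mem_biUnion.2 ⟨f, hfS, mem_biUnion.2 ⟨T, by simp [br, hTH, hf], hvT⟩⟩
      _ ≤ ∑ f ∈ S, ((br sd H f none).biUnion sd).card := card_biUnion_le
      _ ≤ ∑ f ∈ S, 3 * deg sd H f := sum_le_sum fun f _ => by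
          refine card_biUnion_le.trans ((sum_le_card_nsmul _ _ 3 fun T hT => ?_).trans ?_)
          · exact (h.hsd T (mem_filter.1 hT).1).le
          · simp [deg, mul_comm]
  have h3 : ∀ f, (deg sd H f : ℝ) ≤ 2.2 * D := fun f => by
    have := (abs_le.1 (h.hx f)).2
    unfold xe at this
    rw [sub_le_iff_le_add, div_le_iff₀ hDp] at this
    nlinarith [h.hD]
  calc ((grow sd H S).card : ℝ) ≤ S.card + ∑ f ∈ S, 3 * (deg sd H f : ℝ) := by
        have := h1.trans (Nat.add_le_add_left h2 _)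
        exact_mod_cast this
    _ ≤ S.card + ∑ _f ∈ S, 3 * (2.2 * D) :=
        add_le_add le_rfl (sum_le_sum fun f _ => mul_le_mul_of_nonneg_left (h3 f) (by norm_num))
    _ ≤ _ := by
        rw [sum_const, nsmul_eq_mul]
        nlinarith [mul_le_mul_of_nonneg_left h.hD (Nat.cast_nonneg (α := ℝ) S.card)]

lemma ball_card : ∀ (k : ℕ) (S : Finset V), ((ball sd H k S).card : ℝ) ≤ (9 * D) ^ k * S.card
  | 0, S => by simp [ball]
  | k + 1, S => by
    refine (ball_card k (grow sd H S)).trans ?_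
    rw [pow_succ, mul_assoc]
    exact mul_le_mul_of_nonneg_left (grow_card h S) (pow_nonneg (by linarith [h.hD]) k)

omit h

variable {N : ℕ} [NeZero N]

lemma ind_nonneg (k : ℕ) (f : V) (σ : τ → Fin N) : 0 ≤ ind sd H k f none N σ ∧
    ind sd H k f none N σ ≤ 1 := by
  unfold ind
  split_ifs <;> norm_num

/-- The variance of a sum of local rules. -/
lemma var_rules (G : Finset V) (k : ℕ) {M : ℝ}
    (hM : ∀ f ∈ G, ((G.filter fun g => ¬ Disjoint (dep sd H k f none) (dep sd H k g none)).card : ℝ) ≤ M) :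
    ev (N := N) (fun σ => (∑ f ∈ G, ind sd H k f none N σ
      - ∑ f ∈ G, ev (ind (N := N) sd H k f none N)) ^ 2) ≤ G.card * M := by
  classical
  set Z : V → (τ → Fin N) → ℝ := fun f σ => ind sd H k f none N σ - ev (ind (N := N) sd H k f none N)
  have hrw : ∀ σ, (∑ f ∈ G, ind sd H k f none N σ
      - ∑ f ∈ G, ev (ind (N := N) sd H k f none N)) ^ 2 = ∑ f ∈ G, ∑ g ∈ G, Z f σ * Z g σ := by
    intro σ
    rw [← sum_sub_distrib, sq, sum_mul_sum]
  simp only [hrw]
  rw [ev_sum]
  simp only [ev_sum]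
  have hev : ∀ f, 0 ≤ ev (ind (N := N) sd H k f none N) ∧ ev (ind (N := N) sd H k f none N) ≤ 1 := by
    intro f
    constructor
    · exact le_of_eq_of_le (ev_const (τ := τ) (N := N) 0).symm (ev_mono fun σ => (ind_nonneg k f σ).1)
    · exact (ev_mono (G := fun _ => (1:ℝ)) fun σ => (ind_nonneg k f σ).2).trans_eq (ev_const 1)
  have hbd : ∀ f g, ev (fun σ => Z f σ * Z g σ) ≤
      if Disjoint (dep sd H k f none) (dep sd H k g none) then 0 else 1 := by
    intro f g
    split_ifs with hd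
    · rw [ev_mul_of_disjoint (fun σ σ' hσ => by simp only [Z]; rw [dep_ind sd H k f none N σ σ' hσ])
        (fun σ σ' hσ => by simp only [Z]; rw [dep_ind sd H k g none N σ σ' hσ]) hd]
      have : ev (Z f) = 0 := by simp only [Z]; rw [ev_sub, ev_const, sub_self]
      rw [this, zero_mul]
    · refine (ev_mono (G := fun _ => (1:ℝ)) fun σ => ?_).trans_eq (ev_const 1)
      have a1 : |Z f σ| ≤ 1 := by
        rw [abs_le]; simp only [Z]
        constructor <;> linarith [(ind_nonneg (sd := sd) (H := H) k f σ).1,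
          (ind_nonneg (sd := sd) (H := H) k f σ).2, (hev f).1, (hev f).2]
      have a2 : |Z g σ| ≤ 1 := by
        rw [abs_le]; simp only [Z]
        constructor <;> linarith [(ind_nonneg (sd := sd) (H := H) k g σ).1,
          (ind_nonneg (sd := sd) (H := H) k g σ).2, (hev g).1, (hev g).2]
      calc Z f σ * Z g σ ≤ |Z f σ * Z g σ| := le_abs_self _
        _ ≤ 1 * 1 := by rw [abs_mul]; exact mul_le_mul a1 a2 (abs_nonneg _) zero_le_one
        _ = 1 := one_mul 1
  refine (sum_le_sum fun f _ => sum_le_sum fun g _ => hbd f g).trans ?_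
  refine (sum_le_sum fun f hf => ?_).trans ((sum_le_card_nsmul _ _ M hM).trans_eq (nsmul_eq_mul _ _))
  rw [← sum_boole]
  exact sum_le_sum fun g _ => by split_ifs <;> norm_num

/-- The error of the survival probability. -/
noncomputable def delta (eps lam : ℝ) : ℝ :=
  4 * eps * lam + 320 * (4 * eps) ^ 3 * lam ^ 4 * Real.exp (6 / 5 * lam)

/-- Slot functions are injective on `H` with high probability. -/
lemma inj_prob (H : Finset τ) : 1 - (H.card : ℝ) ^ 2 / N ≤
    ev (N := N) (fun σ : τ → Fin N => if Set.InjOn σ (H : Set τ) then (1:ℝ) else 0) := by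
  classical
  have hpt : ∀ σ : τ → Fin N, 1 - ∑ ab ∈ H.offDiag,
      (if σ ab.1 = σ ab.2 then (1:ℝ) else 0) ≤
      (if Set.InjOn σ (H : Set τ) then (1:ℝ) else 0) := by
    intro σ
    have h0 : ∀ ab ∈ H.offDiag, (0:ℝ) ≤ if σ ab.1 = σ ab.2 then (1:ℝ) else 0 := fun _ _ => by
      split_ifs <;> norm_num
    split_ifs with hi
    · linarith [sum_nonneg h0]
    · simp only [Set.InjOn, mem_coe] at hi
      push Not at hi
      obtain ⟨a, ha, b, hb, hab, hne⟩ := hi
      have hm : (a, b) ∈ H.offDiag := mem_offDiag.2 ⟨ha, hb, hne⟩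
      have := single_le_sum h0 hm
      rw [if_pos (show σ (a, b).1 = σ (a, b).2 from hab)] at this
      linarith
  refine le_trans ?_ (ev_mono hpt)
  rw [ev_sub, ev_const, ev_sum]
  refine sub_le_sub_left ?_ 1
  calc ∑ ab ∈ H.offDiag, ev (N := N) (fun σ => if σ ab.1 = σ ab.2 then (1:ℝ) else 0)
      ≤ ∑ _ab ∈ H.offDiag, (1:ℝ) / N := by
        refine sum_le_sum fun ab hab => le_of_eq ?_
        have hne := (mem_offDiag.1 hab).2.2
        calc ev (N := N) (fun σ => if σ ab.1 = σ ab.2 then (1:ℝ) else 0)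
            = ev (N := N) (fun σ => ∑ j : Fin N,
                (if σ ab.1 = j then (1:ℝ) else 0) * (if σ ab.2 = j then (1:ℝ) else 0)) := by
              congr 1
              funext σ
              simp [eq_comm]
          _ = ∑ _j : Fin N, (1:ℝ) / N * (1 / N) := by
              rw [ev_sum]
              refine sum_congr rfl fun j _ => ?_
              rw [ev_mul_of_disjoint (A := {ab.1}) (B := {ab.2})
                (fun σ σ' hσ => by simp [hσ ab.1 (mem_singleton_self _)])
                (fun σ σ' hσ => by simp [hσ ab.2 (mem_singleton_self _)])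
                (disjoint_singleton.2 hne), ev_single, ev_single]
          _ = 1 / N := by
              simp [card_univ]
              field_simp
    _ ≤ _ := by
        rw [sum_const, nsmul_eq_mul, mul_one_div]
        refine div_le_div_of_nonneg_right ?_ (Nat.cast_nonneg _)
        rw [offDiag_card, sq]
        exact_mod_cast Nat.sub_le _ _

lemma rules_mean (h : Regular sd H D eps lam c1 c2 y) (hN : 0 < N)
    (hfine : D ^ 2 * Real.exp (2 * lam) * lam ^ 4 / N ≤ (4 * eps) ^ 4 / 1000)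
    {q k : ℕ} (hq : (0.93:ℝ) ^ q / 50 ≤ 20 * (4 * eps) ^ 3 * lam ^ 4)
    (hG : 320 * (4 * eps) ^ 3 * lam ^ 4 * Real.exp (6 / 5 * lam) ≤ 1 / 1000)
    (hk : ⌈100 * lam⌉₊ * (q + 1) ≤ k) (hδ1 : delta eps lam ≤ 1 / 2)
    (bad : Finset V) (hbad : ∀ f, f ∉ bad → IsTree sd H k f none) :
    |∑ f ∈ univ \ bad, ev (ind (N := N) sd H k f none N)
      - (Fintype.card V : ℝ) / Real.sqrt (1 + 2 * D)| ≤
      bad.card + 2 * delta eps lam * ((Fintype.card V : ℝ) / Real.sqrt (1 + 2 * D)) ∧
    ∑ f ∈ univ \ bad, ev (ind (N := N) sd H k f none N)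
      + bad.card - (Fintype.card V : ℝ) / Real.sqrt (1 + 2 * D) ≤
      bad.card + 2 * delta eps lam * ((Fintype.card V : ℝ) / Real.sqrt (1 + 2 * D)) := by
  set δ := delta eps lam with hδ
  set p : ℝ := 1 / Real.sqrt (1 + 2 * D) with hp
  set G := univ \ bad with hG'
  have hlam := h.hlam
  have heps := h.heps
  have hδ0 : 0 ≤ δ := by simp only [hδ, delta]; positivity
  have hsqrt : 1 ≤ Real.sqrt (1 + 2 * D) := Real.one_le_sqrt.2 (by linarith [h.hD])
  have hp0 : 0 < p := by positivity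
  have hp1 : p ≤ 1 := by rw [hp, div_le_one (by positivity)]; exact hsqrt
  have hμp : (Fintype.card V : ℝ) / Real.sqrt (1 + 2 * D) = (Fintype.card V : ℝ) * p := by
    rw [hp]; ring
  have hGb : (G.card : ℝ) + bad.card = Fintype.card V := by
    have : G.card + bad.card = Fintype.card V := by
      rw [hG', card_sdiff_add_card_eq_card (subset_univ _), card_univ]
    exact_mod_cast this
  have hone : ∀ f ∈ G, |ev (ind (N := N) sd H k f none N) - p| ≤ 2 * δ * p := by
    intro f hf
    obtain ⟨l1, l2⟩ := phi_final h hN hfine hq hG hk f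
    rw [ev_ind sd H k f none N (hbad f (mem_sdiff.1 hf).2) le_rfl]
    rw [show Real.exp (-(4 * eps * lam + 320 * (4 * eps) ^ 3 * lam ^ 4 * Real.exp (6 / 5 * lam)))
      / Real.sqrt (1 + 2 * D) = Real.exp (-δ) * p by simp only [hδ, delta, hp]; ring] at l1
    rw [show Real.exp (4 * eps * lam + 320 * (4 * eps) ^ 3 * lam ^ 4 * Real.exp (6 / 5 * lam))
      / Real.sqrt (1 + 2 * D) = Real.exp δ * p by simp only [hδ, delta, hp]; ring] at l2
    have e1' := Real.add_one_le_exp (-δ)
    have e2' := Real.abs_exp_sub_one_le (x := δ) (by rw [abs_of_nonneg hδ0]; linarith)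
    rw [abs_of_nonneg hδ0] at e2'
    have e3' := (abs_le.1 e2').2
    rw [abs_le]
    constructor <;> nlinarith
  have s1 := (abs_sum_le_sum_abs _ _).trans (sum_le_sum hone)
  rw [sum_const, nsmul_eq_mul, sum_sub_distrib, sum_const, nsmul_eq_mul] at s1
  obtain ⟨s2, s3⟩ := abs_le.1 s1
  rw [hμp, ← hGb, abs_le]
  have hb0 : (0:ℝ) ≤ bad.card := Nat.cast_nonneg _
  have q1 := mul_le_mul_of_nonneg_left hp1 hb0
  have q2 := mul_nonneg hb0 hp0.le
  have q3 := mul_nonneg (mul_nonneg hδ0 hb0) hp0.le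
  refine ⟨⟨?_, ?_⟩, ?_⟩ <;> nlinarith

lemma rules_shift (k : ℕ) (G : Finset V) {M : ℝ}
    (hM : ∀ f ∈ G, ((G.filter fun g => ¬ Disjoint (dep sd H k f none) (dep sd H k g none)).card : ℝ) ≤ M)
    (c : ℝ) :
    ev (N := N) (fun σ => (∑ f ∈ G, ind sd H k f none N σ + c) ^ 2) ≤
      G.card * M + (∑ f ∈ G, ev (ind (N := N) sd H k f none N) + c) ^ 2 := by
  set m := ∑ f ∈ G, ev (ind (N := N) sd H k f none N) with hm
  have e : ∀ σ : τ → Fin N, (∑ f ∈ G, ind sd H k f none N σ + c) ^ 2
      = (∑ f ∈ G, ind sd H k f none N σ - m) ^ 2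
        + (2 * (m + c) * (∑ f ∈ G, ind sd H k f none N σ - m) + (m + c) ^ 2) :=
    fun σ => by ring
  simp only [e]
  rw [ev_add, ev_add, ev_const]
  have h0 : ev (N := N) (fun σ => 2 * (m + c) * (∑ f ∈ G, ind sd H k f none N σ - m)) = 0 := by
    simp only [mul_sub, mul_sum]
    rw [ev_sub, ev_const, ev_sum, hm, mul_sum, sub_eq_zero]
    refine sum_congr rfl fun f _ => ?_
    simp only [ev, ← mul_sum, mul_div_assoc]
  have hv := var_rules (sd := sd) (H := H) (N := N) G k hM
  rw [← hm] at hv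
  linarith

open Classical in
/-- Random greedy matching in an almost regular hypergraph that is locally tree-like outside
`bad` leaves about `|V| / sqrt (1 + 2 D)` vertices uncovered. -/
theorem greedy_second_moment (h : Regular sd H D eps lam c1 c2 y)
    (heps : 0 < eps) {q k : ℕ} (hq : (0.93:ℝ) ^ q / 50 ≤ 20 * (4 * eps) ^ 3 * lam ^ 4)
    (hG : 320 * (4 * eps) ^ 3 * lam ^ 4 * Real.exp (6 / 5 * lam) ≤ 1 / 1000)
    (hk : ⌈100 * lam⌉₊ * (q + 1) ≤ k) (hev : Even k) (bad : Finset V)
    (hbad : ∀ f, f ∉ bad → IsTree sd H k f none ∧ IsTree sd H (k + 1) f none) :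
    expMatch sd (fun M => (((univ.filter fun f => ∀ T ∈ M, f ∉ sd T).card : ℝ)
        - Fintype.card V / Real.sqrt (1 + 2 * D)) ^ 2) H
      ≤ 2 * Fintype.card V * (9 * D) ^ (2 * k + 3)
        + 2 * (bad.card + 2 * delta eps lam * (Fintype.card V / Real.sqrt (1 + 2 * D))) ^ 2 := by
  set n : ℝ := (Fintype.card V : ℝ) with hn
  set μ : ℝ := n / Real.sqrt (1 + 2 * D) with hμ
  set δ : ℝ := delta eps lam with hδ
  have hlam := h.hlam
  have hδ0 : 0 ≤ δ := by simp only [hδ, delta]; positivity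
  have hδ1 : δ ≤ 1 / 2 := by
    have h1 := h.hsmall
    have h2 : lam ≤ lam ^ 2 := by nlinarith
    simp only [hδ, delta]
    nlinarith
  set B : ℝ := 2 * n * (9 * D) ^ (2 * k + 3) + 2 * (bad.card + 2 * δ * μ) ^ 2 with hB
  set F : Finset τ → ℝ := fun M => (((univ.filter fun f => ∀ T ∈ M, f ∉ sd T).card : ℝ) - μ) ^ 2
    with hF
  set E0 := expMatch sd F H with hE0
  show E0 ≤ B
  have hn0 : 0 ≤ n := by positivity
  have hsqrt : 1 ≤ Real.sqrt (1 + 2 * D) := Real.one_le_sqrt.2 (by linarith [h.hD])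
  have key : ∀ N : ℕ, D ^ 2 * Real.exp (2 * lam) * lam ^ 4 / N ≤ (4 * eps) ^ 4 / 1000 → 0 < N →
      E0 * (1 - (H.card : ℝ) ^ 2 / N) ≤ B := by
    intro N hfine hN
    have : NeZero N := ⟨hN.ne'⟩
    set S : Finset (τ → Fin N) := univ.filter fun σ => Set.InjOn σ (H : Set τ) with hS
    have hsum := sum_greedy sd H F S (fun σ hσ => (mem_filter.1 hσ).2) (by
      intro π hπ σ hσ
      rw [mem_filter] at hσ ⊢
      refine ⟨mem_univ _, fun a ha b hb hab => π.injective (hσ.2 ?_ ?_ hab)⟩
      · by_contra h'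
        exact h' ((π.injective (hπ _ h')).symm ▸ ha)
      · by_contra h'
        exact h' ((π.injective (hπ _ h')).symm ▸ hb))
    set G := univ \ bad with hG'
    set A : (τ → Fin N) → ℝ := fun σ => ∑ f ∈ G, ind sd H k f none N σ with hA
    set L : (τ → Fin N) → ℝ := fun σ => ∑ f ∈ G, ind sd H (k + 1) f none N σ with hL
    have hsand : ∀ σ ∈ S, F (greedy sd (fun T => (σ T : ℕ)) H) ≤
        (A σ + bad.card - μ) ^ 2 + (L σ - μ) ^ 2 := by
      intro σ hσ
      have hinj : Set.InjOn (fun T => (σ T : ℕ)) (H : Set τ) :=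
        fun a ha b hb hab => (mem_filter.1 hσ).2 ha hb (Fin.ext hab)
      set U := univ.filter fun f => ∀ T ∈ greedy sd (fun T => (σ T : ℕ)) H, f ∉ sd T with hU
      have hiff : ∀ f, f ∈ U ↔ Uncov sd (fun T => (σ T : ℕ)) H f N := by
        intro f
        simp only [hU, mem_filter, mem_univ, true_and, Uncov]
        refine ⟨fun h' T hT hf => absurd hf (h' T hT), fun h' T hT hf => ?_⟩
        have := h' T hT hf
        omega
      have h1 : (U.card : ℝ) ≤ A σ + bad.card := by
        have : U ⊆ (G.filter fun f => alive sd (fun T => (σ T : ℕ)) H k f none N) ∪ bad := by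
          intro f hf
          by_cases hfb : f ∈ bad
          · exact mem_union_right _ hfb
          · exact mem_union_left _ (mem_filter.2 ⟨mem_sdiff.2 ⟨mem_univ _, hfb⟩,
              (alive_sandwich sd hinj k f N).1 hev ((hiff f).1 hf)⟩)
        have hc := (card_le_card this).trans (card_union_le _ _)
        have hA' : A σ = ((G.filter fun f => alive sd (fun T => (σ T : ℕ)) H k f none N).card : ℝ) := by
          simp only [hA, ind]
          rw [sum_boole]
        rw [hA']
        exact_mod_cast hc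
      have h2 : L σ ≤ (U.card : ℝ) := by
        simp only [hL, ind]
        rw [sum_boole]
        have : (G.filter fun f => alive sd (fun T => (σ T : ℕ)) H (k + 1) f none N) ⊆ U := by
          intro f hf
          exact (hiff f).2 ((alive_sandwich sd hinj (k + 1) f N).2 (hev.add_one) (mem_filter.1 hf).2)
        exact_mod_cast card_le_card this
      show ((U.card : ℝ) - μ) ^ 2 ≤ _
      rcases le_total μ (U.card : ℝ) with hc | hc
      · calc _ ≤ (A σ + bad.card - μ) ^ 2 := pow_le_pow_left₀ (by linarith) (by linarith) 2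
          _ ≤ _ := le_add_of_nonneg_right (sq_nonneg _)
      · calc ((U.card : ℝ) - μ) ^ 2 = (μ - U.card) ^ 2 := by ring
          _ ≤ (μ - L σ) ^ 2 := pow_le_pow_left₀ (by linarith) (by linarith) 2
          _ = (L σ - μ) ^ 2 := by ring
          _ ≤ _ := le_add_of_nonneg_left (sq_nonneg _)
    have hMG : ∀ k', ∀ f ∈ G, ((G.filter fun g => ¬ Disjoint (dep sd H k' f none) (dep sd H k' g none)).card : ℝ)
        ≤ (9 * D) ^ (2 * k' + 1) := by
      intro k' f _
      have : (G.filter fun g => ¬ Disjoint (dep sd H k' f none) (dep sd H k' g none))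
          ⊆ ball sd H (k' + 1 + k') {f} := fun g hg => conflict_ball sd H (mem_filter.1 hg).2
      refine (Nat.cast_le.2 (card_le_card this)).trans ((ball_card h _ _).trans_eq ?_)
      rw [card_singleton, Nat.cast_one, mul_one, show k' + 1 + k' = 2 * k' + 1 by ring]
    obtain ⟨hmA, hmA'⟩ := rules_mean h hN hfine hq hG hk hδ1 bad (fun f hf => (hbad f hf).1)
    obtain ⟨hmL, -⟩ := rules_mean h hN hfine hq hG (Nat.le_succ_of_le hk) hδ1 bad
      (fun f hf => (hbad f hf).2)
    rw [← hn, ← hμ, ← hδ, ← hG'] at hmA hmA' hmL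
    have hAv := rules_shift (sd := sd) (H := H) (N := N) k G (hMG k) ((bad.card : ℝ) - μ)
    have hLv := rules_shift (sd := sd) (H := H) (N := N) (k + 1) G (hMG (k + 1)) (-μ)
    have h9 : 1 ≤ 9 * D := by linarith [h.hD]
    have hcardG : ∀ k', k' ≤ k + 1 → (G.card : ℝ) * (9 * D) ^ (2 * k' + 1) ≤ n * (9 * D) ^ (2 * k + 3) :=
      fun k' hk' => mul_le_mul (Nat.cast_le.2 (card_le_univ G)) (pow_le_pow_right₀ h9 (by omega))
        (pow_nonneg (by linarith) _) hn0
    have hb0 : (0:ℝ) ≤ bad.card := Nat.cast_nonneg _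
    have s1 : (∑ f ∈ G, ev (ind (N := N) sd H k f none N) + ((bad.card : ℝ) - μ)) ^ 2
        ≤ (bad.card + 2 * δ * μ) ^ 2 :=
      sq_le_sq' (by linarith [(abs_le.1 hmA).1]) (by linarith)
    have s2 : (∑ f ∈ G, ev (ind (N := N) sd H (k + 1) f none N) + -μ) ^ 2
        ≤ (bad.card + 2 * δ * μ) ^ 2 :=
      sq_le_sq' (by linarith [(abs_le.1 hmL).1]) (by linarith [(abs_le.1 hmL).2])
    have hsum' : ∑ σ ∈ S, F (greedy sd (fun T => (σ T : ℕ)) H)
        ≤ ∑ σ : τ → Fin N, ((A σ + bad.card - μ) ^ 2 + (L σ - μ) ^ 2) :=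
      (sum_le_sum hsand).trans (sum_le_sum_of_subset_of_nonneg (subset_univ _)
        fun σ _ _ => add_nonneg (sq_nonneg _) (sq_nonneg _))
    rw [hsum] at hsum'
    have hcpos := card_pos_real (τ := τ) (N := N)
    have hE : (S.card : ℝ) * E0 / Fintype.card (τ → Fin N) ≤ B := by
      refine (div_le_div_of_nonneg_right hsum' hcpos.le).trans ?_
      show ev (fun σ => (A σ + bad.card - μ) ^ 2 + (L σ - μ) ^ 2) ≤ B
      rw [ev_add]
      simp only [hA, hL, sub_eq_add_neg, add_assoc] at hAv hLv ⊢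
      linarith [hcardG k (Nat.le_succ k), hcardG (k + 1) le_rfl]
    have hcnt : (1 - (H.card : ℝ) ^ 2 / N) ≤ (S.card : ℝ) / Fintype.card (τ → Fin N) := by
      refine (inj_prob H).trans (le_of_eq ?_)
      simp only [ev, sum_boole, hS]
    have hE0 : 0 ≤ E0 := expMatch_nonneg sd H F fun _ => sq_nonneg _
    calc E0 * (1 - (H.card : ℝ) ^ 2 / N) ≤ E0 * ((S.card : ℝ) / Fintype.card (τ → Fin N)) :=
          mul_le_mul_of_nonneg_left hcnt hE0
      _ = (S.card : ℝ) * E0 / Fintype.card (τ → Fin N) := by ring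
      _ ≤ B := hE
  by_contra hlt
  push Not at hlt
  obtain ⟨N, hN⟩ := exists_nat_gt (max 1 (max (D ^ 2 * Real.exp (2 * lam) * lam ^ 4 / ((4 * eps) ^ 4 / 1000))
    (E0 * (H.card : ℝ) ^ 2 / (E0 - B))))
  have hN1 : (1:ℝ) < N := (le_max_left _ _).trans_lt hN
  have hN2 := ((le_max_left _ _).trans (le_max_right _ _)).trans_lt hN
  have hN3 := ((le_max_right _ _).trans (le_max_right _ _)).trans_lt hN
  have hNp : (0:ℝ) < N := by linarith
  rw [div_lt_iff₀ (by positivity)] at hN2
  rw [div_lt_iff₀ (by linarith)] at hN3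
  have := key N (by rw [div_le_iff₀ hNp]; linarith) (by exact_mod_cast hNp)
  rw [mul_sub, mul_one, ← mul_div_assoc, sub_le_iff_le_add] at this
  have h' : E0 - B ≤ E0 * (H.card : ℝ) ^ 2 / N := by linarith
  rw [le_div_iff₀ hNp] at h'
  linarith

end Vale.Agent.P046.Tree
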