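import Vale.Agent.P046.Tree.RecStep

/-!
# The truncated survival recursion converges to the approximate solution
-/

set_option linter.unusedSectionVars false

namespace Vale.Agent.P046.Tree

open Finset

variable {ι β : Type}

namespace Data

variable {d : Data ι β}

/-- `rho k a i` agrees with the approximate solution up to the factor `exp (± e)`. -/
def Close (d : Data ι β) (k : ℕ) (a : ι) (i : ℕ) (e : ℝ) : Prop :=
  Real.exp (d.tgt a i - e) ≤ d.rho k a i ∧ d.rho k a i ≤ Real.exp (d.tgt a i + e)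

lemma rho_mem : ∀ (k : ℕ) (a : ι) (i : ℕ), i ≤ d.N → 0 ≤ d.rho k a i ∧ d.rho k a i ≤ 1
  | 0, _, _, _ => by simp [rho]
  | k + 1, a, i, hi => by
    rw [rho]
    have hz : ∀ b, 0 ≤ (∑ j ∈ range i, ∏ g ∈ d.ch a b, d.rho k g j) / d.N ∧
        (∑ j ∈ range i, ∏ g ∈ d.ch a b, d.rho k g j) / d.N ≤ 1 := by
      intro b
      have hj : ∀ j ∈ range i, ∀ g ∈ d.ch a b, 0 ≤ d.rho k g j ∧ d.rho k g j ≤ 1 :=
        fun j hj g _ => rho_mem k g j ((mem_range.1 hj).le.trans hi)
      refine ⟨div_nonneg (sum_nonneg fun j hj' => prod_nonneg fun g hg => (hj j hj' g hg).1)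
        (by positivity), div_le_one_of_le₀ ?_ (by positivity)⟩
      calc ∑ j ∈ range i, ∏ g ∈ d.ch a b, d.rho k g j ≤ ∑ _j ∈ range i, (1:ℝ) :=
            sum_le_sum fun j hj' => prod_le_one (fun g hg => (hj j hj' g hg).1)
              (fun g hg => (hj j hj' g hg).2)
        _ ≤ d.N := by simp [hi]
    exact ⟨prod_nonneg fun b _ => by linarith [(hz b).2],
      prod_le_one (fun b _ => by linarith [(hz b).2]) (fun b _ => by linarith [(hz b).1])⟩

lemma rho_anti : ∀ (k : ℕ) (a : ι) (i i' : ℕ), i ≤ i' → i' ≤ d.N → d.rho k a i' ≤ d.rho k a i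
  | 0, _, _, _, _, _ => by simp [rho]
  | k + 1, a, i, i', hii, hi' => by
    rw [rho, rho]
    refine prod_le_prod (fun b _ => ?_) (fun b _ => ?_)
    · have hj : ∀ j ∈ range i', ∏ g ∈ d.ch a b, d.rho k g j ≤ 1 := fun j hj =>
        prod_le_one (fun g _ => (rho_mem k g j ((mem_range.1 hj).le.trans hi')).1)
          (fun g _ => (rho_mem k g j ((mem_range.1 hj).le.trans hi')).2)
      have : (∑ j ∈ range i', ∏ g ∈ d.ch a b, d.rho k g j) / d.N ≤ 1 := by
        refine div_le_one_of_le₀ ((sum_le_sum hj).trans ?_) (by positivity)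
        simp [hi']
      linarith
    · refine sub_le_sub_left (div_le_div_of_nonneg_right ?_ (by positivity)) _
      exact sum_le_sum_of_subset_of_nonneg (range_subset_range.2 hii) (fun j hj _ =>
        prod_nonneg fun g _ => (rho_mem k g j ((mem_range.1 hj).le.trans hi')).1)

variable (h : d.Reg)
include h

lemma exp_sub_one_le {u : ℝ} (h0 : 0 ≤ u) (h1 : u ≤ 1) : Real.exp u - 1 ≤ u + u ^ 2 := by
  have := (abs_le.1 (Real.abs_exp_sub_one_sub_id_le (x := u) (by rwa [abs_of_nonneg h0]))).2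
  linarith

/-- Stability of one branch under a perturbation of the children. -/
lemma branch_stable {q : ι → ℕ → ℝ} {e : ℕ → ℝ} {a : ι} {b : β} (hb : b ∈ d.kids a) {i : ℕ}
    (hi : i ≤ d.N) (he : ∀ j < i, 0 ≤ e j ∧ e j ≤ 1 / 50)
    (hq : ∀ g, ∀ j < i, Real.exp (d.tgt g j - e j) ≤ q g j ∧ q g j ≤ Real.exp (d.tgt g j + e j)) :
    0 ≤ d.zof q a b i ∧ d.zof q a b i ≤ 2 * d.lam / d.D ∧
    |Real.log (1 - d.zof q a b i) - Real.log (1 - d.z0 a b i)|
      ≤ 2.2 * ((∑ j ∈ range i, e j / (1 + 2 * d.D * ((j:ℝ) / d.N))) / d.N) := by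
  have hD := D_pos h
  have hN := N_pos h
  set r : ℕ → ℝ := fun j => 1 / (1 + 2 * d.D * ((j:ℝ) / d.N)) with hr
  have hr0 : ∀ j, 0 ≤ r j := fun j => by positivity
  have key : ∀ j ∈ range i, 0 ≤ ∏ g ∈ d.ch a b, q g j ∧
      |∏ g ∈ d.ch a b, q g j - ∏ g ∈ d.ch a b, Real.exp (d.tgt g j)| ≤ 2.1 * (r j * e j) := by
    intro j hj
    have hj' := mem_range.1 hj
    obtain ⟨e0, e1'⟩ := he j hj'
    have hq0 : ∀ g, 0 ≤ q g j := fun g => (Real.exp_pos _).le.trans (hq g j hj').1
    have hU : ∏ g ∈ d.ch a b, q g j ≤ (∏ g ∈ d.ch a b, Real.exp (d.tgt g j)) * Real.exp (2 * e j) := by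
      calc ∏ g ∈ d.ch a b, q g j ≤ ∏ g ∈ d.ch a b, Real.exp (d.tgt g j + e j) :=
            prod_le_prod (fun g _ => hq0 g) (fun g _ => (hq g j hj').2)
        _ = _ := by
          rw [← Real.exp_sum, ← Real.exp_sum, ← Real.exp_add, sum_add_distrib, sum_const,
            h.hch a b hb, nsmul_eq_mul]
          norm_num
    have hL : (∏ g ∈ d.ch a b, Real.exp (d.tgt g j)) * Real.exp (-(2 * e j)) ≤ ∏ g ∈ d.ch a b, q g j := by
      calc _ = ∏ g ∈ d.ch a b, Real.exp (d.tgt g j - e j) := by
            rw [← Real.exp_sum, ← Real.exp_sum, ← Real.exp_add, sum_sub_distrib, sum_const,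
              h.hch a b hb, nsmul_eq_mul]
            norm_num [sub_eq_add_neg]
        _ ≤ _ := prod_le_prod (fun g _ => (Real.exp_pos _).le) (fun g _ => (hq g j hj').1)
    refine ⟨prod_nonneg fun g _ => hq0 g, ?_⟩
    set W := ∏ g ∈ d.ch a b, Real.exp (d.tgt g j) with hW
    have hW' : 0 ≤ W ∧ W ≤ 1.004 * r j := by
      refine ⟨prod_nonneg fun g _ => (Real.exp_pos _).le, ?_⟩
      rw [hW, prod_tgt h hb]
      have := (abs_le.1 (exp_pair h hb (hj'.le.trans hi))).2
      have := el_lam h
      calc _ ≤ r j * 1.004 := mul_le_mul_of_nonneg_left (by linarith) (hr0 j)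
        _ = _ := by ring
    have u1 : Real.exp (2 * e j) - 1 ≤ 2.08 * e j := by
      have := exp_sub_one_le h (by linarith : 0 ≤ 2 * e j) (by linarith)
      nlinarith
    have u2 : 1 - Real.exp (-(2 * e j)) ≤ 2 * e j := by
      linarith [Real.add_one_le_exp (-(2 * e j))]
    have m1 := mul_le_mul hW'.2 (le_refl (e j)) e0 (by linarith [hr0 j] : 0 ≤ 1.004 * r j)
    have m2 := mul_le_mul_of_nonneg_left u1 hW'.1
    have m3 := mul_le_mul_of_nonneg_left u2 hW'.1
    have m4 := mul_nonneg (hr0 j) e0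
    have m5 := mul_nonneg hW'.1 e0
    rw [abs_le]
    constructor <;> nlinarith
  have hdiff : |d.zof q a b i - d.z0 a b i|
      ≤ 2.1 * ((∑ j ∈ range i, e j / (1 + 2 * d.D * ((j:ℝ) / d.N))) / d.N) := by
    simp only [z0, zof, ← sub_div, ← sum_sub_distrib, abs_div, abs_of_pos hN, ← mul_div_assoc, mul_sum]
    refine div_le_div_of_nonneg_right ((abs_sum_le_sum_abs _ _).trans (sum_le_sum fun j hj => ?_)) hN.le
    refine (key j hj).2.trans_eq ?_
    simp only [hr]
    ring
  obtain ⟨-, z2, z3⟩ := z0_bounds h hb hi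
  set S := (∑ j ∈ range i, e j / (1 + 2 * d.D * ((j:ℝ) / d.N))) / d.N with hS
  have hS0 : 0 ≤ S := div_nonneg (sum_nonneg fun j hj => div_nonneg (he j (mem_range.1 hj)).1
    (by positivity)) hN.le
  have hS1 : S ≤ 1 / 50 * (0.51 * d.lam / d.D) := by
    refine le_trans ?_ (mul_le_mul_of_nonneg_left (sum_r_le h hi) (by norm_num))
    rw [hS, ← mul_div_assoc, mul_sum]
    refine div_le_div_of_nonneg_right (sum_le_sum fun j hj => ?_) hN.le
    rw [div_eq_mul_one_div]
    exact mul_le_mul_of_nonneg_right (he j (mem_range.1 hj)).2 (hr0 j)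
  set z := d.zof q a b i with hz
  have hz0 : 0 ≤ z := div_nonneg (sum_nonneg fun j hj => (key j hj).1) hN.le
  have hLD : 0 ≤ d.lam / d.D := div_nonneg (by linarith [h.hlam]) hD.le
  have hz1 : z ≤ 2 * d.lam / d.D := by
    have := (abs_le.1 hdiff).2
    rw [show 0.51 * d.lam / d.D = 0.51 * (d.lam / d.D) by ring] at hS1
    rw [show 2 * d.lam / d.D = 2 * (d.lam / d.D) by ring]
    linarith
  refine ⟨hz0, hz1, ?_⟩
  have hsm := lam_div h
  have p1 : 0 < 1 - z := by
    rw [show 2 * d.lam / d.D = 2 * (d.lam / d.D) by ring] at hz1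
    linarith
  have p2 : 0 < 1 - d.z0 a b i := by linarith
  have l1 := Real.log_le_sub_one_of_pos (div_pos p1 p2)
  have l2 := Real.log_le_sub_one_of_pos (div_pos p2 p1)
  rw [Real.log_div p1.ne' p2.ne'] at l1
  rw [Real.log_div p2.ne' p1.ne'] at l2
  have f1 : (1 - z) / (1 - d.z0 a b i) - 1 ≤ |z - d.z0 a b i| * 1.04 := by
    rw [div_sub_one p2.ne', div_le_iff₀ p2]
    have := abs_nonneg (z - d.z0 a b i)
    nlinarith [neg_abs_le (z - d.z0 a b i)]
  have f2 : (1 - d.z0 a b i) / (1 - z) - 1 ≤ |z - d.z0 a b i| * 1.04 := by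
    rw [div_sub_one p1.ne', div_le_iff₀ p1]
    rw [show 2 * d.lam / d.D = 2 * (d.lam / d.D) by ring] at hz1
    have := abs_nonneg (z - d.z0 a b i)
    nlinarith [le_abs_self (z - d.z0 a b i)]
  rw [abs_le]
  constructor <;> linarith

lemma rho_succ (k : ℕ) (a : ι) (i : ℕ) :
    d.rho (k + 1) a i = ∏ b ∈ d.kids a, (1 - d.zof (d.rho k) a b i) := by
  rw [rho]; rfl

/-- One application of the recursion. -/
lemma step {k : ℕ} {e : ℕ → ℝ} (a : ι) {i : ℕ} (hi : i ≤ d.N)
    (he : ∀ j < i, 0 ≤ e j ∧ e j ≤ 1 / 50) (hq : ∀ g, ∀ j < i, d.Close k g j (e j)) :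
    d.Close (k + 1) a i (d.err + 2.21 * d.D
      * ((∑ j ∈ range i, e j / (1 + 2 * d.D * ((j:ℝ) / d.N))) / d.N)) := by
  have hD := D_pos h
  set S := (∑ j ∈ range i, e j / (1 + 2 * d.D * ((j:ℝ) / d.N))) / d.N with hS
  have hS0 : 0 ≤ S := div_nonneg (sum_nonneg fun j hj => div_nonneg (he j (mem_range.1 hj)).1
    (by positivity)) (N_pos h).le
  have hb : ∀ b ∈ d.kids a, 0 < 1 - d.zof (d.rho k) a b i ∧
      |Real.log (1 - d.zof (d.rho k) a b i) - Real.log (1 - d.z0 a b i)| ≤ 2.2 * S := by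
    intro b hb
    obtain ⟨b1, b2, b3⟩ := branch_stable h hb hi he hq
    refine ⟨?_, b3⟩
    have := lam_div h
    rw [show 2 * d.lam / d.D = 2 * (d.lam / d.D) by ring] at b2
    linarith
  have hsum : |∑ b ∈ d.kids a, Real.log (1 - d.zof (d.rho k) a b i)
      - ∑ b ∈ d.kids a, Real.log (1 - d.z0 a b i)| ≤ 2.21 * d.D * S := by
    rw [← sum_sub_distrib]
    refine (abs_sum_le_sum_abs _ _).trans ((sum_le_sum fun b hb' => (hb b hb').2).trans ?_)
    rw [sum_const, nsmul_eq_mul]
    calc ((d.kids a).card : ℝ) * (2.2 * S) ≤ 1.001 * d.D * (2.2 * S) :=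
          mul_le_mul_of_nonneg_right (card_le h a) (by positivity)
      _ ≤ _ := by nlinarith [mul_nonneg hD.le hS0]
  have hc := consistency h a hi
  have hr : d.rho (k + 1) a i = Real.exp (∑ b ∈ d.kids a, Real.log (1 - d.zof (d.rho k) a b i)) := by
    rw [rho_succ h, Real.exp_sum]
    exact prod_congr rfl fun b hb' => (Real.exp_log (hb b hb').1).symm
  unfold Close
  rw [hr]
  constructor <;> apply Real.exp_le_exp.2 <;>
    linarith [abs_le.1 hsum, abs_le.1 hc]

lemma close_mono {k : ℕ} {a : ι} {i : ℕ} {e e' : ℝ} (hc : d.Close k a i e) (he : e ≤ e') :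
    d.Close k a i e' :=
  ⟨le_trans (Real.exp_le_exp.2 (by linarith)) hc.1, le_trans hc.2 (Real.exp_le_exp.2 (by linarith))⟩

/-- The exponential weight used for the propagation of errors. -/
noncomputable def wt (d : Data ι β) (j : ℕ) : ℝ := Real.exp (6 / 5 * d.ell j)

lemma wt_ge {j : ℕ} (hj : j ≤ d.N) : 1 ≤ d.wt j :=
  Real.one_le_exp (by linarith [(el_range h hj).1])

lemma sum_wt {i : ℕ} (hi : i ≤ d.N) :
    d.D * ((∑ j ∈ range i, d.wt j / (1 + 2 * d.D * ((j:ℝ) / d.N))) / d.N) ≤ 0.42 * d.wt i := by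
  have hd : ∀ c l : ℝ, HasDerivAt (fun l => c * Real.exp (6 / 5 * l)) (c * (6 / 5) * Real.exp (6 / 5 * l)) l := by
    intro c l
    exact ((((hasDerivAt_id l).const_mul (6 / 5 : ℝ)).exp).const_mul c).congr_deriv (by simp; ring)
  have hR := d.riemann h.hD h.hN h.hell (fun l => 5 / 6 * Real.exp (6 / 5 * l))
    (fun l => Real.exp (6 / 5 * l)) (fun l => 6 / 5 * Real.exp (6 / 5 * l))
    (fun l => (hd (5 / 6) l).congr_deriv (by ring))
    (fun l => by simpa using hd 1 l)
    (M := 2 * Real.exp (2 * d.lam)) (fun l hl0 hl1 => by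
      have e1 : Real.exp (6 / 5 * l) ≤ Real.exp (2 * d.lam) := Real.exp_le_exp.2 (by linarith [h.hlam])
      have e2 := Real.exp_pos (6 / 5 * l)
      rw [abs_of_pos e2, abs_of_pos (by positivity)]
      constructor <;> linarith) hi
  have hD := D_pos h
  have hfine : 8 * (d.D ^ 2 * Real.exp (2 * d.lam) / d.N) ≤ 0.001 := by
    have h1 := h.hfine
    have h2 : d.D ^ 2 * Real.exp (2 * d.lam) / d.N
        ≤ d.D ^ 2 * Real.exp (2 * d.lam) * d.lam ^ 4 / d.N := by
      refine div_le_div_of_nonneg_right ?_ (N_pos h).le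
      exact le_mul_of_one_le_right (by positivity) (one_le_pow₀ h.hlam)
    have h3 : d.eps ^ 4 ≤ 1 / 1000 := by
      calc d.eps ^ 4 = d.eps * d.eps ^ 3 := by ring
        _ ≤ 1 / 1000 * 1 := mul_le_mul (e1 h) (pow_le_one₀ h.heps (by linarith [e1 h]))
            (pow_nonneg h.heps 3) (by norm_num)
        _ = _ := by norm_num
    linarith
  have h1 : (∑ j ∈ range i, d.wt j / (1 + 2 * d.D * ((j:ℝ) / d.N))) / d.N
      ≤ 5 / 6 * d.wt i / (2 * d.D) + 4 * d.D * (2 * Real.exp (2 * d.lam)) / d.N := by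
    have := (abs_le.1 hR).2
    simp only [wt] at *
    have h0 : 0 ≤ 5 / 6 * Real.exp (6 / 5 * 0) / (2 * d.D) := by positivity
    rw [sub_div] at this
    linarith
  refine (mul_le_mul_of_nonneg_left h1 hD.le).trans ?_
  have := wt_ge h hi
  rw [mul_add, show d.D * (5 / 6 * d.wt i / (2 * d.D)) = 5 / 12 * d.wt i by field_simp; ring,
    show d.D * (4 * d.D * (2 * Real.exp (2 * d.lam)) / d.N)
      = 8 * (d.D ^ 2 * Real.exp (2 * d.lam) / d.N) by ring]
  linarith

/-- Contraction of weighted errors. -/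
lemma contract {k : ℕ} {H : ℝ} (hH : 0 ≤ H) (a : ι) {i : ℕ} (hi : i ≤ d.N)
    (hq : ∀ g, ∀ j < i, d.Close k g j (1 / 50) ∧ d.Close k g j (H * d.wt j)) :
    d.Close (k + 1) a i ((0.93 * H + d.err) * d.wt i) := by
  have hc := step h (k := k) (e := fun j => min (1 / 50 : ℝ) (H * d.wt j)) a hi
    (fun j hj => ⟨le_min (by norm_num) (mul_nonneg hH (Real.exp_pos _).le), min_le_left _ _⟩)
    (fun g j hj => by
      rcases le_total (1 / 50) (H * d.wt j) with h' | h'
      · rw [min_eq_left h']; exact (hq g j hj).1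
      · rw [min_eq_right h']; exact (hq g j hj).2)
  refine close_mono h hc ?_
  have hD := D_pos h
  have hsum : (∑ j ∈ range i, min (1 / 50 : ℝ) (H * d.wt j) / (1 + 2 * d.D * ((j:ℝ) / d.N))) / d.N
      ≤ H * ((∑ j ∈ range i, d.wt j / (1 + 2 * d.D * ((j:ℝ) / d.N))) / d.N) := by
    rw [← mul_div_assoc H, mul_sum]
    refine div_le_div_of_nonneg_right (sum_le_sum fun j _ => ?_) (N_pos h).le
    rw [← mul_div_assoc H]
    exact div_le_div_of_nonneg_right (min_le_right (1 / 50 : ℝ) _) (by positivity)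
  have h2 := sum_wt h hi
  have herr : 0 ≤ d.err := by
    have := h.heps
    unfold err
    positivity
  have hw := wt_ge h hi
  have m1 := mul_le_mul_of_nonneg_left hsum (by positivity : 0 ≤ 2.21 * d.D)
  have m2 := mul_le_mul_of_nonneg_left h2 (by positivity : 0 ≤ 2.21 * H)
  have m3 : 0 ≤ d.err * (d.wt i - 1) := mul_nonneg herr (by linarith)
  nlinarith [mul_nonneg hH (by linarith : 0 ≤ d.wt i)]

/-- A crude bound just after a slice on which the approximation is accurate. -/
lemma crude {k : ℕ} (a : ι) {i0 i : ℕ} (h0 : i0 ≤ i) (hi : i ≤ d.N)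
    (hwidth : d.ell i - d.ell i0 ≤ 101 / 10000)
    (hk : ∀ g, ∀ j ≤ i0, d.Close k g j (1 / 1000)) (hk1 : d.Close (k + 1) a i0 (1 / 1000)) :
    d.Close (k + 1) a i (1 / 50) := by
  have hD := D_pos h
  have hN := N_pos h
  have hi0 := h0.trans hi
  set δ := d.ell i - d.ell i0 with hδ
  have hellmono : 0 ≤ δ := by
    rw [hδ, sub_nonneg]
    refine Real.log_le_log (by positivity) ?_
    gcongr
  have hs := el_lam h
  have hcor : ∀ g, |d.corr g (d.ell i) - d.corr g (d.ell i0)| ≤ 2 / 1000 := fun g => by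
    refine (abs_sub _ _).trans ?_
    linarith [corr_abs h g (el_range h hi).1 (el_range h hi).2,
      corr_abs h g (el_range h hi0).1 (el_range h hi0).2]
  have htg : d.tgt a i0 - d.tgt a i = δ / 2 - (d.corr a (d.ell i) - d.corr a (d.ell i0)) := by
    simp only [tgt, hδ]; ring
  refine ⟨?_, ?_⟩
  · have hz : ∀ b ∈ d.kids a, 0 < 1 - d.zof (d.rho k) a b i ∧
        Real.log (1 - d.zof (d.rho k) a b i0) - 1.1 * δ / (2 * d.D)
          ≤ Real.log (1 - d.zof (d.rho k) a b i) := by
      intro b hb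
      obtain ⟨b1, b2, -⟩ := branch_stable h hb hi0 (e := fun _ => 1 / 1000)
        (fun j _ => ⟨by norm_num, by norm_num⟩) (fun g j hj => hk g j hj.le)
      set z := d.zof (d.rho k) a b i0
      set z' := d.zof (d.rho k) a b i
      have hext : z' - z ≤ ((i:ℝ) - i0) / d.N * (1.01 / (1 + 2 * d.D * ((i0:ℝ) / d.N))) := by
        simp only [z', z, zof, ← sub_div, div_mul_eq_mul_div]
        refine div_le_div_of_nonneg_right ?_ hN.le
        rw [← sum_Ico_eq_sub _ h0]
        refine (sum_le_card_nsmul _ _ (1.01 / (1 + 2 * d.D * ((i0:ℝ) / d.N))) fun j hj => ?_).trans_eq ?_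
        · rw [mem_Ico] at hj
          have hjN : j ≤ d.N := hj.2.le.trans hi
          calc ∏ g ∈ d.ch a b, d.rho k g j ≤ ∏ g ∈ d.ch a b, Real.exp (d.tgt g i0 + 1 / 1000) :=
                prod_le_prod (fun g _ => (rho_mem k g j hjN).1)
                  (fun g _ => (rho_anti k g i0 j hj.1 hjN).trans (hk g i0 le_rfl).2)
            _ = (∏ g ∈ d.ch a b, Real.exp (d.tgt g i0)) * Real.exp (2 / 1000) := by
                rw [← Real.exp_sum, ← Real.exp_sum, ← Real.exp_add, sum_add_distrib, sum_const,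
                  h.hch a b hb, nsmul_eq_mul]
                norm_num
            _ ≤ _ := by
                rw [prod_tgt h hb, mul_assoc, div_eq_mul_one_div 1.01, mul_comm (1.01:ℝ)]
                refine mul_le_mul_of_nonneg_left ?_ (by positivity)
                have e3 := (abs_le.1 (exp_pair h hb hi0)).2
                have e2 : Real.exp (2 / 1000 : ℝ) ≤ 1.003 := by
                  have := exp_sub_one_le h (u := 2 / 1000) (by norm_num) (by norm_num)
                  linarith
                calc _ ≤ (1.004:ℝ) * 1.003 :=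
                      mul_le_mul (by linarith) e2 (Real.exp_pos _).le (by norm_num)
                  _ ≤ _ := by norm_num
        · rw [Nat.card_Ico, nsmul_eq_mul, Nat.cast_sub h0]
      have hdt : ((i:ℝ) - i0) / d.N * (1.01 / (1 + 2 * d.D * ((i0:ℝ) / d.N))) ≤ 1.04 * δ / (2 * d.D) := by
        have hpa : 0 < 1 + 2 * d.D * ((i0:ℝ) / d.N) := by positivity
        have hratio : Real.exp δ = (1 + 2 * d.D * ((i:ℝ) / d.N)) / (1 + 2 * d.D * ((i0:ℝ) / d.N)) := by
          rw [hδ, Real.exp_sub, ell, ell, Real.exp_log (by positivity), Real.exp_log hpa]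
        have hex := exp_sub_one_le h hellmono (by linarith)
        have e : ((i:ℝ) - i0) / d.N * (1.01 / (1 + 2 * d.D * ((i0:ℝ) / d.N)))
            = 1.01 * (Real.exp δ - 1) / (2 * d.D) := by
          rw [hratio]; field_simp; ring
        rw [e]
        refine div_le_div_of_nonneg_right ?_ (by positivity)
        nlinarith
      have hd1 : 1.04 * δ / (2 * d.D) ≤ 1 / 100 := by
        rw [div_le_iff₀ (by positivity)]; nlinarith [h.hD]
      have hsm := lam_div h
      rw [show 2 * d.lam / d.D = 2 * (d.lam / d.D) by ring] at b2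
      have p1 : 0 < 1 - z' := by linarith
      have hzz : 0 ≤ z' - z := by
        simp only [z', z, zof, ← sub_div]
        refine div_nonneg ?_ hN.le
        rw [← sum_Ico_eq_sub _ h0]
        exact sum_nonneg fun j hj => prod_nonneg fun g _ =>
          (rho_mem k g j ((mem_Ico.1 hj).2.le.trans hi)).1
      refine ⟨p1, ?_⟩
      have l2 := Real.log_le_sub_one_of_pos (div_pos (by linarith : (0:ℝ) < 1 - z) p1)
      rw [Real.log_div (by linarith) p1.ne', div_sub_one p1.ne'] at l2
      have f : (1 - z - (1 - z')) / (1 - z') ≤ 1.1 * δ / (2 * d.D) := by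
        rw [div_le_iff₀ p1]
        have e1' : 1.1 * δ / (2 * d.D) = 1.1 / 1.04 * (1.04 * δ / (2 * d.D)) := by ring
        rw [e1']
        have h9 : 0 ≤ 1.04 * δ / (2 * d.D) := by positivity
        nlinarith
      linarith
    have hi0eq : ∑ b ∈ d.kids a, Real.log (1 - d.zof (d.rho k) a b i0) ≥ d.tgt a i0 - 1 / 1000 := by
      have hpos : ∀ b ∈ d.kids a, 0 < 1 - d.zof (d.rho k) a b i0 := by
        intro b hb
        obtain ⟨b1, b2, -⟩ := branch_stable h hb hi0 (e := fun _ => 1 / 1000)
          (fun j _ => ⟨by norm_num, by norm_num⟩) (fun g j hj => hk g j hj.le)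
        have := lam_div h
        rw [show 2 * d.lam / d.D = 2 * (d.lam / d.D) by ring] at b2
        linarith
      have h1 := hk1.1
      rw [rho_succ h, ← Real.exp_log (prod_pos hpos), Real.exp_le_exp,
        Real.log_prod (fun b hb => (hpos b hb).ne')] at h1
      linarith
    rw [rho_succ h, ← Real.exp_log (prod_pos fun b hb => (hz b hb).1), Real.exp_le_exp,
      Real.log_prod (fun b hb => (hz b hb).1.ne')]
    have hsum := sum_le_sum (s := d.kids a) fun b hb => (hz b hb).2
    rw [sum_sub_distrib, sum_const, nsmul_eq_mul] at hsum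
    have hcard : ((d.kids a).card : ℝ) * (1.1 * δ / (2 * d.D)) ≤ 0.6 * δ := by
      calc _ ≤ 1.001 * d.D * (1.1 * δ / (2 * d.D)) :=
            mul_le_mul_of_nonneg_right (card_le h a) (by positivity)
        _ = 0.55055 * δ := by field_simp; ring
        _ ≤ _ := by linarith
    linarith [abs_le.1 (hcor a)]
  · refine (rho_anti (k + 1) a i0 i h0 hi).trans (hk1.2.trans (Real.exp_le_exp.2 ?_))
    linarith [abs_le.1 (hcor a)]

/-- The number of iterations after which slot times up to `m / 100` are accurate. -/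
theorem converge {q : ℕ} (hq : (0.93:ℝ) ^ q / 50 ≤ d.err)
    (hG : 16 * d.err * Real.exp (6 / 5 * d.lam) ≤ 1 / 1000) :
    ∀ (m k : ℕ), m * (q + 1) ≤ k → ∀ (a : ι) (i : ℕ), i ≤ d.N → d.ell i ≤ (m:ℝ) / 100 →
      d.Close k a i (16 * d.err * d.wt i) := by
  have hD := D_pos h
  have hN := N_pos h
  have herr : 0 ≤ d.err := by
    have := h.heps
    unfold err
    positivity
  have hGi : ∀ j ≤ d.N, 16 * d.err * d.wt j ≤ 1 / 1000 := fun j hj => by
    refine le_trans (mul_le_mul_of_nonneg_left ?_ (by linarith)) hG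
    exact Real.exp_le_exp.2 (by linarith [(el_range h hj).2])
  intro m
  induction m with
  | zero =>
    intro k _ a i hi hl
    have hi0 : i = 0 := by
      by_contra hne
      have : 0 < d.ell i := Real.log_pos (by
        have : (0:ℝ) < i := by exact_mod_cast Nat.pos_of_ne_zero hne
        have : 0 < 2 * d.D * ((i:ℝ) / d.N) := by positivity
        linarith)
      norm_num at hl
      linarith
    subst hi0
    have hr : d.rho k a 0 = 1 := by cases k <;> simp [rho]
    have hw : 0 ≤ 16 * d.err * d.wt 0 := mul_nonneg (by linarith) (Real.exp_pos _).le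
    unfold Close
    rw [hr, tgt_zero h a]
    constructor
    · exact Real.exp_le_one_iff.2 (by linarith)
    · exact Real.one_le_exp (by linarith)
  | succ m ih =>
    have hcr : ∀ k, m * (q + 1) + 1 ≤ k → ∀ (a : ι) (i : ℕ), i ≤ d.N →
        d.ell i ≤ ((m + 1 : ℕ):ℝ) / 100 → d.Close k a i (1 / 50) := by
      intro k hk a i hi hl
      obtain ⟨k', rfl⟩ : ∃ k', k = k' + 1 := ⟨k - 1, by omega⟩
      classical
      set i0 := Nat.findGreatest (fun j => d.ell j ≤ (m:ℝ) / 100) i with hi0
      have h0 : i0 ≤ i := Nat.findGreatest_le i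
      have hp : d.ell i0 ≤ (m:ℝ) / 100 :=
        Nat.findGreatest_spec (P := fun j => d.ell j ≤ (m:ℝ) / 100) (Nat.zero_le i)
          (by simp [ell]; positivity)
      have hwid : d.ell i - d.ell i0 ≤ 101 / 10000 := by
        rcases h0.eq_or_lt with he | hlt
        · rw [he]; norm_num
        · have hn : (m:ℝ) / 100 < d.ell (i0 + 1) := lt_of_not_ge
            (Nat.findGreatest_is_greatest (P := fun j => d.ell j ≤ (m:ℝ) / 100)
              (Nat.lt_succ_self i0) hlt)
          have hstep : d.ell (i0 + 1) - d.ell i0 ≤ 2 * d.D / d.N := by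
            have hpa : 0 < 1 + 2 * d.D * ((i0:ℝ) / d.N) := by positivity
            have hpb : 0 < 1 + 2 * d.D * (((i0 + 1 : ℕ):ℝ) / d.N) := by positivity
            simp only [ell]
            rw [← Real.log_div hpb.ne' hpa.ne']
            refine (Real.log_le_sub_one_of_pos (div_pos hpb hpa)).trans ?_
            rw [div_sub_one hpa.ne']
            refine (div_le_self (by push_cast; field_simp; linarith) ?_).trans (le_of_eq ?_)
            · have : 0 ≤ 2 * d.D * ((i0:ℝ) / d.N) := by positivity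
              linarith
            · push_cast; ring
          have hfine : 2 * d.D / d.N ≤ 1 / 10000 := by
            have h3 := mesh h
            have h4 := eps4_le h
            have h5 : d.eps ^ 3 ≤ 1 := pow_le_one₀ h.heps (by linarith [e1 h])
            have h6 : 2 * d.D / d.N ≤ 2 * (d.D ^ 2 / d.N) := by
              rw [← mul_div_assoc]
              exact div_le_div_of_nonneg_right (by nlinarith [h.hD]) hN.le
            linarith
          push_cast at hl
          linarith
      refine crude h a h0 hi hwid (fun g j hj => ?_) ?_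
      · have hjl : d.ell j ≤ (m:ℝ) / 100 := by
          refine le_trans (Real.log_le_log (by positivity) ?_) hp
          gcongr
        exact close_mono h (ih k' (by omega) g j (hj.trans (h0.trans hi)) hjl)
          (hGi j (hj.trans (h0.trans hi)))
      · exact close_mono h (ih (k' + 1) (by omega) a i0 (h0.trans hi) hp) (hGi i0 (h0.trans hi))
    have hit : ∀ t k, m * (q + 1) + 1 + t ≤ k → ∀ (a : ι) (i : ℕ), i ≤ d.N →
        d.ell i ≤ ((m + 1 : ℕ):ℝ) / 100 →
        d.Close k a i (((0.93:ℝ) ^ t / 50 + 15 * d.err) * d.wt i) := by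
      intro t
      induction t with
      | zero =>
        intro k hk a i hi hl
        refine close_mono h (hcr k hk a i hi hl) ?_
        have := wt_ge h hi
        nlinarith [mul_nonneg herr (by linarith : 0 ≤ d.wt i)]
      | succ t iht =>
        intro k hk a i hi hl
        obtain ⟨k', rfl⟩ : ∃ k', k = k' + 1 := ⟨k - 1, by omega⟩
        have hmono : ∀ j ≤ i, d.ell j ≤ ((m + 1 : ℕ):ℝ) / 100 := fun j hj => by
          refine le_trans (Real.log_le_log (by positivity) ?_) hl
          gcongr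
        have hc := contract h (k := k') (H := (0.93:ℝ) ^ t / 50 + 15 * d.err) (by positivity) a hi
          (fun g j hj => ⟨hcr k' (by omega) g j (hj.le.trans hi) (hmono j hj.le),
            iht k' (by omega) g j (hj.le.trans hi) (hmono j hj.le)⟩)
        refine close_mono h hc (mul_le_mul_of_nonneg_right ?_ (Real.exp_pos _).le)
        rw [pow_succ]
        linarith
    intro k hk a i hi hl
    refine close_mono h (hit q k (by rw [Nat.succ_mul] at hk; omega) a i hi hl) ?_
    refine mul_le_mul_of_nonneg_right ?_ (Real.exp_pos _).le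
    linarith

end Data

end Vale.Agent.P046.Tree
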