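import Vale.Agent.P046.Tree.Indep
import Vale.Agent.P046.Tree.RecMain

/-!
# Random greedy matching in a locally tree-like, almost regular hypergraph
-/

set_option linter.unusedSectionVars false

namespace Vale.Agent.P046.Tree

open Finset

variable {V τ : Type} [Fintype V] [DecidableEq V] [Fintype τ] [DecidableEq τ]

/-- Number of members at `f`. -/
def deg (sd : τ → Finset V) (H : Finset τ) (f : V) : ℕ := (br sd H f none).card

/-- Centred branching number at a child. -/
noncomputable def xe (sd : τ → Finset V) (H : Finset τ) (D : ℝ) (f : V) : ℝ :=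
  ((deg sd H f : ℝ) - 1) / D - 1

/-- Three term regularity of a hypergraph with triples as members. -/
structure Regular (sd : τ → Finset V) (H : Finset τ) (D eps lam c1 c2 : ℝ) (y : V → ℝ) : Prop where
  hD : 1 ≤ D
  heps : 0 ≤ eps
  hlam : 1 ≤ lam
  hell : Real.log (1 + 2 * D) ≤ lam
  hDeps : 1 / D ≤ eps ^ 2
  hsmall : 4 * eps * lam ^ 2 ≤ 1 / 1000
  hc1 : |c1| ≤ eps ^ 2
  hc2 : |c2| ≤ eps ^ 2
  hsd : ∀ T ∈ H, (sd T).card = 3
  hx : ∀ f, |xe sd H D f| ≤ eps
  hy : ∀ f, |y f| ≤ eps ^ 2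
  hxsum : ∀ f, |(∑ T ∈ br sd H f none, ∑ g ∈ (sd T).erase f, xe sd H D g) - y f * deg sd H f|
    ≤ eps ^ 3 * deg sd H f
  hysum : ∀ f, |(∑ T ∈ br sd H f none, ∑ g ∈ (sd T).erase f, y g) - c1 * deg sd H f|
    ≤ eps ^ 3 * deg sd H f
  hx2sum : ∀ f, |(∑ T ∈ br sd H f none, (∑ g ∈ (sd T).erase f, xe sd H D g) ^ 2) - c2 * deg sd H f|
    ≤ eps ^ 3 * deg sd H f

variable (sd : τ → Finset V) (H : Finset τ)

/-- The tree data of a hypergraph. -/
noncomputable def treeData (D eps lam c1 c2 : ℝ) (y : V → ℝ) (N : ℕ) : Data (V × Option τ) τ where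
  kids a := br sd H a.1 a.2
  ch a T := ((sd T).erase a.1).image (fun g => (g, some T))
  x a := ((br sd H a.1 a.2).card : ℝ) / D - 1
  y a := y a.1
  D := D
  N := N
  eps := 4 * eps
  lam := lam
  c1 := c1
  c2 := c2

lemma phi_eq_rho (D eps lam c1 c2 : ℝ) (y : V → ℝ) (N : ℕ) : ∀ (k : ℕ) (a : V × Option τ) (i : ℕ),
    phi sd H N k a.1 a.2 i = (treeData sd H D eps lam c1 c2 y N).rho k a i
  | 0, a, i => by simp [phi, Data.rho]
  | k + 1, a, i => by
    simp only [phi, Data.rho, treeData]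
    refine prod_congr rfl fun T _ => ?_
    congr 2
    refine sum_congr rfl fun j _ => ?_
    rw [prod_image (fun g _ g' _ hgg => (Prod.ext_iff.1 hgg).1)]
    exact prod_congr rfl fun g _ => phi_eq_rho D eps lam c1 c2 y N k (g, some T) j

lemma sum_skip {s s0 : Finset τ} (hs : s ⊆ s0) (hc : s0.card ≤ s.card + 1) (F : τ → ℝ) {K : ℝ}
    (hK : 0 ≤ K) (hF : ∀ T ∈ s0, |F T| ≤ K) : |∑ T ∈ s0, F T - ∑ T ∈ s, F T| ≤ K := by
  rw [← sum_sdiff hs, add_sub_cancel_right]
  refine (abs_sum_le_sum_abs _ _).trans ((sum_le_card_nsmul _ _ K fun T hT =>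
    hF T (mem_sdiff.1 hT).1).trans ?_)
  rw [nsmul_eq_mul]
  refine mul_le_of_le_one_left hK ?_
  rw [card_sdiff_of_subset hs]
  exact_mod_cast Nat.sub_le_iff_le_add'.2 hc

variable {sd H}
variable {D eps lam c1 c2 : ℝ} {y : V → ℝ} (h : Regular sd H D eps lam c1 c2 y)
include h

lemma reg_treeData {N : ℕ} (hN : 0 < N)
    (hfine : D ^ 2 * Real.exp (2 * lam) * lam ^ 4 / N ≤ (4 * eps) ^ 4 / 1000) :
    (treeData sd H D eps lam c1 c2 y N).Reg := by
  have he := h.heps
  have he1 : eps ≤ 1 / 4000 := by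
    have := h.hsmall
    have := one_le_pow₀ (n := 2) h.hlam
    nlinarith
  have hDp : 0 < D := lt_of_lt_of_le one_pos h.hD
  have hDe : 1 ≤ eps ^ 2 * D := by
    have := mul_le_mul_of_nonneg_right h.hDeps hDp.le
    rwa [div_mul_cancel₀ _ hDp.ne'] at this
  have hk : ∀ a : V × Option τ, br sd H a.1 a.2 ⊆ br sd H a.1 none ∧
      deg sd H a.1 ≤ (br sd H a.1 a.2).card + 1 := by
    intro a
    refine ⟨br_some_subset sd H a.1 a.2, ?_⟩
    rcases ha : a.2 with _ | T0
    · simp [deg]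
    · have hsub : br sd H a.1 none ⊆ insert T0 (br sd H a.1 (some T0)) := by
        intro T hT
        rcases eq_or_ne T T0 with rfl | hne
        · exact mem_insert_self _ _
        · refine mem_insert_of_mem ?_
          simp only [br, mem_filter] at hT ⊢
          exact ⟨hT.1, hT.2.1, by simpa using hne.symm⟩
      exact (card_le_card hsub).trans (card_insert_le _ _)
  have hdeg : ∀ f, (deg sd H f : ℝ) = D * (1 + xe sd H D f) + 1 := fun f => by
    simp only [xe]; field_simp; ring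
  have hxa : ∀ a : V × Option τ, |((br sd H a.1 a.2).card : ℝ) / D - 1| ≤ eps + eps ^ 2 := by
    intro a
    obtain ⟨h1, h2⟩ := hk a
    have h1' : ((br sd H a.1 a.2).card : ℝ) ≤ deg sd H a.1 := by exact_mod_cast card_le_card h1
    have h2' : (deg sd H a.1 : ℝ) ≤ (br sd H a.1 a.2).card + 1 := by exact_mod_cast h2
    obtain ⟨x1, x2⟩ := abs_le.1 (h.hx a.1)
    rw [hdeg] at h1' h2'
    rw [abs_le, div_sub_one hDp.ne', le_div_iff₀ hDp, div_le_iff₀ hDp]
    constructor <;> nlinarith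
  have hcl : ∀ a : V × Option τ, 0.9 * D ≤ ((br sd H a.1 a.2).card : ℝ) := by
    intro a
    have := (abs_le.1 (hxa a)).1
    rw [div_sub_one hDp.ne', le_div_iff₀ hDp] at this
    nlinarith
  have hpair : ∀ (F : V → ℝ) (K : ℝ), (∀ g, |F g| ≤ K) → ∀ f, ∀ T ∈ br sd H f none,
      |∑ g ∈ (sd T).erase f, F g| ≤ 2 * K := by
    intro F K hF f T hT
    simp only [br, mem_filter] at hT
    refine (abs_sum_le_sum_abs _ _).trans ((sum_le_card_nsmul _ _ K fun g _ => hF g).trans_eq ?_)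
    rw [card_erase_of_mem hT.2.1, h.hsd T hT.1, nsmul_eq_mul]
    norm_num
  have himg : ∀ (a : V × Option τ) (F : V × Option τ → ℝ) (T : τ),
      ∑ g ∈ ((sd T).erase a.1).image (fun g => (g, some T)), F g
        = ∑ g ∈ (sd T).erase a.1, F (g, some T) :=
    fun a F T => sum_image (fun g _ g' _ hgg => (Prod.ext_iff.1 hgg).1)
  have hchild : ∀ (T : τ) (g : V), T ∈ H → g ∈ sd T →
      ((br sd H g (some T)).card : ℝ) / D - 1 = xe sd H D g := by
    intro T g hT hg
    have : br sd H g (some T) = (br sd H g none).erase T := by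
      ext U
      simp only [br, mem_filter, mem_erase]
      constructor
      · rintro ⟨h1, h2, h3⟩
        exact ⟨fun he => h3 (by rw [he]), h1, h2, by simp⟩
      · rintro ⟨h3, h1, h2, -⟩
        exact ⟨h1, h2, fun he => h3 (Option.some_inj.1 he).symm⟩
    have hmem : T ∈ br sd H g none := by simp [br, hT, hg]
    rw [this, card_erase_of_mem hmem, Nat.cast_sub (card_pos.2 ⟨T, hmem⟩)]
    simp [xe, deg]
  have hsum : ∀ (a : V × Option τ) (F : τ → ℝ) (K c : ℝ), 0 ≤ K →
      (∀ T ∈ br sd H a.1 none, |F T| ≤ K) → |c| ≤ eps ^ 2 →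
      |(∑ T ∈ br sd H a.1 none, F T) - c * deg sd H a.1| ≤ eps ^ 3 * deg sd H a.1 →
      K + eps ^ 2 ≤ 3 * eps →
      |(∑ T ∈ br sd H a.1 a.2, F T) - c * (br sd H a.1 a.2).card|
        ≤ (4 * eps) ^ 3 * (br sd H a.1 a.2).card := by
    intro a F K c hK hF hc hS hK3
    obtain ⟨h1, h2⟩ := hk a
    have h1' : ((br sd H a.1 a.2).card : ℝ) ≤ deg sd H a.1 := by exact_mod_cast card_le_card h1
    have h2' : (deg sd H a.1 : ℝ) ≤ (br sd H a.1 a.2).card + 1 := by exact_mod_cast h2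
    have hs := abs_le.1 (sum_skip h1 h2 F hK hF)
    have hc' : |c * ((deg sd H a.1 : ℝ) - (br sd H a.1 a.2).card)| ≤ eps ^ 2 := by
      rw [abs_mul, abs_of_nonneg (by linarith : 0 ≤ (deg sd H a.1 : ℝ) - (br sd H a.1 a.2).card)]
      calc _ ≤ eps ^ 2 * 1 := mul_le_mul hc (by linarith) (by linarith) (sq_nonneg _)
        _ = _ := mul_one _
    have hK' : 3 * eps ≤ 4 * eps ^ 3 * (br sd H a.1 a.2).card := by
      have := hcl a
      nlinarith [mul_le_mul_of_nonneg_left hDe he, mul_le_mul_of_nonneg_left (hcl a) (pow_nonneg he 3)]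
    have h3 : eps ^ 3 ≤ eps := by nlinarith [mul_le_mul_of_nonneg_left (pow_le_one₀ he (by linarith : eps ≤ 1) (n := 2)) he]
    have h3n : 0 ≤ eps ^ 3 := pow_nonneg he 3
    rw [abs_le]
    constructor <;>
      nlinarith [abs_le.1 hS, abs_le.1 hc', mul_le_mul_of_nonneg_left h2' h3n]
  refine ⟨h.hD, hN, by simp only [treeData]; positivity, h.hlam, h.hell, ?_, ?_, hfine, ?_, ?_,
    ?_, ?_, ?_, ?_, ?_, ?_, ?_⟩ <;> simp only [treeData]
  · nlinarith [h.hDeps]
  · exact h.hsmall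
  · nlinarith [h.hc1]
  · nlinarith [h.hc2]
  · intro a T hT
    simp only [br, mem_filter] at hT
    rw [card_image_of_injective _ (fun g g' hgg => (Prod.ext_iff.1 hgg).1),
      card_erase_of_mem hT.2.1, h.hsd T hT.1]
  · intro a
    field_simp
    ring
  · intro a
    nlinarith [hxa a]
  · intro a
    nlinarith [h.hy a.1]
  · intro a
    have e : ∀ T ∈ br sd H a.1 a.2, ∑ g ∈ ((sd T).erase a.1).image (fun g => (g, some T)),
        (((br sd H g.1 g.2).card : ℝ) / D - 1) = ∑ g ∈ (sd T).erase a.1, xe sd H D g := by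
      intro T hT
      rw [himg a _ T]
      exact sum_congr rfl fun g hg => hchild T g (mem_filter.1 hT).1 (mem_erase.1 hg).2
    rw [sum_congr rfl e]
    exact hsum a _ (2 * eps) (y a.1) (by positivity)
      (hpair _ eps h.hx a.1) (h.hy a.1) (h.hxsum a.1) (by nlinarith)
  · intro a
    rw [sum_congr rfl fun T _ => himg a (fun g => y g.1) T]
    exact hsum a _ (2 * eps ^ 2) c1 (by positivity)
      (hpair _ (eps ^ 2) h.hy a.1) h.hc1 (h.hysum a.1) (by nlinarith)
  · intro a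
    have e : ∀ T ∈ br sd H a.1 a.2, (∑ g ∈ ((sd T).erase a.1).image (fun g => (g, some T)),
        (((br sd H g.1 g.2).card : ℝ) / D - 1)) ^ 2 = (∑ g ∈ (sd T).erase a.1, xe sd H D g) ^ 2 := by
      intro T hT
      rw [himg a _ T, sum_congr rfl fun g hg => hchild T g (mem_filter.1 hT).1 (mem_erase.1 hg).2]
    rw [sum_congr rfl e]
    refine hsum a _ (4 * eps ^ 2) c2 (by positivity) (fun T hT => ?_) h.hc2 (h.hx2sum a.1) (by nlinarith)
    rw [abs_pow]
    calc _ ≤ (2 * eps) ^ 2 := pow_le_pow_left₀ (abs_nonneg _) (hpair _ eps h.hx a.1 T hT) 2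
      _ = _ := by ring

/-- The survival probability of the tree rules at the final time. -/
lemma phi_final {N : ℕ} (hN : 0 < N)
    (hfine : D ^ 2 * Real.exp (2 * lam) * lam ^ 4 / N ≤ (4 * eps) ^ 4 / 1000)
    {q : ℕ} (hq : (0.93:ℝ) ^ q / 50 ≤ 20 * (4 * eps) ^ 3 * lam ^ 4)
    (hG : 320 * (4 * eps) ^ 3 * lam ^ 4 * Real.exp (6 / 5 * lam) ≤ 1 / 1000)
    {k : ℕ} (hk : ⌈100 * lam⌉₊ * (q + 1) ≤ k) (f : V) :
    Real.exp (-(4 * eps * lam + 320 * (4 * eps) ^ 3 * lam ^ 4 * Real.exp (6 / 5 * lam)))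
        / Real.sqrt (1 + 2 * D) ≤ phi sd H N k f none N ∧
      phi sd H N k f none N ≤
        Real.exp (4 * eps * lam + 320 * (4 * eps) ^ 3 * lam ^ 4 * Real.exp (6 / 5 * lam))
        / Real.sqrt (1 + 2 * D) := by
  have hr := reg_treeData h hN hfine
  set d := treeData sd H D eps lam c1 c2 y N with hd
  obtain ⟨hl0, hl1⟩ := Data.el_range hr (le_refl N)
  have hle : d.ell N ≤ (⌈100 * lam⌉₊ : ℝ) / 100 := by
    have := Nat.le_ceil (100 * lam)
    have h2 : d.lam = lam := rfl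
    rw [h2] at hl1
    rw [le_div_iff₀ (by norm_num)]
    linarith
  have hc := Data.converge hr (q := q) (by simpa [Data.err, hd, treeData] using hq)
    (by have : 16 * d.err * Real.exp (6 / 5 * d.lam)
          = 320 * (4 * eps) ^ 3 * lam ^ 4 * Real.exp (6 / 5 * lam) := by
          simp only [Data.err, hd, treeData]; ring
        rw [this]; exact hG) _ k hk (f, none) N le_rfl hle
  have hphi := phi_eq_rho sd H D eps lam c1 c2 y N k (f, none) N
  simp only at hphi
  rw [← hd] at hphi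
  have hcor := abs_le.1 (Data.corr_abs hr (f, none) hl0 hl1)
  have hel : d.ell N = Real.log (1 + 2 * D) := by
    have : (N:ℝ) ≠ 0 := by exact_mod_cast hN.ne'
    simp [Data.ell, hd, treeData, div_self this]
  have hsq : Real.exp (-(d.ell N) / 2) = 1 / Real.sqrt (1 + 2 * D) := by
    have hp : 0 < 1 + 2 * D := by linarith [h.hD]
    rw [hel, show -(Real.log (1 + 2 * D)) / 2 = -(Real.log (1 + 2 * D) / 2) by ring, Real.exp_neg,
      ← Real.log_sqrt hp.le, Real.exp_log (Real.sqrt_pos.2 hp), one_div]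
  have hw : 16 * d.err * d.wt N ≤ 320 * (4 * eps) ^ 3 * lam ^ 4 * Real.exp (6 / 5 * lam) := by
    have h1 : d.wt N ≤ Real.exp (6 / 5 * lam) := Real.exp_le_exp.2 (by
      have h2 : d.lam = lam := rfl
      rw [h2] at hl1; linarith)
    have h3 : (16 * d.err : ℝ) = 320 * (4 * eps) ^ 3 * lam ^ 4 := by
      simp only [Data.err, hd, treeData]; ring
    rw [h3]
    exact mul_le_mul_of_nonneg_left h1 (by have := h.heps; positivity)
  have he : d.eps * d.lam = 4 * eps * lam := rfl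
  unfold Data.Close at hc
  rw [hphi]
  constructor
  · refine le_trans ?_ hc.1
    rw [Data.tgt, show -(d.ell N) / 2 + d.corr (f, none) (d.ell N) - 16 * d.err * d.wt N
      = -(d.ell N) / 2 + (d.corr (f, none) (d.ell N) - 16 * d.err * d.wt N) by ring, Real.exp_add,
      hsq, div_eq_mul_one_div, mul_comm]
    exact mul_le_mul_of_nonneg_left (Real.exp_le_exp.2 (by linarith)) (by positivity)
  · refine hc.2.trans ?_
    rw [Data.tgt, show -(d.ell N) / 2 + d.corr (f, none) (d.ell N) + 16 * d.err * d.wt N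
      = -(d.ell N) / 2 + (d.corr (f, none) (d.ell N) + 16 * d.err * d.wt N) by ring, Real.exp_add,
      hsq, div_eq_mul_one_div (Real.exp _), mul_comm]
    exact mul_le_mul_of_nonneg_right (Real.exp_le_exp.2 (by linarith)) (by positivity)

end Vale.Agent.P046.Tree
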