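import Vale.Agent.P046.Present

/-!
P046, from the presence bound to trees: an edge whose depth `k` triangle neighbourhood fails
`IsTree` has near it a small triangle 2-tree with one more edge among its vertices, and the expected
number of those is small.  Also the deterministic bound on overlapping supports.
-/

namespace Vale.Agent.P046.Balls

open Finset

variable {n : ℕ}

/-- The vertices of an edge set. -/
def verts (S : Finset (Finset (Fin n))) : Finset (Fin n) := S.biUnion id

/-- Add a vertex on an edge. -/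
def grow (S : Finset (Finset (Fin n))) (x : Finset (Fin n)) (v : Fin n) :
    Finset (Finset (Fin n)) := S ∪ sides (insert v x)

/-- The edge sets of triangle trees with `j` triangles rooted at `e`. -/
def trees : ℕ → Finset (Fin n) → Finset (Finset (Finset (Fin n)))
  | 0, e => {{e}}
  | j + 1, e => (trees j e).biUnion fun S => S.biUnion fun x =>
      (univ \ verts S).image (grow S x)

/-- Some triangle tree of at most `R` triangles at `e` inside `F` spans one more edge of `F`. -/
def Bad (R : ℕ) (F : Finset (Finset (Fin n))) (e : Finset (Fin n)) : Prop :=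
  ∃ j ≤ R, ∃ S ∈ trees j e, S ⊆ F ∧ ∃ g ∈ (verts S).powersetCard 2, g ∉ S ∧ g ∈ F

lemma mem_sides {g t : Finset (Fin n)} : g ∈ sides t ↔ g ⊆ t ∧ g.card = 2 := by
  simp [sides, mem_powersetCard]

lemma sides_card_three {t : Finset (Fin n)} (h : t.card = 3) : (sides t).card = 3 := by
  simp [sides, h, Nat.choose]

lemma mem_verts {S : Finset (Finset (Fin n))} {v : Fin n} : v ∈ verts S ↔ ∃ g ∈ S, v ∈ g := by
  simp [verts]

/-- The facts about a grown tree. -/
lemma trees_spec {e : Finset (Fin n)} (he : e.card = 2) : ∀ {j : ℕ} {S}, S ∈ trees j e →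
    S.card ≤ 2 * j + 1 ∧ (verts S).card ≤ j + 2 ∧ (∀ g ∈ S, g.card = 2) ∧ e ∈ S
  | 0, S, h => by
    simp only [trees, mem_singleton] at h
    subst h
    simp [verts, he]
  | j + 1, S, h => by
    simp only [trees, mem_biUnion, mem_image, mem_sdiff, mem_univ, true_and] at h
    obtain ⟨S0, h0, x, hx, v, hv, rfl⟩ := h
    obtain ⟨hc, hvv, h2, heS⟩ := trees_spec he h0
    have hvx : v ∉ x := fun hh => hv (mem_verts.2 ⟨x, hx, hh⟩)
    have h3 : (insert v x).card = 3 := by rw [card_insert_of_notMem hvx, h2 x hx]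
    have hsub : grow S0 x v ⊆ S0 ∪ (sides (insert v x)).erase x := by
      intro g hg
      simp only [grow, mem_union] at hg
      rcases hg with hg | hg
      · exact mem_union_left _ hg
      · by_cases hgx : g = x
        · exact mem_union_left _ (hgx ▸ hx)
        · exact mem_union_right _ (mem_erase.2 ⟨hgx, hg⟩)
    refine ⟨(card_le_card hsub).trans ((card_union_le _ _).trans ?_), ?_, ?_,
      mem_union_left _ heS⟩
    · rw [card_erase_of_mem (mem_sides.2 ⟨subset_insert _ _, h2 x hx⟩), sides_card_three h3]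
      omega
    · have hs : verts (grow S0 x v) ⊆ insert v (verts S0) := by
        intro w hw
        obtain ⟨g, hg, hwg⟩ := mem_verts.1 hw
        rcases mem_union.1 hg with hg | hg
        · exact mem_insert_of_mem (mem_verts.2 ⟨g, hg, hwg⟩)
        · rcases mem_insert.1 ((mem_sides.1 hg).1 hwg) with rfl | hwx
          · exact mem_insert_self _ _
          · exact mem_insert_of_mem (mem_verts.2 ⟨x, hx, hwx⟩)
      exact (card_le_card hs).trans ((card_insert_le _ _).trans (by omega))
    · intro g hg
      rcases mem_union.1 hg with hg | hg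
      · exact h2 g hg
      · exact (mem_sides.1 hg).2

lemma card_trees_le {e : Finset (Fin n)} (he : e.card = 2) {R : ℕ} :
    ∀ j ≤ R, (trees j e).card ≤ ((2 * R + 1) * n) ^ j
  | 0, _ => by simp [trees]
  | j + 1, hj => by
    simp only [trees]
    refine card_biUnion_le.trans ((sum_le_card_nsmul _ _ ((2 * R + 1) * n) fun S hS => ?_).trans ?_)
    · refine card_biUnion_le.trans ((sum_le_card_nsmul _ _ n fun x _ => ?_).trans ?_)
      · exact card_image_le.trans ((card_le_univ _).trans (by simp))
      · rw [smul_eq_mul]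
        exact Nat.mul_le_mul_right n (by have := (trees_spec he hS).1; omega)
    · rw [smul_eq_mul, pow_succ]
      exact Nat.mul_le_mul_right _ (card_trees_le he j (by omega))

open Classical in
/-- The expected number of bad edges. -/
theorem sum_bad_le {ι : Type*} [Fintype ι] (w : ι → ℝ) (G : ι → Finset (Finset (Fin n)))
    {A q : ℝ} (hA : 0 ≤ A) (hq : 0 ≤ q) (R : ℕ) (hw : ∀ i, 0 ≤ w i)
    (hpres : ∀ S : Finset (Finset (Fin n)), (∀ g ∈ S, g.card = 2) → S.card ≤ 2 * R + 2 →
      ∑ i, (if S ⊆ G i then w i else 0) ≤ A * q ^ S.card)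
    (hexact : ∀ j ≤ R, ∀ e : Finset (Fin n), e.card = 2 → ∀ S ∈ trees j e, S.card = 2 * j + 1) :
    ∑ i, w i * ((((univ : Finset (Fin n)).powersetCard 2).filter fun e => Bad R (G i) e).card : ℝ)
      ≤ A * (n : ℝ) ^ 2 * q ^ 2 * (R + 1) * (R + 2) ^ 2 *
          (1 + (2 * R + 1) * n * q ^ 2) ^ R := by
  set P := (univ : Finset (Fin n)).powersetCard 2 with hP
  set a : Finset (Fin n) → ℕ → Finset (Finset (Finset (Fin n)) × Finset (Fin n)) :=
    fun e j => (trees j e).biUnion fun S =>
      (((verts S).powersetCard 2).filter fun g => g ∉ S).image fun g => (S, g) with ha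
  have hpt : ∀ i, ((P.filter fun e => Bad R (G i) e).card : ℝ) ≤
      ∑ e ∈ P, ∑ j ∈ range (R + 1), ∑ s ∈ a e j,
        (if insert s.2 s.1 ⊆ G i then (1 : ℝ) else 0) := by
    intro i
    rw [← sum_boole]
    refine sum_le_sum fun e _ => ?_
    split_ifs with hb
    · obtain ⟨j, hj, S, hS, hSF, g, hg, hgS, hgF⟩ := hb
      refine le_trans ?_ (single_le_sum
        (fun j _ => sum_nonneg fun s _ => by split_ifs <;> norm_num) (mem_range.2 (show j < R + 1 by omega)))
      have hmem : (S, g) ∈ a e j := by
        simp only [ha, mem_biUnion, mem_image, mem_filter]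
        exact ⟨S, hS, g, ⟨hg, hgS⟩, rfl⟩
      refine le_trans ?_ (single_le_sum (fun s _ => by split_ifs <;> norm_num) hmem)
      rw [if_pos (insert_subset hgF hSF)]
    · exact sum_nonneg fun j _ => sum_nonneg fun s _ => by split_ifs <;> norm_num
  set X : ℝ := 1 + (2 * R + 1) * n * q ^ 2 with hX
  have hterm : ∀ e ∈ P, ∀ j ∈ range (R + 1), ∀ s ∈ a e j,
      ∑ i, w i * (if insert s.2 s.1 ⊆ G i then (1 : ℝ) else 0) ≤ A * q ^ (2 * j + 2) := by
    intro e he j hj s hs
    simp only [ha, mem_biUnion, mem_image, mem_filter] at hs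
    obtain ⟨S, hS, g, ⟨hg, hgS⟩, rfl⟩ := hs
    have he2 : e.card = 2 := (mem_powersetCard.1 he).2
    have hc : (insert g S).card = 2 * j + 2 := by
      rw [card_insert_of_notMem hgS, hexact j (by simp only [mem_range] at hj; omega) e he2 S hS]
    have h2 : ∀ x ∈ insert g S, x.card = 2 := by
      intro x hx
      rcases mem_insert.1 hx with rfl | hx
      · exact (mem_powersetCard.1 hg).2
      · exact (trees_spec he2 hS).2.2.1 x hx
    simp only [mul_ite, mul_one, mul_zero]
    have := hpres (insert g S) h2 (by rw [hc]; simp only [mem_range] at hj; omega)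
    rwa [hc] at this
  have hcard : ∀ e ∈ P, ∀ j ∈ range (R + 1),
      ((a e j).card : ℝ) ≤ ((2 * R + 1) * n : ℝ) ^ j * (R + 2) ^ 2 := by
    intro e he j hj
    have he2 : e.card = 2 := (mem_powersetCard.1 he).2
    have hjR : j ≤ R := by simp only [mem_range] at hj; omega
    have h : (a e j).card ≤ ((2 * R + 1) * n) ^ j * (R + 2) ^ 2 := by
      refine card_biUnion_le.trans ((sum_le_card_nsmul _ _ ((R + 2) ^ 2) fun S hS => ?_).trans ?_)
      · refine card_image_le.trans ((card_filter_le _ _).trans ?_)
        rw [card_powersetCard]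
        exact (Nat.choose_le_pow _ 2).trans
          (Nat.pow_le_pow_left (((trees_spec he2 hS).2.1).trans (by omega)) 2)
      · rw [smul_eq_mul]
        exact Nat.mul_le_mul_right _ (card_trees_le he2 j hjR)
    exact_mod_cast h
  have hPc : (P.card : ℝ) ≤ (n : ℝ) ^ 2 := by
    rw [hP, card_powersetCard, card_univ, Fintype.card_fin]
    exact_mod_cast Nat.choose_le_pow n 2
  calc ∑ i, w i * ((P.filter fun e => Bad R (G i) e).card : ℝ)
      ≤ ∑ i, w i * ∑ e ∈ P, ∑ j ∈ range (R + 1), ∑ s ∈ a e j,
          (if insert s.2 s.1 ⊆ G i then (1 : ℝ) else 0) :=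
        sum_le_sum fun i _ => mul_le_mul_of_nonneg_left (hpt i) (hw i)
    _ = ∑ e ∈ P, ∑ j ∈ range (R + 1), ∑ s ∈ a e j,
          ∑ i, w i * (if insert s.2 s.1 ⊆ G i then (1 : ℝ) else 0) := by
        simp only [mul_sum]
        rw [sum_comm]
        refine sum_congr rfl fun e _ => ?_
        rw [sum_comm]
        exact sum_congr rfl fun j _ => sum_comm
    _ ≤ ∑ e ∈ P, ∑ _j ∈ range (R + 1), A * q ^ 2 * ((R + 2) ^ 2 * X ^ R) := by
        refine sum_le_sum fun e he => sum_le_sum fun j hj => ?_
        refine (sum_le_card_nsmul _ _ _ (hterm e he j hj)).trans ?_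
        rw [nsmul_eq_mul]
        refine (mul_le_mul_of_nonneg_right (hcard e he j hj) (by positivity)).trans ?_
        have hXj : ((2 * R + 1) * n * q ^ 2 : ℝ) ^ j ≤ X ^ R :=
          (pow_le_pow_left₀ (by positivity) (by rw [hX]; linarith) j).trans
            (pow_le_pow_right₀ (by rw [hX]; nlinarith [show (0:ℝ) ≤ (2 * R + 1) * n * q ^ 2 by positivity])
              (by simp only [mem_range] at hj; omega))
        calc ((2 * R + 1) * n : ℝ) ^ j * (R + 2) ^ 2 * (A * q ^ (2 * j + 2))
            = A * q ^ 2 * ((R + 2) ^ 2 * ((2 * R + 1) * n * q ^ 2 : ℝ) ^ j) := by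
              rw [mul_pow ((2 * R + 1) * n : ℝ) (q ^ 2), ← pow_mul, pow_add]
              ring
          _ ≤ _ := by gcongr
    _ = (P.card : ℝ) * ((R + 1) * (A * q ^ 2 * ((R + 2) ^ 2 * X ^ R))) := by
        rw [sum_const, sum_const, card_range, nsmul_eq_mul, nsmul_eq_mul]; push_cast; ring
    _ ≤ (n : ℝ) ^ 2 * ((R + 1) * (A * q ^ 2 * ((R + 2) ^ 2 * X ^ R))) := by gcongr
    _ = _ := by ring

lemma trees_card_eq {e : Finset (Fin n)} (he : e.card = 2) : ∀ {j : ℕ} {S}, S ∈ trees j e →
    S.card = 2 * j + 1
  | 0, S, h => by simp only [trees, mem_singleton] at h; subst h; simp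
  | j + 1, S, h => by
    simp only [trees, mem_biUnion, mem_image, mem_sdiff, mem_univ, true_and] at h
    obtain ⟨S0, h0, x, hx, v, hv, rfl⟩ := h
    obtain ⟨-, -, h2, -⟩ := trees_spec he h0
    have hvx : v ∉ x := fun hh => hv (mem_verts.2 ⟨x, hx, hh⟩)
    have h3 : (insert v x).card = 3 := by rw [card_insert_of_notMem hvx, h2 x hx]
    have hxT : x ∈ sides (insert v x) := mem_sides.2 ⟨subset_insert _ _, h2 x hx⟩
    have heq : grow S0 x v = S0 ∪ (sides (insert v x)).erase x := by
      ext g
      simp only [grow, mem_union, mem_erase]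
      constructor
      · rintro (hg | hg)
        · exact Or.inl hg
        · by_cases hgx : g = x
          · exact Or.inl (hgx ▸ hx)
          · exact Or.inr ⟨hgx, hg⟩
      · rintro (hg | hg)
        exacts [Or.inl hg, Or.inr hg.2]
    have hd : Disjoint S0 ((sides (insert v x)).erase x) := by
      rw [disjoint_left]
      intro g hg hg'
      obtain ⟨hgx, hgT⟩ := mem_erase.1 hg'
      obtain ⟨hsub, hc⟩ := mem_sides.1 hgT
      have : g ⊆ x := fun w hw => (mem_insert.1 (hsub hw)).resolve_left
        fun hwv => hv (mem_verts.2 ⟨g, hg, hwv ▸ hw⟩)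
      exact hgx (eq_of_subset_of_card_le this (by rw [hc, h2 x hx]))
    rw [heq, card_union_of_disjoint hd, card_erase_of_mem hxT, sides_card_three h3,
      trees_card_eq he h0]
    omega

open Classical in
/-- The expected number of bad edges, from the presence bound alone. -/
theorem expected_bad_le {ι : Type*} [Fintype ι] (w : ι → ℝ) (G : ι → Finset (Finset (Fin n)))
    {A q : ℝ} (hA : 0 ≤ A) (hq : 0 ≤ q) (R : ℕ) (hw : ∀ i, 0 ≤ w i)
    (hpres : ∀ S : Finset (Finset (Fin n)), (∀ g ∈ S, g.card = 2) → S.card ≤ 2 * R + 2 →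
      ∑ i, (if S ⊆ G i then w i else 0) ≤ A * q ^ S.card) :
    ∑ i, w i * ((((univ : Finset (Fin n)).powersetCard 2).filter fun e => Bad R (G i) e).card : ℝ)
      ≤ A * (n : ℝ) ^ 2 * q ^ 2 * (R + 1) * (R + 2) ^ 2 *
          (1 + (2 * R + 1) * n * q ^ 2) ^ R :=
  sum_bad_le w G hA hq R hw hpres fun _ _ _ he _ hS => trees_card_eq he hS

open Classical in
/-- The expected number of bad edges along the process. -/
theorem EX_bad_le {Good : ℕ → Finset (Finset (Fin n)) → Prop} (i k : ℕ)
    (E : Finset (Finset (Fin n))) {A q : ℝ} (hA : 0 ≤ A) (hq : 0 ≤ q) (R : ℕ)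
    (hpres : ∀ S : Finset (Finset (Fin n)), (∀ g ∈ S, g.card = 2) → S.card ≤ 2 * R + 2 →
      EX Good k i E (fun F => if S ⊆ F then 1 else 0) ≤ A * q ^ S.card) :
    EX Good k i E (fun F =>
        ((((univ : Finset (Fin n)).powersetCard 2).filter fun e => Bad R F e).card : ℝ))
      ≤ A * (n : ℝ) ^ 2 * q ^ 2 * (R + 1) * (R + 2) ^ 2 *
          (1 + (2 * R + 1) * n * q ^ 2) ^ R := by
  rw [EX_eq_sum]
  refine expected_bad_le _ (fun F => F) hA hq R
    (fun F => EX_nonneg (fun G => by split_ifs <;> norm_num) _ _ _) fun S h2 hS => ?_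
  refine le_of_eq_of_le ?_ (hpres S h2 hS)
  rw [EX_eq_sum (fun F => if S ⊆ F then 1 else 0) i k E]
  exact sum_congr rfl fun F _ => by split_ifs <;> simp

/-- A non-backtracking walk of (edge, triangle) steps inside `F`. -/
def Walk (F : Finset (Finset (Fin n))) :
    Option (Finset (Fin n)) → Finset (Fin n) → List (Finset (Fin n) × Finset (Fin n)) → Prop
  | _, _, [] => True
  | P, e, (x, T) :: l => x = e ∧ e ∈ sides T ∧ T ∈ triangles F ∧ P ≠ some T ∧
      (∀ p ∈ l.head?, p.1 ∈ (sides T).erase e ∧ Walk F (some T) p.1 l)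

/-- A tree with base edges of triangles and creators of edges. -/
def Oriented (e : Finset (Fin n)) (S : Finset (Finset (Fin n)))
    (b : Finset (Fin n) → Finset (Fin n)) (c : Finset (Fin n) → Option (Finset (Fin n))) : Prop :=
  c e = none ∧ ∀ T : Finset (Fin n), T.card = 3 → sides T ⊆ S →
    ∀ g ∈ sides T, g = b T ∨ c g = some T

/-- The reversed walk points to the root. -/
def Up (b : Finset (Fin n) → Finset (Fin n)) (c : Finset (Fin n) → Option (Finset (Fin n))) :
    List (Finset (Fin n) × Finset (Fin n)) → Prop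
  | [] => True
  | (x, T) :: r => x = b T ∧ c x = r.head?.map Prod.snd ∧ Up b c r

lemma up_unique {b : Finset (Fin n) → Finset (Fin n)}
    {c : Finset (Fin n) → Option (Finset (Fin n))} :
    ∀ {r r' : List (Finset (Fin n) × Finset (Fin n))}, Up b c r → Up b c r' →
      r.head?.map Prod.snd = r'.head?.map Prod.snd → r = r'
  | [], [], _, _, _ => rfl
  | [], _ :: _, _, _, h => by simp at h
  | _ :: _, [], _, _, h => by simp at h
  | (x, T) :: r, (x', T') :: r', h1, h2, h => by
    obtain ⟨hx, hc, hr⟩ := h1
    obtain ⟨hx', hc', hr'⟩ := h2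
    simp at h
    subst h
    have hxx : x = x' := hx.trans hx'.symm
    subst hxx
    rw [up_unique hr hr' (hc.symm.trans hc')]

lemma walk_up {F S : Finset (Finset (Fin n))} {e0 : Finset (Fin n)}
    {b : Finset (Fin n) → Finset (Fin n)} {c : Finset (Fin n) → Option (Finset (Fin n))}
    (ho : Oriented e0 S b c) :
    ∀ (l : List (Finset (Fin n) × Finset (Fin n))) (P : Option (Finset (Fin n)))
      (e : Finset (Fin n)) (acc : List (Finset (Fin n) × Finset (Fin n))),
      Walk F P e l → (∀ p ∈ l, sides p.2 ⊆ S) → c e = P → P = acc.head?.map Prod.snd →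
      Up b c acc → Up b c (l.reverse ++ acc)
  | [], _, _, _, _, _, _, _, h => by simpa using h
  | (x, T) :: l, P, e, acc, hw, hS, hce, hP, hacc => by
    obtain ⟨hx, heT, hT, hne, hnext⟩ := hw
    subst hx
    have hT3 : T.card = 3 := (mem_powersetCard.1 (mem_filter.1 hT).1).2
    have hsub : sides T ⊆ S := hS (x, T) (by simp)
    have hxb : x = b T := (ho.2 T hT3 hsub x heT).resolve_right fun h => hne (hce.symm.trans h)
    have hacc' : Up b c ((x, T) :: acc) := ⟨hxb, hce.trans hP, hacc⟩
    cases l with
    | nil => simpa using hacc'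
    | cons p l' =>
      obtain ⟨hp, hwp⟩ := hnext p (by simp)
      obtain ⟨hpx, hpT⟩ := mem_erase.1 hp
      have hcp : c p.1 = some T :=
        (ho.2 T hT3 hsub p.1 hpT).resolve_left fun h => hpx (h.trans hxb.symm)
      have := walk_up ho (p :: l') (some T) p.1 ((x, T) :: acc) hwp
        (fun q hq => hS q (List.mem_cons_of_mem _ hq)) hcp (by simp) hacc'
      rw [List.reverse_cons, List.append_assoc]
      simpa using this

/-- While nothing is bad, a walk stays in a small oriented tree. -/
lemma grow_walk {F : Finset (Finset (Fin n))} {e0 : Finset (Fin n)} {R : ℕ} (he : e0.card = 2)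
    (hbad : ¬ Bad R F e0) :
    ∀ (l : List (Finset (Fin n) × Finset (Fin n))) (P : Option (Finset (Fin n)))
      (e : Finset (Fin n)) (j : ℕ) (S : Finset (Finset (Fin n))),
      Walk F P e l → S ∈ trees j e0 → S ⊆ F → e ∈ S → j + l.length ≤ R →
      (∃ b c, Oriented e0 S b c) →
      ∃ j' S', j' ≤ j + l.length ∧ S' ∈ trees j' e0 ∧ S ⊆ S' ∧ S' ⊆ F ∧
        (∀ p ∈ l, sides p.2 ⊆ S') ∧ ∃ b c, Oriented e0 S' b c
  | [], _, _, j, S, _, hS, hSF, _, _, ho =>
    ⟨j, S, by simp, hS, subset_rfl, hSF, by simp, ho⟩
  | (x, T) :: l, P, e, j, S, hw, hS, hSF, heS, hlen, ho => by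
    obtain ⟨hx, heT, hT, hne, hnext⟩ := hw
    subst hx
    obtain ⟨-, -, hpair, -⟩ := trees_spec he hS
    have hT3 : T.card = 3 := (mem_powersetCard.1 (mem_filter.1 hT).1).2
    have hTF : sides T ⊆ F := (mem_filter.1 hT).2
    simp only [List.length_cons] at hlen
    -- one step
    obtain ⟨j1, S1, hj1, hS1, hSS1, hS1F, hT1, ho1⟩ : ∃ j1 S1, j1 ≤ j + 1 ∧ S1 ∈ trees j1 e0 ∧
        S ⊆ S1 ∧ S1 ⊆ F ∧ sides T ⊆ S1 ∧ ∃ b c, Oriented e0 S1 b c := by
      by_cases hin : T ⊆ verts S
      · refine ⟨j, S, by omega, hS, subset_rfl, hSF, fun g hg => ?_, ho⟩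
        by_contra hgS
        exact hbad ⟨j, by omega, S, hS, hSF, g,
          mem_powersetCard.2 ⟨(mem_sides.1 hg).1.trans hin, (mem_sides.1 hg).2⟩, hgS, hTF hg⟩
      · obtain ⟨v, hvT, hv⟩ := not_subset.1 hin
        have hvx : v ∉ x := fun hh => hv (mem_verts.2 ⟨x, heS, hh⟩)
        have hTeq : insert v x = T := by
          refine eq_of_subset_of_card_le (insert_subset hvT (mem_sides.1 heT).1) ?_
          rw [card_insert_of_notMem hvx, hpair x heS, hT3]
        have hmem : grow S x v ∈ trees (j + 1) e0 := by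
          simp only [trees, mem_biUnion, mem_image, mem_sdiff, mem_univ, true_and]
          exact ⟨S, hS, x, heS, v, hv, rfl⟩
        have hgrow : grow S x v = S ∪ sides T := by rw [grow, hTeq]
        obtain ⟨b, c, hc0, hbc⟩ := ho
        refine ⟨j + 1, grow S x v, le_rfl, hmem, subset_union_left, ?_, ?_,
          Function.update b T x, fun g => if v ∈ g then some T else c g, ?_, ?_⟩
        · rw [hgrow]; exact union_subset hSF hTF
        · rw [hgrow]; exact subset_union_right
        · have he0 : v ∉ e0 := fun hh => hv (mem_verts.2 ⟨e0, (trees_spec he hS).2.2.2, hh⟩)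
          simp [he0, hc0]
        · intro U hU3 hUS g hg
          have hgU := mem_sides.1 hg
          by_cases hUT : U = T
          · subst hUT
            by_cases hgx : g = x
            · exact Or.inl (by simp [hgx])
            · refine Or.inr ?_
              have hvg : v ∈ g := by
                by_contra hvg
                have : g ⊆ x := fun w hw => by
                  have := hgU.1 hw
                  rw [← hTeq] at this
                  exact (mem_insert.1 this).resolve_left fun h => hvg (h ▸ hw)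
                exact hgx (eq_of_subset_of_card_le this (by rw [hgU.2, hpair x heS]))
              simp [hvg]
          · -- an old triangle
            have hvU : v ∉ U := by
              intro hvU
              refine hUT (eq_of_subset_of_card_le (fun w hw => ?_) (by rw [hU3, hT3]))
              by_cases hwv : w = v
              · exact hwv ▸ hvT
              · have hvw : ({v, w} : Finset (Fin n)) ∈ sides U := by
                  refine mem_sides.2 ⟨?_, card_pair (Ne.symm hwv)⟩
                  simp [insert_subset_iff, hvU, hw]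
                have hh := hUS hvw
                rw [hgrow] at hh
                rcases mem_union.1 hh with h | h
                · exact absurd (mem_verts.2 ⟨_, h, by simp⟩) hv
                · exact (mem_sides.1 h).1 (by simp)
            have hold : sides U ⊆ S := by
              intro h hh
              have h' := hUS hh
              rw [hgrow] at h'
              refine (mem_union.1 h').elim id fun hhT => ?_
              have hsub : h ⊆ x := fun w hw => by
                have := (mem_sides.1 hhT).1 hw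
                rw [← hTeq] at this
                exact (mem_insert.1 this).resolve_left
                  fun e' => hvU ((mem_sides.1 hh).1 (e' ▸ hw))
              rw [eq_of_subset_of_card_le hsub (by rw [(mem_sides.1 hh).2, hpair x heS])]
              exact heS
            have hvg : v ∉ g := fun hh => hvU (hgU.1 hh)
            rcases hbc U hU3 hold g hg with h | h
            · exact Or.inl (by rw [Function.update_of_ne hUT]; exact h)
            · exact Or.inr (by simp [hvg, h])
    cases l with
    | nil => exact ⟨j1, S1, by simp; omega, hS1, hSS1, hS1F, by simpa using hT1, ho1⟩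
    | cons p l' =>
      obtain ⟨hp, hwp⟩ := hnext p (by simp)
      obtain ⟨j2, S2, hj2, hS2, hS12, hS2F, hl2, ho2⟩ := grow_walk he hbad (p :: l') (some T) p.1 j1 S1
        hwp hS1 hS1F (hT1 (mem_erase.1 hp).2) (by simp only [List.length_cons] at hlen ⊢; omega) ho1
      refine ⟨j2, S2, by simp only [List.length_cons] at hj2 ⊢; omega, hS2, hSS1.trans hS12, hS2F,
        fun q hq => ?_, ho2⟩
      rcases List.mem_cons.1 hq with rfl | hq
      · exact hT1.trans hS12
      · exact hl2 q hq

/-- If nothing is bad, a walk from the root is determined by its last triangle. -/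
theorem walk_unique {F : Finset (Finset (Fin n))} {e : Finset (Fin n)} {R : ℕ} (he : e.card = 2)
    (heF : e ∈ F) (hbad : ¬ Bad R F e) {l l' : List (Finset (Fin n) × Finset (Fin n))}
    (hl : Walk F none e l) (hl' : Walk F none e l') (hlen : l.length + l'.length ≤ R)
    (hlast : l.getLast?.map Prod.snd = l'.getLast?.map Prod.snd) : l = l' := by
  have h0 : ({e} : Finset (Finset (Fin n))) ∈ trees 0 e := by simp [trees]
  have ho : ∃ b c, Oriented e ({e} : Finset (Finset (Fin n))) b c := by
    refine ⟨fun _ => e, fun _ => none, rfl, fun T _ hT g hg => Or.inl ?_⟩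
    simpa using hT hg
  obtain ⟨j1, S1, hj1, hS1, hsub1, hF1, hl1, ho1⟩ := grow_walk he hbad l none e 0 {e} hl h0
    (by simpa using heF) (by simp) (by omega) ho
  obtain ⟨j2, S2, -, hS2, hsub2, -, hl2, b, c, hbc⟩ := grow_walk he hbad l' none e j1 S1 hl' hS1 hF1
    (hsub1 (by simp)) (by omega) ho1
  have u1 := walk_up hbc l none e [] hl (fun p hp => (hl1 p hp).trans hsub2) hbc.1 rfl trivial
  have u2 := walk_up hbc l' none e [] hl' hl2 hbc.1 rfl trivial
  rw [List.append_nil] at u1 u2
  exact List.reverse_injective (up_unique u1 u2 (by simpa [List.head?_reverse] using hlast))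

section Generic

variable {Ed Tr : Type*} [DecidableEq Ed] [DecidableEq Tr]

/-- The members of `H` at `e`, apart from the parent `P`. -/
def gstar (s : Tr → Finset Ed) (H : Finset Tr) (P : Option Tr) (e : Ed) : Finset Tr :=
  H.filter (fun T => e ∈ s T ∧ P ≠ some T)

/-- The triangles seen from `(P, e)` at depth `k`. -/
def gsupp (s : Tr → Finset Ed) (H : Finset Tr) : ℕ → Option Tr → Ed → Finset Tr
  | 0, _, _ => ∅
  | k + 1, P, e => (gstar s H P e).biUnion
      (fun T => insert T (((s T).erase e).biUnion (gsupp s H k (some T))))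

/-- The depth `k` neighbourhood is a tree. -/
def GTree (s : Tr → Finset Ed) (H : Finset Tr) : ℕ → Option Tr → Ed → Prop
  | 0, _, _ => True
  | k + 1, P, e =>
      ((gstar s H P e : Set Tr).PairwiseDisjoint
        (fun T => insert T (((s T).erase e).biUnion (gsupp s H k (some T))))) ∧
      ∀ T ∈ gstar s H P e,
        (((s T).erase e : Finset Ed) : Set Ed).PairwiseDisjoint (gsupp s H k (some T)) ∧
        ∀ f ∈ (s T).erase e, GTree s H k (some T) f ∧ T ∉ gsupp s H k (some T) f

variable {s : Tr → Finset Ed} {H : Finset Tr}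
variable {F : Finset (Finset (Fin n))} {ev : Ed → Finset (Fin n)} {tv : Tr → Finset (Fin n)}

lemma mem_gstar {P : Option Tr} {e : Ed} {T : Tr} :
    T ∈ gstar s H P e ↔ T ∈ H ∧ e ∈ s T ∧ P ≠ some T := by
  simp [gstar]

lemma supp_walk (hev : Function.Injective ev) (htv : Function.Injective tv)
    (hT : ∀ T ∈ H, (s T).Nonempty → tv T ∈ triangles F) (hs : ∀ T g, g ∈ s T → ev g ∈ sides (tv T)) :
    ∀ (k : ℕ) (P : Option Tr) (e : Ed) (U : Tr), U ∈ gsupp s H k P e →
      ∃ l, Walk F (P.map tv) (ev e) l ∧ l.length ≤ k ∧ l.getLast?.map Prod.snd = some (tv U) ∧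
        l.head?.map Prod.fst = some (ev e)
  | 0, _, _, _, h => by simp [gsupp] at h
  | k + 1, P, e, U, h => by
    simp only [gsupp, mem_biUnion, mem_insert] at h
    obtain ⟨T, hTs, hU⟩ := h
    obtain ⟨hTH, heT, hPT⟩ := mem_gstar.1 hTs
    have hne : P.map tv ≠ some (tv T) := fun hh => hPT (by
      obtain ⟨Q, hQ, hQT⟩ := Option.map_eq_some_iff.1 hh
      rw [hQ, htv hQT])
    rcases hU with rfl | ⟨f, hf, hU⟩
    · exact ⟨[(ev e, tv U)], ⟨rfl, hs U e heT, hT U hTH ⟨e, heT⟩, hne, by simp⟩, by simp, by simp, by simp⟩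
    · obtain ⟨l, hw, hlen, hlast, hhead⟩ := supp_walk hev htv hT hs k (some T) f U hU
      refine ⟨(ev e, tv T) :: l, ⟨rfl, hs T e heT, hT T hTH ⟨e, heT⟩, hne, fun p hp => ?_⟩, ?_, ?_, by simp⟩
      · simp only [Option.mem_def] at hp
        simp [hp] at hhead
        obtain ⟨hfe, hfT⟩ := mem_erase.1 hf
        rw [hhead]
        exact ⟨mem_erase.2 ⟨fun hh => hfe (hev hh), hs T f hfT⟩, by simpa using hw⟩
      · simp only [List.length_cons]; omega
      · cases l with
        | nil => simp at hhead
        | cons p l' => simpa using hlast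

/-- A failure of the tree property gives two walks to one triangle. -/
lemma not_isTree_walks (hev : Function.Injective ev) (htv : Function.Injective tv)
    (hT : ∀ T ∈ H, (s T).Nonempty → tv T ∈ triangles F) (hs : ∀ T g, g ∈ s T → ev g ∈ sides (tv T)) :
    ∀ (k : ℕ) (P : Option Tr) (e : Ed), ¬ GTree s H k P e →
      ∃ l l', Walk F (P.map tv) (ev e) l ∧ Walk F (P.map tv) (ev e) l' ∧ l.length ≤ k ∧
        l'.length ≤ k ∧ l ≠ l' ∧ l.getLast?.map Prod.snd = l'.getLast?.map Prod.snd ∧
        l.head?.map Prod.fst = some (ev e) ∧ l'.head?.map Prod.fst = some (ev e)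
  | 0, _, _, h => (h trivial).elim
  | k + 1, P, e, h => by
    classical
    have mapne : ∀ T, T ∈ gstar s H P e → P.map tv ≠ some (tv T) := by
      intro T hTs hh
      obtain ⟨Q, hQ, hQT⟩ := Option.map_eq_some_iff.1 hh
      exact (mem_gstar.1 hTs).2.2 (by rw [hQ, htv hQT])
    have gT : ∀ T ∈ gstar s H P e, tv T ∈ triangles F := fun T h =>
      hT T (mem_gstar.1 h).1 ⟨e, (mem_gstar.1 h).2.1⟩
    have pre : ∀ T ∈ gstar s H P e, ∀ f ∈ (s T).erase e, ∀ l,
        Walk F (some (tv T)) (ev f) l → l.head?.map Prod.fst = some (ev f) →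
        Walk F (P.map tv) (ev e) ((ev e, tv T) :: l) := by
      intro T hTs f hf l hw hhead
      refine ⟨rfl, hs T e (mem_gstar.1 hTs).2.1, gT T hTs, mapne T hTs, fun p hp => ?_⟩
      simp only [Option.mem_def] at hp
      simp [hp] at hhead
      obtain ⟨hfe, hfT⟩ := mem_erase.1 hf
      rw [hhead]
      exact ⟨mem_erase.2 ⟨fun hh => hfe (hev hh), hs T f hfT⟩, hw⟩
    have lastc : ∀ (a : Finset (Fin n) × Finset (Fin n)) (l : List _) {x : Finset (Fin n)},
        l.head?.map Prod.fst = some x → (a :: l).getLast? = l.getLast? := by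
      intro a l x hl
      cases l with
      | nil => simp at hl
      | cons p l' => simp
    have reach : ∀ T ∈ gstar s H P e, ∀ U ∈ insert T
        (((s T).erase e).biUnion (gsupp s H k (some T))),
        ∃ l, Walk F (P.map tv) (ev e) ((ev e, tv T) :: l) ∧ l.length ≤ k ∧
          ((ev e, tv T) :: l).getLast?.map Prod.snd = some (tv U) := by
      intro T hTs U hU
      rcases mem_insert.1 hU with rfl | hU
      · exact ⟨[], ⟨rfl, hs U e (mem_gstar.1 hTs).2.1, gT U hTs, mapne U hTs, by simp⟩, by simp,
          by simp⟩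
      · obtain ⟨f, hf, hU⟩ := mem_biUnion.1 hU
        obtain ⟨l, hw, hlen, hlast, hhead⟩ := supp_walk hev htv hT hs k (some T) f U hU
        exact ⟨l, pre T hTs f hf l (by simpa using hw) hhead, hlen,
          by rw [lastc _ _ hhead]; exact hlast⟩
    simp only [GTree, not_and_or] at h
    rcases h with h | h
    · simp only [Set.PairwiseDisjoint, Set.Pairwise, not_forall, exists_prop] at h
      obtain ⟨T, hTs, S, hSs, hne, hnd⟩ := h
      obtain ⟨U, hU, hU'⟩ := not_disjoint_iff.1 hnd
      obtain ⟨l, hw, hlen, hlast⟩ := reach T (mem_coe.1 hTs) U hU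
      obtain ⟨l', hw', hlen', hlast'⟩ := reach S (mem_coe.1 hSs) U hU'
      refine ⟨_, _, hw, hw', by simp; omega, by simp; omega, ?_, hlast.trans hlast'.symm,
        by simp, by simp⟩
      intro hh
      exact hne (htv (by simpa using congrArg (fun z => z.head?.map Prod.snd) hh))
    · simp only [not_forall, exists_prop, not_and_or, not_not] at h
      obtain ⟨T, hTs, h⟩ := h
      rcases h with h | ⟨f, hf, h⟩
      · simp only [Set.PairwiseDisjoint, Set.Pairwise, not_forall, exists_prop] at h
        obtain ⟨f, hf, g, hg, hne, hnd⟩ := h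
        obtain ⟨U, hU, hU'⟩ := not_disjoint_iff.1 hnd
        obtain ⟨l, hw, hlen, hlast, hhead⟩ := supp_walk hev htv hT hs k (some T) f U hU
        obtain ⟨l', hw', hlen', hlast', hhead'⟩ := supp_walk hev htv hT hs k (some T) g U hU'
        refine ⟨_, _, pre T hTs f (mem_coe.1 hf) l (by simpa using hw) hhead,
          pre T hTs g (mem_coe.1 hg) l' (by simpa using hw') hhead', by simp; omega, by simp; omega,
          ?_, ?_, by simp, by simp⟩
        · intro hh
          rw [List.cons.injEq] at hh
          rw [hh.2, hhead'] at hhead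
          exact hne (hev (Option.some.inj hhead).symm)
        · rw [lastc _ _ hhead, lastc _ _ hhead', hlast, hlast']
      · rcases h with h | h
        · obtain ⟨l, l', hw, hw', hlen, hlen', hne, hlast, hhead, hhead'⟩ :=
            not_isTree_walks hev htv hT hs k (some T) f h
          refine ⟨_, _, pre T hTs f hf l (by simpa using hw) hhead,
            pre T hTs f hf l' (by simpa using hw') hhead', by simp; omega, by simp; omega,
            fun hh => hne (List.cons.inj hh).2, ?_, by simp, by simp⟩
          rw [lastc _ _ hhead, lastc _ _ hhead', hlast]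
        · obtain ⟨l, hw, hlen, hlast, hhead⟩ := supp_walk hev htv hT hs k (some T) f T h
          refine ⟨[(ev e, tv T)], _,
            ⟨rfl, hs T e (mem_gstar.1 hTs).2.1, gT T hTs, mapne T hTs, by simp⟩,
            pre T hTs f hf l (by simpa using hw) hhead, by simp, by simp; omega, ?_, ?_, by simp,
            by simp⟩
          · intro hh
            rw [← (List.cons.inj hh).2] at hhead
            simp at hhead
          · rw [lastc _ _ hhead, hlast]; simp

/-- An edge that is not bad has a tree neighbourhood. -/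
theorem isTree_of_not_bad (hev : Function.Injective ev) (htv : Function.Injective tv)
    (hT : ∀ T ∈ H, (s T).Nonempty → tv T ∈ triangles F) (hs : ∀ T g, g ∈ s T → ev g ∈ sides (tv T))
    {k R : ℕ} (hR : 2 * k ≤ R) {e : Ed} (he : (ev e).card = 2) (heF : ev e ∈ F)
    (hbad : ¬ Bad R F (ev e)) : GTree s H k none e := by
  by_contra h
  obtain ⟨l, l', hw, hw', hlen, hlen', hne, hlast, -, -⟩ :=
    not_isTree_walks hev htv hT hs k none e h
  exact hne (walk_unique he heF hbad (by simpa using hw) (by simpa using hw') (by omega) hlast)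

open Classical in
/-- The roots without a tree neighbourhood are no more than the bad pairs. -/
theorem card_not_isTree_le [Fintype Ed] (hev : Function.Injective ev)
    (htv : Function.Injective tv) (hT : ∀ T ∈ H, (s T).Nonempty → tv T ∈ triangles F)
    (hs : ∀ T g, g ∈ s T → ev g ∈ sides (tv T)) (hpair : ∀ e, (ev e).card = 2)
    (hF : ∀ e, ev e ∈ F) {k R : ℕ} (hR : 2 * k ≤ R) :
    ((univ : Finset Ed).filter fun e => ¬ GTree s H k none e).card ≤
      (((univ : Finset (Fin n)).powersetCard 2).filter fun e => Bad R F e).card := by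
  rw [← card_image_of_injective _ hev]
  refine card_le_card fun g hg => ?_
  simp only [mem_image, mem_filter, mem_univ, true_and] at hg
  obtain ⟨e, he, rfl⟩ := hg
  refine mem_filter.2 ⟨mem_powersetCard.2 ⟨subset_univ _, hpair e⟩, ?_⟩
  by_contra h
  exact he (isTree_of_not_bad hev htv hT hs hR (hpair e) (hF e) h)

end Generic

section Overlap

variable {Ed Tr : Type*} [DecidableEq Ed] [DecidableEq Tr] {s : Tr → Finset Ed}
variable {H : Finset Tr}

/-- At most `(3 Δ + 3) ^ k` triangles are seen at depth `k`. -/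
lemma card_supp_le {Δ : ℕ} (h3 : ∀ T, (s T).card ≤ 3)
    (hΔ : ∀ g, (H.filter fun T => g ∈ s T).card ≤ Δ) :
    ∀ (k : ℕ) (P : Option Tr) (e : Ed), (gsupp s H k P e).card ≤ (3 * Δ + 3) ^ k
  | 0, _, _ => by simp [gsupp]
  | k + 1, P, e => by
    simp only [gsupp]
    refine card_biUnion_le.trans ((sum_le_card_nsmul _ _ (3 * (3 * Δ + 3) ^ k) fun T hT => ?_).trans ?_)
    · refine (card_insert_le _ _).trans ?_
      have h1 : ((s T).erase e).card ≤ 2 := by
        rw [card_erase_of_mem (mem_gstar.1 hT).2.1]
        have := h3 T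
        omega
      have h2 := card_biUnion_le_card_mul ((s T).erase e) (gsupp s H k (some T)) _
        fun f _ => card_supp_le h3 hΔ k (some T) f
      have h4 : 1 ≤ (3 * Δ + 3) ^ k := Nat.one_le_pow _ _ (by omega)
      nlinarith
    · have h5 : (gstar s H P e).card ≤ Δ :=
        (card_le_card (fun T hT => mem_filter.2 ⟨(mem_gstar.1 hT).1, (mem_gstar.1 hT).2.1⟩)).trans (hΔ e)
      rw [smul_eq_mul, pow_succ]
      nlinarith [Nat.zero_le ((3 * Δ + 3) ^ k)]

/-- The edges within `k` steps of a triangle. -/
def near (s : Tr → Finset Ed) (H : Finset Tr) : ℕ → Tr → Finset Ed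
  | 0, _ => ∅
  | k + 1, U => s U ∪ (near s H k U).biUnion fun g =>
      (H.filter fun T => g ∈ s T).biUnion s

lemma mem_near : ∀ (k : ℕ) (P : Option Tr) (e : Ed) (U : Tr), U ∈ gsupp s H k P e →
    e ∈ near s H k U
  | 0, _, _, _, h => by simp [gsupp] at h
  | k + 1, P, e, U, h => by
    simp only [gsupp, mem_biUnion, mem_insert] at h
    obtain ⟨T, hT, hU⟩ := h
    have heT := (mem_gstar.1 hT).2.1
    rcases hU with rfl | ⟨f, hf, hU⟩
    · exact mem_union_left _ heT
    · exact mem_union_right _ (mem_biUnion.2 ⟨f, mem_near k (some T) f U hU,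
        mem_biUnion.2 ⟨T, mem_filter.2 ⟨(mem_gstar.1 hT).1, (mem_erase.1 hf).2⟩, heT⟩⟩)

lemma card_near_le {Δ : ℕ} (h3 : ∀ T, (s T).card ≤ 3)
    (hΔ : ∀ g, (H.filter fun T => g ∈ s T).card ≤ Δ) :
    ∀ (k : ℕ) (U : Tr), (near s H k U).card ≤ (3 * Δ + 3) ^ k
  | 0, _ => by simp [near]
  | k + 1, U => by
    have h2 : ∀ g ∈ near s H k U,
        ((H.filter fun T => g ∈ s T).biUnion s).card ≤ 3 * Δ := fun g _ => by
      have := card_biUnion_le_card_mul (H.filter fun T => g ∈ s T) s 3
        fun T _ => h3 T
      have := hΔ g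
      nlinarith
    have := card_biUnion_le_card_mul _ _ _ h2
    have := card_near_le h3 hΔ k U
    have h4 : 1 ≤ (3 * Δ + 3) ^ k := Nat.one_le_pow _ _ (by omega)
    have := h3 U
    refine (card_union_le _ _).trans ?_
    rw [pow_succ]
    nlinarith

/-- Few roots have a neighbourhood meeting that of a given root. -/
theorem card_overlap_le [Fintype Ed] {Δ : ℕ} (h3 : ∀ T, (s T).card ≤ 3)
    (hΔ : ∀ g, (H.filter fun T => g ∈ s T).card ≤ Δ)
    (good : Finset Ed) (k : ℕ) (e : Ed) :
    (good.filter fun e' => ¬ Disjoint (gsupp s H k none e) (gsupp s H k none e')).card ≤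
      (3 * Δ + 3) ^ (2 * k) := by
  classical
  refine (card_le_card (t := (gsupp s H k none e).biUnion (near s H k)) ?_).trans ?_
  · intro e' he'
    obtain ⟨U, hU, hU'⟩ := not_disjoint_iff.1 (mem_filter.1 he').2
    exact mem_biUnion.2 ⟨U, hU, mem_near k none e' U hU'⟩
  · refine (card_biUnion_le_card_mul _ _ _ fun U _ => card_near_le h3 hΔ k U).trans ?_
    rw [two_mul, pow_add]
    exact Nat.mul_le_mul_right _ (card_supp_le h3 hΔ k none e)

end Overlap

end Vale.Agent.P046.Balls
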