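import Vale.Agent.P046.Tree.Label

/-!
Truncated survival in greedy packing by uniform labels, and its expectation on triangle trees.
-/

namespace Vale.Agent.P046.Tree

open MeasureTheory ProbabilityTheory Finset
open scoped Classical

variable {Ed Tr : Type*} [DecidableEq Ed] [Fintype Tr] [DecidableEq Tr]
variable (sides : Tr → Finset Ed)

/-- The triangles at `e`, other than the parent `P`. -/
def star (P : Option Tr) (e : Ed) : Finset Tr :=
  univ.filter (fun T => e ∈ sides T ∧ P ≠ some T)

/-- The other sides of `T`. -/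
def others (T : Tr) (e : Ed) : Finset Ed := (sides T).erase e

/-- The indicator that label `u` is before time `t`. -/
noncomputable def bef (t u : ℝ) : ℝ := if u < t then 1 else 0

/-- Branch survival: `e` is not covered by time `t` through a triangle other than `P`, at depth
`k`. Depth `0` is survival. -/
noncomputable def Y : ℕ → Option Tr → Ed → ℝ → (Tr → ℝ) → ℝ
  | 0, _, _, _, _ => 1
  | k + 1, P, e, t, U => ∏ T ∈ star sides P e,
      (1 - bef t (U T) * ∏ f ∈ others sides T e, Y k (some T) f (U T) U)

/-- Full truncated survival, with no parent excluded. -/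
noncomputable def W : ℕ → Ed → ℝ → (Tr → ℝ) → ℝ
  | 0, _, _, _ => 1
  | k + 1, e, t, U => ∏ T ∈ star sides none e,
      (1 - bef t (U T) * ∏ f ∈ others sides T e, W k f (U T) U)

/-- The product recursion. -/
noncomputable def Phi : ℕ → Option Tr → Ed → ℝ → ℝ
  | 0, _, _, _ => 1
  | k + 1, P, e, t => ∏ T ∈ star sides P e,
      (1 - ∫ s in (0:ℝ)..t, ∏ f ∈ others sides T e, Phi k (some T) f s)

/-- The triangles seen by `Y k P e`. -/
def supp : ℕ → Option Tr → Ed → Finset Tr
  | 0, _, _ => ∅
  | k + 1, P, e => (star sides P e).biUnion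
      (fun T => insert T ((others sides T e).biUnion (supp k (some T))))

/-- The neighbourhood of depth `k` is a tree. -/
def IsTree : ℕ → Option Tr → Ed → Prop
  | 0, _, _ => True
  | k + 1, P, e =>
      ((star sides P e : Set Tr).PairwiseDisjoint
        (fun T => insert T ((others sides T e).biUnion (supp sides k (some T))))) ∧
      ∀ T ∈ star sides P e,
        ((others sides T e : Set Ed).PairwiseDisjoint (supp sides k (some T))) ∧
        ∀ f ∈ others sides T e, IsTree k (some T) f ∧ T ∉ supp sides k (some T) f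

variable {sides}

omit [Fintype Tr] [DecidableEq Tr] [DecidableEq Ed] in
lemma bef_mem (t u : ℝ) : bef t u ∈ Set.Icc (0:ℝ) 1 := by
  unfold bef; split_ifs <;> simp

/-- One factor of a survival product lies in `[0, 1]`. -/
lemma factor_mem {ι : Type*} {S : Finset ι} {b : ℝ} {g : ι → ℝ} (hb : b ∈ Set.Icc (0:ℝ) 1)
    (hg : ∀ i ∈ S, g i ∈ Set.Icc (0:ℝ) 1) :
    1 - b * ∏ i ∈ S, g i ∈ Set.Icc (0:ℝ) 1 := by
  have h0 : 0 ≤ ∏ i ∈ S, g i := prod_nonneg fun i hi => (hg i hi).1
  have h1 : ∏ i ∈ S, g i ≤ 1 := prod_le_one (fun i hi => (hg i hi).1) (fun i hi => (hg i hi).2)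
  constructor
  · nlinarith [hb.1, hb.2]
  · nlinarith [hb.1, hb.2]

lemma Y_mem : ∀ (k : ℕ) (P : Option Tr) (e : Ed) (t : ℝ) (U : Tr → ℝ),
    Y sides k P e t U ∈ Set.Icc (0:ℝ) 1
  | 0, _, _, _, _ => by simp [Y]
  | k + 1, P, e, t, U => by
    have h : ∀ T ∈ star sides P e,
        (1 - bef t (U T) * ∏ f ∈ others sides T e, Y sides k (some T) f (U T) U)
          ∈ Set.Icc (0:ℝ) 1 :=
      fun T _ => factor_mem (bef_mem _ _) (fun f _ => Y_mem k (some T) f (U T) U)
    simp only [Y]
    exact ⟨prod_nonneg fun T hT => (h T hT).1,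
      prod_le_one (fun T hT => (h T hT).1) (fun T hT => (h T hT).2)⟩

lemma W_mem : ∀ (k : ℕ) (e : Ed) (t : ℝ) (U : Tr → ℝ),
    W sides k e t U ∈ Set.Icc (0:ℝ) 1
  | 0, _, _, _ => by simp [W]
  | k + 1, e, t, U => by
    have h : ∀ T ∈ star sides none e,
        (1 - bef t (U T) * ∏ f ∈ others sides T e, W sides k f (U T) U) ∈ Set.Icc (0:ℝ) 1 :=
      fun T _ => factor_mem (bef_mem _ _) (fun f _ => W_mem k f (U T) U)
    simp only [W]
    exact ⟨prod_nonneg fun T hT => (h T hT).1,
      prod_le_one (fun T hT => (h T hT).1) (fun T hT => (h T hT).2)⟩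

lemma measurable_Y : ∀ (k : ℕ) (P : Option Tr) (e : Ed),
    Measurable fun p : ℝ × (Tr → ℝ) => Y sides k P e p.1 p.2
  | 0, _, _ => by simp only [Y]; exact measurable_const
  | k + 1, P, e => by
    simp only [Y]
    refine Finset.measurable_prod _ fun T _ => ?_
    refine measurable_const.sub (Measurable.mul ?_ ?_)
    · unfold bef
      exact Measurable.ite (measurableSet_lt ((measurable_pi_apply T).comp measurable_snd)
        measurable_fst) measurable_const measurable_const
    · refine Finset.measurable_prod _ fun f _ => ?_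
      exact Measurable.comp (g := fun p : ℝ × (Tr → ℝ) => Y sides k (some T) f p.1 p.2)
        (f := fun p : ℝ × (Tr → ℝ) => (p.2 T, p.2)) (measurable_Y k (some T) f)
        (((measurable_pi_apply T).comp measurable_snd).prodMk measurable_snd)

lemma measurable_Y_time (k : ℕ) (P : Option Tr) (e : Ed) (t : ℝ) :
    Measurable fun U : Tr → ℝ => Y sides k P e t U :=
  (measurable_Y k P e).comp (measurable_const.prodMk measurable_id)

lemma dependsOn_Y : ∀ (k : ℕ) (P : Option Tr) (e : Ed) (t : ℝ),
    DependsOn (fun U : Tr → ℝ => Y sides k P e t U) (supp sides k P e : Set Tr)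
  | 0, _, _, _ => fun _ _ _ => rfl
  | k + 1, P, e, t => fun U V h => by
    simp only [Y]
    refine prod_congr rfl fun T hT => ?_
    have hT' : U T = V T := h T (mem_coe.2 (mem_biUnion.2 ⟨T, hT, mem_insert_self T _⟩))
    rw [hT']
    congr 2
    refine prod_congr rfl fun f hf => dependsOn_Y k (some T) f (V T) fun i hi => ?_
    exact h i (mem_coe.2 (mem_biUnion.2 ⟨T, hT,
      mem_insert_of_mem (mem_biUnion.2 ⟨f, hf, mem_coe.1 hi⟩)⟩))

/-- A triangle at `e` other than the parent. -/
lemma mem_star {P : Option Tr} {e : Ed} {T : Tr} :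
    T ∈ star sides P e ↔ e ∈ sides T ∧ P ≠ some T := by
  simp [star]

/-- Before the parent's label the branch survival equals the full one. -/
lemma Y_eq_W : ∀ (k : ℕ) (P : Option Tr) (e : Ed) (s : ℝ) (U : Tr → ℝ),
    (∀ T, P = some T → s ≤ U T) → Y sides k P e s U = W sides k e s U
  | 0, _, _, _, _, _ => rfl
  | k + 1, P, e, s, U, hP => by
    have hkid : ∀ T, ∀ f, Y sides k (some T) f (U T) U = W sides k f (U T) U := fun T f =>
      Y_eq_W k (some T) f (U T) U fun T' h => by rw [Option.some.inj h]
    simp only [Y, W, hkid]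
    refine prod_subset (fun T hT => mem_star.2 ⟨(mem_star.1 hT).1, by simp⟩) fun T hT hT' => ?_
    have hPT : P = some T := by
      by_contra hne
      exact hT' (mem_star.2 ⟨(mem_star.1 hT).1, hne⟩)
    simp [bef, not_lt.2 (hP T hPT)]

lemma W_eq_Y (k : ℕ) (e : Ed) (t : ℝ) (U : Tr → ℝ) :
    W sides k e t U = Y sides k none e t U :=
  (Y_eq_W k none e t U (fun _ h => by simp at h)).symm

/-- A survival function obeying the greedy fixed point lies between the truncations. -/
lemma W_sandwich {X : Ed → ℝ → ℝ} {U : Tr → ℝ} (hX : ∀ e t, X e t ∈ Set.Icc (0:ℝ) 1)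
    (hfix : ∀ e t, X e t = ∏ T ∈ star sides none e,
      (1 - bef t (U T) * ∏ f ∈ others sides T e, X f (U T))) :
    ∀ (k : ℕ) (e : Ed) (t : ℝ), (Even k → X e t ≤ W sides k e t U) ∧
      (Odd k → W sides k e t U ≤ X e t)
  | 0, e, t => ⟨fun _ => by simpa [W] using (hX e t).2, fun h => by simp at h⟩
  | k + 1, e, t => by
    constructor
    · intro hk
      have ho : Odd k := by simpa [Nat.even_add_one] using hk
      rw [hfix e t]
      simp only [W]
      refine prod_le_prod (fun T _ => (factor_mem (bef_mem _ _) (fun f _ => hX f _)).1) fun T _ => ?_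
      have h := prod_le_prod (s := others sides T e) (fun f _ => (W_mem k f (U T) U).1)
        (fun f _ => (W_sandwich hX hfix k f (U T)).2 ho)
      have := mul_le_mul_of_nonneg_left h (bef_mem t (U T)).1
      linarith
    · intro hk
      have he : Even k := by simpa [Nat.odd_add_one] using hk
      rw [hfix e t]
      simp only [W]
      refine prod_le_prod (fun T _ => (factor_mem (bef_mem _ _) (fun f _ => W_mem k f _ _)).1)
        fun T _ => ?_
      have h := prod_le_prod (s := others sides T e) (fun f _ => (hX f (U T)).1)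
        (fun f _ => (W_sandwich hX hfix k f (U T)).1 he)
      have := mul_le_mul_of_nonneg_left h (bef_mem t (U T)).1
      linarith

lemma measurable_W (k : ℕ) (e : Ed) (t : ℝ) :
    Measurable fun U : Tr → ℝ => W sides k e t U := by
  simp only [W_eq_Y]
  exact measurable_Y_time k none e t

omit [Fintype Tr] [DecidableEq Tr] [DecidableEq Ed] in
lemma integral_bef (g : ℝ → ℝ) {t : ℝ} (ht : t ∈ Set.Icc (0:ℝ) 1) :
    ∫ s, bef t s * g s ∂lab = ∫ s in (0:ℝ)..t, g s := by
  have h : (fun s => bef t s * g s) = Set.indicator (Set.Iio t) g := by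
    funext s
    by_cases hs : s < t
    · rw [Set.indicator_of_mem (by exact hs)]; simp [bef, hs]
    · rw [Set.indicator_of_notMem (by exact hs)]; simp [bef, hs]
  rw [h, integral_indicator measurableSet_Iio, lab, Measure.restrict_restrict measurableSet_Iio,
    intervalIntegral.integral_of_le ht.1]
  refine setIntegral_congr_set ?_
  have hset : Set.Iio t ∩ Set.Icc 0 1 = Set.Ico 0 t := by
    ext s
    simp only [Set.mem_inter_iff, Set.mem_Iio, Set.mem_Icc, Set.mem_Ico]
    exact ⟨fun h => ⟨h.2.1, h.1⟩, fun h => ⟨h.2, h.1, h.2.le.trans ht.2⟩⟩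
  rw [hset]
  exact Ico_ae_eq_Ioc

lemma abs_le_one_of_mem {x : ℝ} (h : x ∈ Set.Icc (0:ℝ) 1) : |x| ≤ 1 :=
  abs_le.2 ⟨by linarith [h.1], h.2⟩

/-- On a tree the expected branch survival obeys the product recursion. -/
theorem integral_Y : ∀ (k : ℕ) (P : Option Tr) (e : Ed) (t : ℝ), t ∈ Set.Icc (0:ℝ) 1 →
    IsTree sides k P e →
    ∫ U, Y sides k P e t U ∂labels Tr = Phi sides k P e t
  | 0, _, _, _, _, _ => by simp [Y, Phi]
  | k + 1, P, e, t, ht, hk => by
    simp only [Y, Phi]
    set A : Tr → Finset Tr :=
      fun T => insert T ((others sides T e).biUnion (supp sides k (some T))) with hA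
    set F : Tr → (Tr → ℝ) → ℝ :=
      fun T U => 1 - bef t (U T) * ∏ f ∈ others sides T e, Y sides k (some T) f (U T) U with hF
    have hmeas : ∀ T, Measurable (F T) := by
      intro T
      refine measurable_const.sub (Measurable.mul ?_ ?_)
      · unfold bef
        exact Measurable.ite (measurableSet_lt (measurable_pi_apply T) measurable_const)
          measurable_const measurable_const
      · exact Finset.measurable_prod _ fun f _ =>
          Measurable.comp (g := fun p : ℝ × (Tr → ℝ) => Y sides k (some T) f p.1 p.2)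
            (f := fun U : Tr → ℝ => (U T, U)) (measurable_Y k (some T) f)
            ((measurable_pi_apply T).prodMk measurable_id)
    have hdep : ∀ T, DependsOn (F T) (A T : Set Tr) := by
      intro T U V h
      have hT : U T = V T := h T (mem_coe.2 (mem_insert_self T _))
      simp only [hF, hT]
      congr 2
      refine prod_congr rfl fun f hf => dependsOn_Y k (some T) f (V T) fun i hi => ?_
      exact h i (mem_coe.2 (mem_insert_of_mem (mem_biUnion.2 ⟨f, hf, mem_coe.1 hi⟩)))
    rw [integral_prod_disjoint (star sides P e) A F hk.1 (fun T _ => hmeas T)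
      (fun T _ => hdep T)]
    refine prod_congr rfl fun T hT => ?_
    obtain ⟨hpd, hkid⟩ := hk.2 T hT
    set G : (Tr → ℝ) → ℝ :=
      fun U => bef t (U T) * ∏ f ∈ others sides T e, Y sides k (some T) f (U T) U with hG
    have hGm : Measurable G := by
      have h : G = fun U => 1 - F T U := by funext U; simp [hF, hG]
      rw [h]; exact measurable_const.sub (hmeas T)
    have hG1 : ∀ U, |G U| ≤ 1 := fun U => by
      have := factor_mem (S := others sides T e) (bef_mem t (U T))
        (fun f _ => Y_mem (sides := sides) k (some T) f (U T) U)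
      exact abs_le_one_of_mem ⟨by linarith [this.2], by linarith [this.1]⟩
    have hsub : ∫ U, F T U ∂labels Tr = 1 - ∫ U, G U ∂labels Tr := by
      simp only [hF]
      rw [integral_sub (integrable_const _)
        (Integrable.of_bound hGm.aestronglyMeasurable 1
          (Filter.Eventually.of_forall fun U => by rw [Real.norm_eq_abs]; exact hG1 U))]
      simp
    rw [hsub, integral_update T hGm hG1]
    congr 1
    have hupd : ∀ (s : ℝ) (U : Tr → ℝ), G (Function.update U T s)
        = bef t s * ∏ f ∈ others sides T e, Y sides k (some T) f s U := by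
      intro s U
      simp only [hG, Function.update_self]
      congr 1
      refine prod_congr rfl fun f hf => dependsOn_Y k (some T) f s fun i hi => ?_
      have hne : i ≠ T := by
        rintro rfl
        exact (hkid f hf).2 (mem_coe.1 hi)
      exact Function.update_of_ne hne _ _
    simp only [hupd, integral_const_mul]
    rw [integral_bef _ ht]
    refine intervalIntegral.integral_congr fun s hs => ?_
    rw [Set.uIcc_of_le ht.1] at hs
    rw [integral_prod_disjoint (others sides T e) (supp sides k (some T))
      (fun f U => Y sides k (some T) f s U) hpd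
      (fun f _ => measurable_Y_time k (some T) f s) (fun f _ => dependsOn_Y k (some T) f s)]
    exact prod_congr rfl fun f hf =>
      integral_Y k (some T) f s ⟨hs.1, hs.2.trans ht.2⟩ (hkid f hf).1

/-- On a tree the expected full survival obeys the product recursion. -/
theorem integral_W (k : ℕ) (e : Ed) {t : ℝ} (ht : t ∈ Set.Icc (0:ℝ) 1)
    (hk : IsTree sides k none e) :
    ∫ U, W sides k e t U ∂labels Tr = Phi sides k none e t := by
  simp only [W_eq_Y]
  exact integral_Y k none e t ht hk

lemma supp_mono : ∀ (k : ℕ) (P : Option Tr) (e : Ed), supp sides k P e ⊆ supp sides (k + 1) P e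
  | 0, _, _ => by simp [supp]
  | k + 1, P, e => by
    simp only [supp]
    exact biUnion_mono fun T _ => insert_subset_insert _
      (biUnion_mono fun f _ => supp_mono k (some T) f)

lemma IsTree.pred : ∀ {k : ℕ} {P : Option Tr} {e : Ed},
    IsTree sides (k + 1) P e → IsTree sides k P e
  | 0, _, _, _ => trivial
  | k + 1, P, e, h => by
    refine ⟨fun T hT S hS hne => ?_, fun T hT => ⟨fun f hf g hg hne => ?_, fun f hf => ⟨?_, ?_⟩⟩⟩
    · exact Disjoint.mono (insert_subset_insert _ (biUnion_mono fun f _ => supp_mono k (some T) f))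
        (insert_subset_insert _ (biUnion_mono fun f _ => supp_mono k (some S) f)) (h.1 hT hS hne)
    · exact Disjoint.mono (supp_mono k (some T) f) (supp_mono k (some T) g)
        ((h.2 T hT).1 hf hg hne)
    · exact IsTree.pred ((h.2 T hT).2 f hf).1
    · exact fun hm => ((h.2 T hT).2 f hf).2 (supp_mono k (some T) f hm)

end Vale.Agent.P046.Tree
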