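import Vale.Agent.P046.Tree.Balls
import Vale.Agent.P046.Tree.Survive

/-!
The bad root bounds, for the tree predicate of the label survival rules.
-/

namespace Vale.Agent.P046.Balls

open Finset

variable {n : ℕ} {Ed Tr : Type*} [DecidableEq Ed] [Fintype Tr] [DecidableEq Tr]
variable {s : Tr → Finset Ed}

lemma supp_eq : ∀ (k : ℕ) (P : Option Tr) (e : Ed),
    Tree.supp s k P e = gsupp s univ k P e
  | 0, _, _ => rfl
  | k + 1, P, e => by
    simp only [Tree.supp, gsupp, Tree.star, Tree.others, gstar]
    have h : ∀ P, Tree.supp s k P = gsupp s univ k P := fun P => funext (supp_eq k P)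
    simp only [h]

lemma survive_isTree_iff : ∀ (k : ℕ) (P : Option Tr) (e : Ed),
    Tree.IsTree s k P e ↔ GTree s univ k P e
  | 0, _, _ => Iff.rfl
  | k + 1, P, e => by
    have h : ∀ P, Tree.supp s k P = gsupp s univ k P := fun P => funext (supp_eq k P)
    have hst : Tree.star s P e = gstar s univ P e := by ext T; simp [Tree.star, gstar]
    simp only [Tree.IsTree, GTree, Tree.others, h, hst, survive_isTree_iff k]

variable {F : Finset (Finset (Fin n))} {ev : Ed → Finset (Fin n)} {tv : Tr → Finset (Fin n)}

/-- An edge that is not bad has a tree neighbourhood. -/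
theorem survive_isTree_of_not_bad (hev : Function.Injective ev) (htv : Function.Injective tv)
    (hT : ∀ T, (s T).Nonempty → tv T ∈ triangles F)
    (hs : ∀ T g, g ∈ s T → ev g ∈ sides (tv T))
    {k R : ℕ} (hR : 2 * k ≤ R) {e : Ed} (he : (ev e).card = 2) (heF : ev e ∈ F)
    (hbad : ¬ Bad R F (ev e)) : Tree.IsTree s k none e :=
  (survive_isTree_iff k none e).2
    (isTree_of_not_bad hev htv (fun T _ => hT T) hs hR he heF hbad)

end Vale.Agent.P046.Balls
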