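import Mathlib

set_option linter.unusedSectionVars false

/-!
# Random greedy matching as greedy matching along a random injective slot function
-/

namespace Vale.Agent.P046.Tree

open Finset

variable {V τ : Type} [DecidableEq V] [DecidableEq τ]
variable (sd : τ → Finset V)

/-- The members of `H` that are still available after `t` has been taken. -/
def rest (H : Finset τ) (t : τ) : Finset τ :=
  (H.erase t).filter (fun u => Disjoint (sd u) (sd t))

lemma rest_subset (H : Finset τ) (t : τ) : rest sd H t ⊆ H :=
  (filter_subset _ _).trans (erase_subset _ _)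

lemma card_rest_lt {H : Finset τ} {t : τ} (ht : t ∈ H) : (rest sd H t).card < H.card :=
  (card_le_card (filter_subset _ _)).trans_lt (card_erase_lt_of_mem ht)

/-- Expected value of `g` at the matching produced by random greedy selection. -/
noncomputable def expMatch (g : Finset τ → ℝ) (H : Finset τ) : ℝ :=
  if H = ∅ then g ∅
  else (∑ t ∈ H.attach, expMatch (fun M => g (insert t.1 M)) (rest sd H t.1)) / H.card
termination_by H.card
decreasing_by exact card_rest_lt sd t.2

/-- The first member of `H` in the order given by `σ`. -/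
noncomputable def first (σ : τ → ℕ) (H : Finset τ) (h : H.Nonempty) : τ :=
  (H.exists_min_image σ h).choose

lemma first_mem (σ : τ → ℕ) {H : Finset τ} (h : H.Nonempty) : first σ H h ∈ H :=
  (H.exists_min_image σ h).choose_spec.1

lemma first_le (σ : τ → ℕ) {H : Finset τ} (h : H.Nonempty) {u : τ} (hu : u ∈ H) :
    σ (first σ H h) ≤ σ u :=
  (H.exists_min_image σ h).choose_spec.2 u hu

/-- Greedy matching along the order `σ`. -/
noncomputable def greedy (σ : τ → ℕ) (H : Finset τ) : Finset τ :=
  if h : H.Nonempty then insert (first σ H h) (greedy σ (rest sd H (first σ H h))) else ∅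
termination_by H.card
decreasing_by exact card_rest_lt sd (first_mem σ h)

lemma greedy_empty (σ : τ → ℕ) : greedy sd σ ∅ = ∅ := by
  rw [greedy, dif_neg (by simp)]

lemma greedy_of_first {σ : τ → ℕ} {H : Finset τ} {t : τ} (ht : t ∈ H)
    (hmin : ∀ u ∈ H, σ t ≤ σ u) (hinj : Set.InjOn σ H) :
    greedy sd σ H = insert t (greedy sd σ (rest sd H t)) := by
  have h : H.Nonempty := ⟨t, ht⟩
  have : first σ H h = t :=
    hinj (first_mem σ h) ht (le_antisymm (first_le σ h ht) (hmin _ (first_mem σ h)))
  rw [greedy, dif_pos h, this]

variable [Fintype τ]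

/-- Greedy matching along a uniform order is random greedy selection. -/
theorem sum_greedy {N : ℕ} : ∀ (H : Finset τ) (g : Finset τ → ℝ) (S : Finset (τ → Fin N)),
    (∀ σ ∈ S, Set.InjOn σ H) →
    (∀ π : Equiv.Perm τ, (∀ x, x ∉ H → π x = x) → ∀ σ ∈ S, σ ∘ π ∈ S) →
    ∑ σ ∈ S, g (greedy sd (fun u => (σ u : ℕ)) H) = S.card * expMatch sd g H := by
  intro H
  induction H using Finset.strongInduction with
  | H H ih =>
    intro g S hinj hS
    rcases H.eq_empty_or_nonempty with rfl | hne
    · rw [expMatch, if_pos rfl]
      simp [greedy_empty]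
    classical
    let S' : τ → Finset (τ → Fin N) := fun t => S.filter (fun σ => ∀ u ∈ H, σ t ≤ σ u)
    have hcov : ∀ σ ∈ S, ∑ t ∈ H, (if σ ∈ S' t then (1:ℝ) else 0) = 1 := by
      intro σ hσ
      obtain ⟨t, ht, hmin⟩ := H.exists_min_image σ hne
      rw [sum_eq_single_of_mem t ht]
      · simp [S', hσ]
        exact fun u hu => hmin u hu
      · intro u hu hut
        rw [if_neg]
        intro hu'
        exact hut (hinj σ hσ hu ht (le_antisymm ((mem_filter.1 hu').2 t ht) (hmin u hu)))
    have hcard : ∀ t ∈ H, ∀ u ∈ H, (S' t).card = (S' u).card := by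
      intro t ht u hu
      have key : ∀ a ∈ H, ∀ b ∈ H, ∀ σ ∈ S' a, σ ∘ Equiv.swap a b ∈ S' b := by
        intro a ha b hb σ hσ
        rw [mem_filter] at hσ ⊢
        refine ⟨hS _ (fun x hx => Equiv.swap_apply_of_ne_of_ne
          (fun h => hx (h ▸ ha)) (fun h => hx (h ▸ hb))) σ hσ.1, fun w hw => ?_⟩
        simp only [Function.comp, Equiv.swap_apply_right]
        refine hσ.2 _ ?_
        rcases eq_or_ne w a with rfl | hwa
        · rwa [Equiv.swap_apply_left]
        rcases eq_or_ne w b with rfl | hwb
        · rwa [Equiv.swap_apply_right]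
        rwa [Equiv.swap_apply_of_ne_of_ne hwa hwb]
      refine card_bij' (fun σ _ => σ ∘ Equiv.swap t u) (fun σ _ => σ ∘ Equiv.swap t u)
        (fun σ hσ => key t ht u hu σ hσ) (fun σ hσ => ?_) (fun σ _ => ?_) (fun σ _ => ?_)
      · rw [Equiv.swap_comm]
        exact key u hu t ht σ hσ
      · funext x; simp [Function.comp]
      · funext x; simp [Function.comp]
    have hstep : ∀ t ∈ H, ∑ σ ∈ S' t, g (greedy sd (fun u => (σ u : ℕ)) H)
        = (S' t).card * expMatch sd (fun M => g (insert t M)) (rest sd H t) := by
      intro t ht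
      rw [← ih (rest sd H t) ((ssubset_iff_of_subset (rest_subset sd H t)).2
          ⟨t, ht, fun h => by simp [rest] at h⟩)]
      · refine sum_congr rfl (fun σ hσ => ?_)
        rw [mem_filter] at hσ
        rw [greedy_of_first sd ht (fun u hu => Fin.le_def.1 (hσ.2 u hu))
          (fun a ha b hb h => hinj σ hσ.1 ha hb (Fin.ext h))]
      · intro σ hσ
        exact (hinj σ (mem_filter.1 hσ).1).mono (coe_subset.2 (rest_subset sd H t))
      · intro π hπ σ hσ
        rw [mem_filter] at hσ ⊢
        refine ⟨hS π (fun x hx => hπ x (fun h => hx (rest_subset sd H t h))) σ hσ.1,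
          fun u hu => ?_⟩
        have htf : π t = t := hπ t (fun h => by simp [rest] at h)
        simp only [Function.comp, htf]
        refine hσ.2 _ ?_
        by_contra h
        have : π (π u) = π u := hπ _ (fun h' => h (rest_subset sd H t h'))
        exact h ((π.injective this).symm ▸ hu)
    calc ∑ σ ∈ S, g (greedy sd (fun u => (σ u : ℕ)) H)
        = ∑ σ ∈ S, ∑ t ∈ H, if σ ∈ S' t then g (greedy sd (fun u => (σ u : ℕ)) H) else 0 := by
          refine sum_congr rfl (fun σ hσ => ?_)
          calc g (greedy sd (fun u => (σ u : ℕ)) H)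
              = (∑ t ∈ H, if σ ∈ S' t then (1:ℝ) else 0)
                  * g (greedy sd (fun u => (σ u : ℕ)) H) := by rw [hcov σ hσ, one_mul]
            _ = _ := by
              rw [sum_mul]
              refine sum_congr rfl (fun t _ => ?_)
              split_ifs <;> simp
      _ = ∑ t ∈ H, ∑ σ ∈ S' t, g (greedy sd (fun u => (σ u : ℕ)) H) := by
          rw [sum_comm]
          refine sum_congr rfl (fun t _ => ?_)
          rw [← sum_filter]
          congr 1
          ext σ
          simp [S']
      _ = ∑ t ∈ H, ((S.card : ℝ) / H.card) * expMatch sd (fun M => g (insert t M)) (rest sd H t) := by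
          refine sum_congr rfl (fun t ht => ?_)
          rw [hstep t ht]
          congr 1
          have h1 : (S.card : ℝ) = H.card * (S' t).card := by
            calc (S.card : ℝ) = ∑ σ ∈ S, ∑ u ∈ H, (if σ ∈ S' u then (1:ℝ) else 0) := by
                  rw [sum_congr rfl hcov]; simp
              _ = ∑ u ∈ H, ((S' u).card : ℝ) := by
                  rw [sum_comm]
                  refine sum_congr rfl (fun u _ => ?_)
                  rw [sum_boole]
                  congr 2
                  ext σ
                  simp [S']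
              _ = H.card * (S' t).card := by
                  rw [sum_congr rfl (fun u hu => by rw [hcard u hu t ht])]
                  simp
          have h0 : (0:ℝ) < H.card := by exact_mod_cast hne.card_pos
          rw [h1]
          field_simp
      _ = S.card * expMatch sd g H := by
          conv_rhs => rw [expMatch, if_neg hne.ne_empty]
          rw [← mul_sum, sum_attach H (fun t => expMatch sd (fun M => g (insert t M)) (rest sd H t))]
          ring

lemma mem_greedy {σ : τ → ℕ} : ∀ {H : Finset τ} {u : τ}, u ∈ greedy sd σ H → u ∈ H := by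
  intro H
  induction H using Finset.strongInduction with
  | H H ih =>
    intro u hu
    rw [greedy] at hu
    split at hu
    · next h =>
      rcases mem_insert.1 hu with rfl | hu
      · exact first_mem σ h
      · exact rest_subset sd _ _ (ih _ ((ssubset_iff_of_subset (rest_subset sd H _)).2
          ⟨_, first_mem σ h, fun h' => by simp [rest] at h'⟩) hu)
    · simp at hu

lemma greedy_disjoint {σ : τ → ℕ} : ∀ {H : Finset τ} {u v : τ},
    u ∈ greedy sd σ H → v ∈ greedy sd σ H → u ≠ v → Disjoint (sd u) (sd v) := by
  intro H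
  induction H using Finset.strongInduction with
  | H H ih =>
    intro u v hu hv huv
    rw [greedy] at hu hv
    split at hu
    · next h =>
      rw [dif_pos h] at hv
      rcases mem_insert.1 hu with rfl | hu
      · rcases mem_insert.1 hv with rfl | hv
        · exact absurd rfl huv
        · exact (mem_filter.1 (mem_greedy sd hv)).2.symm
      · rcases mem_insert.1 hv with rfl | hv
        · exact (mem_filter.1 (mem_greedy sd hu)).2
        · exact ih _ ((ssubset_iff_of_subset (rest_subset sd H _)).2
            ⟨_, first_mem σ h, fun h' => by simp [rest] at h'⟩) hu hv huv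
    · simp at hu

lemma greedy_blocked {σ : τ → ℕ} : ∀ {H : Finset τ}, Set.InjOn σ H → ∀ {T : τ}, T ∈ H →
    T ∉ greedy sd σ H → ∃ u ∈ greedy sd σ H, σ u < σ T ∧ ¬ Disjoint (sd T) (sd u) := by
  intro H
  induction H using Finset.strongInduction with
  | H H ih =>
    intro hinj T hT hTg
    have h : H.Nonempty := ⟨T, hT⟩
    rw [greedy, dif_pos h] at hTg ⊢
    rw [mem_insert, not_or] at hTg
    by_cases hd : Disjoint (sd T) (sd (first σ H h))
    · have hTr : T ∈ rest sd H (first σ H h) := mem_filter.2 ⟨mem_erase.2 ⟨hTg.1, hT⟩, hd⟩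
      obtain ⟨u, hu, h1, h2⟩ := ih _ ((ssubset_iff_of_subset (rest_subset sd H _)).2
          ⟨_, first_mem σ h, fun h' => by simp [rest] at h'⟩)
          (hinj.mono (coe_subset.2 (rest_subset sd H _))) hTr hTg.2
      exact ⟨u, mem_insert_of_mem hu, h1, h2⟩
    · refine ⟨_, mem_insert_self _ _, lt_of_le_of_ne (first_le σ h hT) ?_, hd⟩
      exact fun he => hTg.1 (hinj (first_mem σ h) hT he).symm

end Vale.Agent.P046.Tree
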