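import Vale.Agent.P046.Tree.Local

/-!
# Product formula for the survival rule on a tree of dependencies
-/

set_option linter.unusedSectionVars false

namespace Vale.Agent.P046.Tree

open Finset

variable {V τ : Type} [DecidableEq V] [DecidableEq τ] [Fintype τ]
variable {N : ℕ}

/-- Uniform expectation over slot functions. -/
noncomputable def ev (F : (τ → Fin N) → ℝ) : ℝ := (∑ σ, F σ) / Fintype.card (τ → Fin N)

/-- `F` only depends on the coordinates in `A`. -/
def Dep (F : (τ → Fin N) → ℝ) (A : Finset τ) : Prop :=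
  ∀ σ σ', (∀ T ∈ A, σ T = σ' T) → F σ = F σ'

variable [NeZero N]

lemma card_pos_real : (0:ℝ) < Fintype.card (τ → Fin N) := by exact_mod_cast Fintype.card_pos

lemma ev_const (c : ℝ) : ev (N := N) (fun _ : τ → Fin N => c) = c := by
  have := card_pos_real (τ := τ) (N := N)
  simp only [ev, sum_const, nsmul_eq_mul, card_univ]
  field_simp

lemma ev_add (F G : (τ → Fin N) → ℝ) : ev (fun σ => F σ + G σ) = ev F + ev G := by
  simp only [ev, sum_add_distrib, add_div]

lemma ev_sub (F G : (τ → Fin N) → ℝ) : ev (fun σ => F σ - G σ) = ev F - ev G := by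
  simp only [ev, sum_sub_distrib, sub_div]

lemma ev_sum {ι : Type} (s : Finset ι) (F : ι → (τ → Fin N) → ℝ) :
    ev (fun σ => ∑ a ∈ s, F a σ) = ∑ a ∈ s, ev (F a) := by
  simp only [ev, ← sum_div]
  rw [sum_comm]

lemma ev_mono {F G : (τ → Fin N) → ℝ} (h : ∀ σ, F σ ≤ G σ) : ev F ≤ ev G :=
  div_le_div_of_nonneg_right (sum_le_sum (fun σ _ => h σ)) card_pos_real.le

lemma Dep.mono {F : (τ → Fin N) → ℝ} {A B : Finset τ} (h : Dep F A) (hAB : A ⊆ B) : Dep F B :=
  fun σ σ' hσ => h σ σ' (fun T hT => hσ T (hAB hT))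

lemma Dep.prod {ι : Type} {s : Finset ι} {F : ι → (τ → Fin N) → ℝ} {A : ι → Finset τ}
    (h : ∀ a ∈ s, Dep (F a) (A a)) : Dep (fun σ => ∏ a ∈ s, F a σ) (s.biUnion A) :=
  fun σ σ' hσ => prod_congr rfl
    (fun a ha => h a ha σ σ' (fun T hT => hσ T (mem_biUnion.2 ⟨a, ha, hT⟩)))

lemma ev_mul_of_disjoint {F G : (τ → Fin N) → ℝ} {A B : Finset τ} (hF : Dep F A) (hG : Dep G B)
    (hAB : Disjoint A B) : ev (fun σ => F σ * G σ) = ev F * ev G := by
  classical
  let e : (τ → Fin N) ≃ ({T // T ∈ A} → Fin N) × ({T // T ∉ A} → Fin N) :=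
    Equiv.piEquivPiSubtypeProd (fun T => T ∈ A) (fun _ => Fin N)
  have h1 : ∀ a b b', F (e.symm (a, b)) = F (e.symm (a, b')) := fun a b b' =>
    hF _ _ (fun T hT => by simp [e, Equiv.piEquivPiSubtypeProd_symm_apply, hT])
  have h2 : ∀ a a' b, G (e.symm (a, b)) = G (e.symm (a', b)) := fun a a' b =>
    hG _ _ (fun T hT => by
      have : T ∉ A := fun h => disjoint_left.1 hAB h hT
      simp [e, Equiv.piEquivPiSubtypeProd_symm_apply, this])
  obtain ⟨a0⟩ : Nonempty ({T // T ∈ A} → Fin N) := inferInstance
  obtain ⟨b0⟩ : Nonempty ({T // T ∉ A} → Fin N) := inferInstance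
  have key : ∀ K : (τ → Fin N) → ℝ, ∑ σ, K σ = ∑ a, ∑ b, K (e.symm (a, b)) := by
    intro K
    rw [← e.symm.sum_comp, Fintype.sum_prod_type]
  have hc : (Fintype.card (τ → Fin N) : ℝ) =
      Fintype.card ({T // T ∈ A} → Fin N) * Fintype.card ({T // T ∉ A} → Fin N) := by
    rw [Fintype.card_congr e, Fintype.card_prod]; push_cast; ring
  have hFs : ∀ a b, F (e.symm (a, b)) = F (e.symm (a, b0)) := fun a b => h1 a b b0
  have hGs : ∀ a b, G (e.symm (a, b)) = G (e.symm (a0, b)) := fun a b => h2 a a0 b
  have hx : (0:ℝ) < Fintype.card ({T // T ∈ A} → Fin N) := by exact_mod_cast Fintype.card_pos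
  have hy : (0:ℝ) < Fintype.card ({T // T ∉ A} → Fin N) := by exact_mod_cast Fintype.card_pos
  simp only [ev, key, hFs, hGs, hc]
  simp only [← mul_sum, ← sum_mul, sum_const, nsmul_eq_mul, card_univ]
  field_simp

lemma ev_prod {ι : Type} [DecidableEq ι] (s : Finset ι) {F : ι → (τ → Fin N) → ℝ}
    {A : ι → Finset τ} (h : ∀ a ∈ s, Dep (F a) (A a)) (hA : Set.PairwiseDisjoint (s : Set ι) A) :
    ev (fun σ => ∏ a ∈ s, F a σ) = ∏ a ∈ s, ev (F a) := by
  induction s using Finset.induction with
  | empty => simp [ev_const]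
  | insert a s ha ih =>
    have hs : ∀ b ∈ s, Dep (F b) (A b) := fun b hb => h b (mem_insert_of_mem hb)
    simp only [prod_insert ha]
    rw [ev_mul_of_disjoint (h a (mem_insert_self a s)) (Dep.prod hs) ?_,
      ih hs (hA.subset (by simp))]
    rw [disjoint_biUnion_right]
    exact fun b hb => hA (by simp) (by simp [hb]) (fun h' => ha (h' ▸ hb))

lemma ev_single (T : τ) (j : Fin N) :
    ev (fun σ : τ → Fin N => if σ T = j then (1:ℝ) else 0) = 1 / N := by
  have hsum : ∑ l : Fin N, ev (fun σ : τ → Fin N => if σ T = l then (1:ℝ) else 0) = 1 := by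
    rw [← ev_sum]
    convert ev_const (τ := τ) (N := N) 1 using 2
    simp
  have heq : ∀ l, ev (fun σ : τ → Fin N => if σ T = l then (1:ℝ) else 0)
      = ev (fun σ : τ → Fin N => if σ T = j then (1:ℝ) else 0) := by
    intro l
    simp only [ev]
    congr 1
    rw [← (Equiv.arrowCongr (Equiv.refl τ) (Equiv.swap l j)).sum_comp]
    refine sum_congr rfl (fun σ _ => ?_)
    simp [Equiv.swap_apply_eq_iff]
  rw [sum_congr rfl (fun l _ => heq l)] at hsum
  simp only [sum_const, card_univ, Fintype.card_fin, nsmul_eq_mul] at hsum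
  rw [eq_div_iff (Nat.cast_ne_zero.2 (NeZero.ne N))]
  linarith

variable (sd : τ → Finset V)

open Classical in
/-- The indicator of the depth `k` rule. -/
noncomputable def ind (H : Finset τ) (k : ℕ) (f : V) (P : Option τ) (i : ℕ) (σ : τ → Fin N) : ℝ :=
  if alive sd (fun T => (σ T : ℕ)) H k f P i then 1 else 0

lemma dep_ind (H : Finset τ) (k : ℕ) (f : V) (P : Option τ) (i : ℕ) :
    Dep (ind (N := N) sd H k f P i) (dep sd H k f P) := by
  intro σ σ' h
  have := alive_congr sd H k f P i (σ := fun T => (σ T : ℕ)) (σ' := fun T => (σ' T : ℕ))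
    (fun T hT => by rw [h T hT])
  unfold ind
  classical exact if_congr this rfl rfl

/-- On a tree of dependencies the survival probability is given by the recursion `phi`. -/
theorem ev_ind (H : Finset τ) : ∀ k f P i, IsTree sd H k f P → i ≤ N →
    ev (ind (N := N) sd H k f P i) = phi sd H N k f P i := by
  classical
  intro k
  induction k with
  | zero =>
    intro f P i _ _
    have h1 : ind (N := N) sd H 0 f P i = fun _ => 1 := by
      funext σ
      simp [ind, alive]
    rw [phi, h1]
    exact ev_const (τ := τ) (N := N) 1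
  | succ k ih =>
    intro f P i hT hi
    simp only [IsTree] at hT
    let G : τ → (τ → Fin N) → ℝ := fun T σ => 1 - ∑ j : Fin N,
      (if σ T = j then (1:ℝ) else 0) *
        (if (j : ℕ) < i then ∏ g ∈ (sd T).erase f, ind sd H k g (some T) j σ else 0)
    have hG : ∀ σ, ind sd H (k + 1) f P i σ = ∏ T ∈ br sd H f P, G T σ := by
      intro σ
      have hGT : ∀ T, G T σ = if (σ T : ℕ) < i ∧
          ∀ g ∈ (sd T).erase f, alive sd (fun T => (σ T : ℕ)) H k g (some T) (σ T) then 0 else 1 := by
        intro T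
        simp only [G, ite_mul, one_mul, zero_mul, sum_ite_eq, mem_univ, if_true]
        by_cases h1 : (σ T : ℕ) < i
        · rw [if_pos h1]
          simp only [ind, h1, true_and]
          rw [Finset.prod_boole]
          split_ifs <;> norm_num
        · simp [h1]
      simp only [hGT, ind]
      by_cases h : alive sd (fun T => (σ T : ℕ)) H (k + 1) f P i
      · rw [if_pos h, prod_eq_one]
        simp only [alive] at h
        intro T hT
        rw [if_neg]
        exact fun h' => h T hT h'.1 h'.2
      · rw [if_neg h, eq_comm, prod_eq_zero_iff]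
        simp only [alive] at h
        push Not at h
        obtain ⟨T, hT, h1, h2⟩ := h
        exact ⟨T, hT, if_pos ⟨h1, h2⟩⟩
    let A : τ → Finset τ := fun T =>
      insert T (((sd T).erase f).biUnion (fun g => dep sd H k g (some T)))
    have hdepG : ∀ T ∈ br sd H f P, Dep (G T) (A T) := by
      intro T _ σ σ' h
      simp only [G, h T (mem_insert_self _ _)]
      congr 1
      refine sum_congr rfl (fun j _ => ?_)
      congr 1
      split_ifs
      · exact prod_congr rfl (fun g hg => dep_ind sd H k g _ _ σ σ'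
          (fun U hU => h U (mem_insert_of_mem (mem_biUnion.2 ⟨g, hg, hU⟩))))
      · rfl
    calc ev (ind sd H (k + 1) f P i) = ev (fun σ => ∏ T ∈ br sd H f P, G T σ) :=
          congrArg ev (funext hG)
      _ = ∏ T ∈ br sd H f P, ev (G T) := ev_prod _ hdepG hT.1
      _ = phi sd H N (k + 1) f P i := by
        rw [phi]
        refine prod_congr rfl (fun T hTb => ?_)
        obtain ⟨hd, hg⟩ := hT.2 T hTb
        simp only [G]
        rw [ev_sub, ev_const, ev_sum]
        congr 1
        rw [Finset.sum_range, sum_div]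
        rw [← sum_filter_add_sum_filter_not univ (fun j : Fin N => (j : ℕ) < i)]
        rw [sum_eq_zero (s := univ.filter (fun j : Fin N => ¬ (j : ℕ) < i))]
        · rw [add_zero]
          refine sum_bij' (fun j hj => (⟨j, (mem_filter.1 hj).2⟩ : Fin i))
            (fun j _ => (⟨j, lt_of_lt_of_le j.2 hi⟩ : Fin N)) (fun _ _ => mem_univ _)
            (fun j _ => by simp [j.2]) (fun _ _ => rfl) (fun _ _ => rfl) (fun j hj => ?_)
          have hji := (mem_filter.1 hj).2
          simp only [if_pos hji]
          rw [ev_mul_of_disjoint (A := {T}) (fun σ σ' h => by simp [h T (mem_singleton_self T)])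
            (Dep.prod (fun g _ => dep_ind sd H k g (some T) j))
            (by simpa [disjoint_singleton_left] using fun g hg' => (hg g hg').1),
            ev_single, ev_prod _ (fun g _ => dep_ind sd H k g (some T) j) hd,
            prod_congr rfl (fun g hg' => ih g (some T) j (hg g hg').2 (le_of_lt j.2))]
          ring
        · intro j hj
          simp [(mem_filter.1 hj).2, ev_const]

end Vale.Agent.P046.Tree
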