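import Mathlib

/-!
The survival recursion on an abstract branching structure and its parity sandwich.
A node `v` has branches `i ∈ C v`, each with two sides `l v i`, `r v i`.
-/

namespace Vale.Agent.P046.Tree

open MeasureTheory Set intervalIntegral

noncomputable section

variable {N ι : Type*} (C : N → Finset ι) (l r : N → ι → N)

/-- the mass `∫_0^t Φ(left) Φ(right)` of one branch -/
def branchInt (Φ : N → ℝ → ℝ) (v : N) (i : ι) (t : ℝ) : ℝ :=
  ∫ s in (0 : ℝ)..t, Φ (l v i) s * Φ (r v i) s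

/-- one step of the recursion -/
def step (Φ : N → ℝ → ℝ) (v : N) (t : ℝ) : ℝ := ∏ i ∈ C v, (1 - branchInt l r Φ v i t)

/-- the iterates, starting from `1` -/
def iter : ℕ → N → ℝ → ℝ
  | 0 => fun _ _ => 1
  | k + 1 => step C l r (iter k)

@[simp] lemma iter_zero (v : N) (t : ℝ) : iter C l r 0 v t = 1 := rfl

lemma iter_succ (k : ℕ) : iter C l r (k + 1) = step C l r (iter C l r k) := rfl

/-- continuous, with values in `[0,1]` on `[0,1]` -/
def Nice (Φ : N → ℝ → ℝ) : Prop :=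
  (∀ v, Continuous (Φ v)) ∧ ∀ v, ∀ t ∈ Icc (0 : ℝ) 1, Φ v t ∈ Icc (0 : ℝ) 1

variable {C l r}

lemma intervalIntegrable_branch {Φ : N → ℝ → ℝ} (h : ∀ v, Continuous (Φ v)) (v : N) (i : ι)
    (a b : ℝ) : IntervalIntegrable (fun s => Φ (l v i) s * Φ (r v i) s) volume a b :=
  ((h _).mul (h _)).intervalIntegrable a b

lemma continuous_branchInt {Φ : N → ℝ → ℝ} (h : ∀ v, Continuous (Φ v)) (v : N) (i : ι) :
    Continuous (branchInt l r Φ v i) :=
  intervalIntegral.continuous_primitive (intervalIntegrable_branch h v i) 0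

lemma branchInt_mem {Φ : N → ℝ → ℝ} (h : Nice Φ) (v : N) (i : ι) {t : ℝ}
    (ht : t ∈ Icc (0 : ℝ) 1) : branchInt l r Φ v i t ∈ Icc (0 : ℝ) t := by
  have hs : ∀ s ∈ Icc (0 : ℝ) t, s ∈ Icc (0 : ℝ) 1 := fun s hs => ⟨hs.1, hs.2.trans ht.2⟩
  refine ⟨integral_nonneg ht.1 fun s h' => mul_nonneg (h.2 _ _ (hs s h')).1 (h.2 _ _ (hs s h')).1, ?_⟩
  have hc : ∫ _ in (0 : ℝ)..t, (1 : ℝ) = t := by simp
  refine le_trans ?_ hc.le
  exact integral_mono_on ht.1 (intervalIntegrable_branch h.1 v i _ _) intervalIntegrable_const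
    fun s h' => mul_le_one₀ (h.2 _ _ (hs s h')).2 (h.2 _ _ (hs s h')).1 (h.2 _ _ (hs s h')).2

lemma nice_step {Φ : N → ℝ → ℝ} (h : Nice Φ) : Nice (step C l r Φ) := by
  refine ⟨fun v => continuous_finsetProd _ fun i _ =>
    continuous_const.sub (continuous_branchInt h.1 v i), fun v t ht => ?_⟩
  have hb : ∀ i, branchInt l r Φ v i t ∈ Icc (0 : ℝ) t := fun i => branchInt_mem h v i ht
  exact ⟨Finset.prod_nonneg fun i _ => by linarith [(hb i).2, ht.2],
    Finset.prod_le_one (fun i _ => by linarith [(hb i).2, ht.2]) fun i _ => by linarith [(hb i).1]⟩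

lemma nice_one : Nice (fun (_ : N) (_ : ℝ) => (1 : ℝ)) :=
  ⟨fun _ => continuous_const, fun _ _ _ => ⟨zero_le_one, le_rfl⟩⟩

lemma nice_iter (k : ℕ) : Nice (iter C l r k) := by
  induction k with
  | zero => exact nice_one
  | succ k ih => exact nice_step ih

lemma step_zero (Φ : N → ℝ → ℝ) (v : N) : step C l r Φ v 0 = 1 := by
  simp [step, branchInt]

/-- the recursion is order reversing -/
lemma step_anti {Φ Ψ : N → ℝ → ℝ} (hΦ : ∀ v, Continuous (Φ v)) (hΨ : Nice Ψ)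
    {τ : ℝ} (hτ : τ ≤ 1) (h0 : ∀ v, ∀ s ∈ Icc (0 : ℝ) τ, 0 ≤ Φ v s)
    (hle : ∀ v, ∀ s ∈ Icc (0 : ℝ) τ, Φ v s ≤ Ψ v s) (v : N) {t : ℝ} (ht : t ∈ Icc (0 : ℝ) τ) :
    step C l r Ψ v t ≤ step C l r Φ v t := by
  have ht1 : t ∈ Icc (0 : ℝ) 1 := ⟨ht.1, ht.2.trans hτ⟩
  have hs : ∀ s ∈ Icc (0 : ℝ) t, s ∈ Icc (0 : ℝ) τ := fun s hs => ⟨hs.1, hs.2.trans ht.2⟩
  refine Finset.prod_le_prod (fun i _ => by linarith [(branchInt_mem hΨ v i ht1 (l := l) (r := r)).2, ht1.2])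
    fun i _ => sub_le_sub_left ?_ _
  exact integral_mono_on ht.1 (intervalIntegrable_branch hΦ v i _ _)
    (intervalIntegrable_branch hΨ.1 v i _ _) fun s h' =>
      mul_le_mul (hle _ _ (hs s h')) (hle _ _ (hs s h')) (h0 _ _ (hs s h'))
        ((h0 _ _ (hs s h')).trans (hle _ _ (hs s h')))

lemma iter_anti_step (j k : ℕ)
    (h : ∀ v, ∀ t ∈ Icc (0 : ℝ) 1, iter C l r j v t ≤ iter C l r k v t) :
    ∀ v, ∀ t ∈ Icc (0 : ℝ) 1, iter C l r (k + 1) v t ≤ iter C l r (j + 1) v t :=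
  fun v _ ht => step_anti (nice_iter j).1 (nice_iter k) le_rfl
    (fun w s hs => ((nice_iter j).2 w s hs).1) h v ht

/-- every iterate lies below the even iterates before it and above the odd ones -/
lemma iter_sandwich (j : ℕ) :
    (∀ m, 2 * j ≤ m → ∀ v, ∀ t ∈ Icc (0 : ℝ) 1, iter C l r m v t ≤ iter C l r (2 * j) v t) ∧
    ∀ m, 2 * j + 1 ≤ m → ∀ v, ∀ t ∈ Icc (0 : ℝ) 1,
      iter C l r (2 * j + 1) v t ≤ iter C l r m v t := by
  induction j with
  | zero =>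
    have h1 : ∀ m, ∀ v, ∀ t ∈ Icc (0 : ℝ) 1, iter C l r m v t ≤ iter C l r 0 v t :=
      fun m v t ht => ((nice_iter m).2 v t ht).2
    refine ⟨fun m _ => h1 m, fun m hm => ?_⟩
    obtain ⟨m, rfl⟩ : ∃ k, m = k + 1 := ⟨m - 1, by omega⟩
    exact iter_anti_step m 0 (h1 m)
  | succ j ih =>
    have hev : ∀ m, 2 * (j + 1) ≤ m → ∀ v, ∀ t ∈ Icc (0 : ℝ) 1,
        iter C l r m v t ≤ iter C l r (2 * (j + 1)) v t := by
      intro m hm
      obtain ⟨m, rfl⟩ : ∃ k, m = k + 1 := ⟨m - 1, by omega⟩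
      exact iter_anti_step (2 * j + 1) m (ih.2 m (by omega))
    refine ⟨hev, fun m hm => ?_⟩
    obtain ⟨m, rfl⟩ : ∃ k, m = k + 1 := ⟨m - 1, by omega⟩
    exact iter_anti_step m (2 * (j + 1)) (hev m (by omega))

/-- the iterates decrease in time -/
lemma iter_antitone (k : ℕ) (v : N) : AntitoneOn (iter C l r k v) (Icc (0 : ℝ) 1) := by
  cases k with
  | zero => exact fun _ _ _ _ _ => le_rfl
  | succ k =>
    intro a ha b hb hab
    refine Finset.prod_le_prod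
      (fun i _ => by linarith [(branchInt_mem (nice_iter (C := C) (l := l) (r := r) k) v i hb (l := l) (r := r)).2, hb.2])
      fun i _ => sub_le_sub_left ?_ _
    exact integral_mono_interval le_rfl ha.1 hab
      (MeasureTheory.ae_restrict_of_forall_mem measurableSet_Ioc fun s hs =>
        mul_nonneg ((nice_iter k).2 _ s ⟨hs.1.le, hs.2.trans hb.2⟩).1
          ((nice_iter k).2 _ s ⟨hs.1.le, hs.2.trans hb.2⟩).1)
      (intervalIntegrable_branch (nice_iter k).1 v i _ _)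

end

end Vale.Agent.P046.Tree
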