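import Vale.Agent.P046.Tree.Survive

/-!
Phase III assembly: a random variable between the odd and even truncations is close in `L^1`
to `a` times the number of edges, if on most edges the neighbourhood is a tree and the product
recursion gives about `a`.
-/

namespace Vale.Agent.P046.Tree

open MeasureTheory ProbabilityTheory Finset
open scoped Classical

variable {Ed Tr : Type*} [DecidableEq Ed] [Fintype Tr] [DecidableEq Tr]
variable {sides : Tr → Finset Ed}

/-- Survivals with disjoint supports are uncorrelated, so the centred sum has small `L^1` norm. -/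
lemma l1_centred {good : Finset Ed} {j N : ℕ} {c : ℝ}
    (hN : ∀ e ∈ good, (good.filter fun e' =>
      ¬ Disjoint (supp sides j none e) (supp sides j none e')).card ≤ N)
    (hc : 0 < c) (hcN : (good.card : ℝ) * N ≤ c ^ 2) :
    ∫ U, |∑ e ∈ good, (W sides j e 1 U - ∫ V, W sides j e 1 V ∂labels Tr)| ∂labels Tr ≤ c := by
  set Z : Ed → (Tr → ℝ) → ℝ :=
    fun e U => W sides j e 1 U - ∫ V, W sides j e 1 V ∂labels Tr with hZ
  have hWm : ∀ e, Measurable fun U : Tr → ℝ => W sides j e 1 U := fun e => measurable_W j e 1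
  have hWi : ∀ e, Integrable (fun U : Tr → ℝ => W sides j e 1 U) (labels Tr) := fun e =>
    Integrable.of_bound (hWm e).aestronglyMeasurable 1
      (Filter.Eventually.of_forall fun U => by
        rw [Real.norm_eq_abs]; exact abs_le_one_of_mem (W_mem j e 1 U))
  have hmean : ∀ e, ∫ V, W sides j e 1 V ∂labels Tr ∈ Set.Icc (0:ℝ) 1 := fun e => by
    refine ⟨integral_nonneg fun U => (W_mem j e 1 U).1, ?_⟩
    calc _ ≤ ∫ _V, (1:ℝ) ∂labels Tr :=
          integral_mono (hWi e) (integrable_const _) fun U => (W_mem j e 1 U).2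
      _ = 1 := by simp
  have hZm : ∀ e, Measurable (Z e) := fun e => (hWm e).sub measurable_const
  have hZ1 : ∀ e U, |Z e U| ≤ 1 := fun e U =>
    abs_le.2 ⟨by linarith [(W_mem (sides := sides) j e 1 U).1, (hmean e).2],
      by linarith [(W_mem (sides := sides) j e 1 U).2, (hmean e).1]⟩
  have hZd : ∀ e, DependsOn (Z e) (supp sides j none e : Set Tr) := by
    intro e U V h
    simp only [hZ, W_eq_Y]
    rw [show Y sides j none e 1 U = Y sides j none e 1 V from dependsOn_Y j none e 1 h]
  have hZZm : ∀ e e', Integrable (fun U => Z e U * Z e' U) (labels Tr) := fun e e' =>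
    Integrable.of_bound ((hZm e).mul (hZm e')).aestronglyMeasurable 1
      (Filter.Eventually.of_forall fun U => by
        rw [Real.norm_eq_abs, abs_mul]; nlinarith [hZ1 e U, hZ1 e' U, abs_nonneg (Z e' U)])
  have hS : Integrable (fun U => ∑ e ∈ good, Z e U) (labels Tr) :=
    integrable_finsetSum _ fun e _ => (hWi e).sub (integrable_const _)
  have hsq : Integrable (fun U => (∑ e ∈ good, Z e U) ^ 2) (labels Tr) := by
    simp only [sq, sum_mul_sum]
    exact integrable_finsetSum _ fun e _ => integrable_finsetSum _ fun e' _ => hZZm e e'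
  have hpair : ∀ e e', ∫ U, Z e U * Z e' U ∂labels Tr ≤
      if Disjoint (supp sides j none e) (supp sides j none e') then 0 else 1 := by
    intro e e'
    split_ifs with hd
    · rw [integral_mul_disjoint hd (hZm e) (hZm e') (hZd e) (hZd e')]
      have h0 : ∫ U, Z e U ∂labels Tr = 0 := by
        simp only [hZ]; rw [integral_sub (hWi e) (integrable_const _)]; simp
      simp [h0]
    · calc _ ≤ ∫ _U, (1:ℝ) ∂labels Tr := integral_mono (hZZm e e') (integrable_const _) fun U => by
            nlinarith [hZ1 e U, hZ1 e' U, abs_nonneg (Z e U), abs_nonneg (Z e' U),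
              le_abs_self (Z e U * Z e' U), abs_mul (Z e U) (Z e' U)]
        _ = 1 := by simp
  have hvar : ∫ U, (∑ e ∈ good, Z e U) ^ 2 ∂labels Tr ≤ c ^ 2 := by
    simp only [sq, sum_mul_sum]
    rw [integral_finsetSum _ fun e _ => integrable_finsetSum _ fun e' _ => hZZm e e']
    simp only [integral_finsetSum _ fun e' _ => hZZm _ e']
    calc _ ≤ ∑ e ∈ good, ∑ e' ∈ good,
          (if Disjoint (supp sides j none e) (supp sides j none e') then (0:ℝ) else 1) :=
          sum_le_sum fun e _ => sum_le_sum fun e' _ => hpair e e'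
      _ ≤ ∑ _e ∈ good, (N : ℝ) := sum_le_sum fun e he => by
          rw [sum_ite, sum_const_zero, zero_add, sum_const, nsmul_eq_mul, mul_one]
          exact_mod_cast hN e he
      _ ≤ c * c := by rw [sum_const, nsmul_eq_mul]; linarith [sq c]
  calc ∫ U, |∑ e ∈ good, Z e U| ∂labels Tr
      ≤ ∫ U, ((c + (∑ e ∈ good, Z e U) ^ 2 / c) / 2) ∂labels Tr := by
        refine integral_mono hS.abs (((integrable_const _).add (hsq.div_const c)).div_const 2)
          fun U => ?_
        have h := two_mul_le_add_sq |∑ e ∈ good, Z e U| c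
        rw [sq_abs] at h
        field_simp
        linarith
    _ = (c + (∫ U, (∑ e ∈ good, Z e U) ^ 2 ∂labels Tr) / c) / 2 := by
        rw [integral_div, integral_add (integrable_const _) (hsq.div_const c), integral_div]
        simp
    _ ≤ (c + c ^ 2 / c) / 2 := by gcongr
    _ = c := by field_simp; ring

variable {E : Finset Ed}

/-- One truncation is close in `L^1` to `a` times the number of edges. -/
lemma l1_trunc {good : Finset Ed} {j N : ℕ} {a ε c : ℝ} (ha : 0 ≤ a)
    (hsub : good ⊆ E)
    (htree : ∀ e ∈ good, IsTree sides j none e)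
    (hphi : ∀ e ∈ good, |Phi sides j none e 1 - a| ≤ ε * a)
    (hN : ∀ e ∈ good, (good.filter fun e' =>
      ¬ Disjoint (supp sides j none e) (supp sides j none e')).card ≤ N)
    (hc : 0 < c) (hcN : (good.card : ℝ) * N ≤ c ^ 2) :
    ∫ U, |(∑ e ∈ E, W sides j e 1 U) - a * E.card| ∂labels Tr
      ≤ ε * a * good.card + (E.card - good.card) * (1 + a) + c := by
  have hWi : ∀ e, Integrable (fun U : Tr → ℝ => W sides j e 1 U) (labels Tr) := fun e => by
    refine Integrable.of_bound ?_ 1 (Filter.Eventually.of_forall fun U => ?_)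
    · exact (measurable_W j e 1).aestronglyMeasurable
    · rw [Real.norm_eq_abs]; exact abs_le_one_of_mem (W_mem j e 1 U)
  set R : (Tr → ℝ) → ℝ :=
    fun U => |∑ e ∈ good, (W sides j e 1 U - ∫ V, W sides j e 1 V ∂labels Tr)| with hR
  have hRi : Integrable R (labels Tr) :=
    (integrable_finsetSum _ fun e _ => (hWi e).sub (integrable_const _)).abs
  have hpt : ∀ U, |(∑ e ∈ E, W sides j e 1 U) - a * E.card|
      ≤ (ε * a * good.card + (E.card - good.card) * (1 + a)) + R U := by
    intro U
    have h1 : (∑ e ∈ E, W sides j e 1 U) - a * E.card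
        = (∑ e ∈ good, (W sides j e 1 U - ∫ V, W sides j e 1 V ∂labels Tr))
          + (∑ e ∈ good, (Phi sides j none e 1 - a))
          + ∑ e ∈ E \ good, (W sides j e 1 U - a) := by
      have hg : ∑ e ∈ good, (∫ V, W sides j e 1 V ∂labels Tr)
          = ∑ e ∈ good, Phi sides j none e 1 :=
        sum_congr rfl fun e he => integral_W j e ⟨zero_le_one, le_rfl⟩ (htree e he)
      rw [sum_sub_distrib, hg, sum_sub_distrib, sum_sub_distrib, sum_const, sum_const,
        ← sum_sdiff hsub, nsmul_eq_mul, nsmul_eq_mul,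
        card_sdiff_of_subset hsub, Nat.cast_sub (card_le_card hsub)]
      ring
    have h2 : |∑ e ∈ good, (Phi sides j none e 1 - a)| ≤ ε * a * good.card :=
      (abs_sum_le_sum_abs _ _).trans ((sum_le_sum hphi).trans
        (by rw [sum_const, nsmul_eq_mul]; linarith))
    have h3 : |∑ e ∈ E \ good, (W sides j e 1 U - a)|
        ≤ (E.card - good.card) * (1 + a) := by
      refine (abs_sum_le_sum_abs _ _).trans ((sum_le_card_nsmul _ _ (1 + a) fun e _ => ?_).trans ?_)
      · have := W_mem (sides := sides) j e 1 U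
        exact abs_le.2 ⟨by linarith [this.1], by linarith [this.2]⟩
      · rw [nsmul_eq_mul, card_sdiff_of_subset hsub,
          Nat.cast_sub (card_le_card hsub)]
    rw [h1]
    have := abs_add_three
      (∑ e ∈ good, (W sides j e 1 U - ∫ V, W sides j e 1 V ∂labels Tr))
      (∑ e ∈ good, (Phi sides j none e 1 - a)) (∑ e ∈ E \ good, (W sides j e 1 U - a))
    simp only [hR]
    linarith
  calc _ ≤ ∫ U, ((ε * a * good.card + (E.card - good.card) * (1 + a)) + R U) ∂labels Tr :=
        integral_mono ((integrable_finsetSum _ fun e _ => hWi e).sub (integrable_const _)).abs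
          ((integrable_const _).add hRi) hpt
    _ = (ε * a * good.card + (E.card - good.card) * (1 + a))
          + ∫ U, R U ∂labels Tr := by
        rw [integral_add (integrable_const _) hRi]; simp
    _ ≤ _ := by linarith [l1_centred (sides := sides) (good := good) hN hc hcN]

/-- Phase III assembly. -/
theorem l1_of_sandwich {good : Finset Ed} {k N : ℕ} {a ε c : ℝ} (ha : 0 ≤ a)
    (hsub : good ⊆ E)
    (htree : ∀ e ∈ good, IsTree sides (2 * k + 1) none e)
    (hodd : ∀ e ∈ good, |Phi sides (2 * k + 1) none e 1 - a| ≤ ε * a)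
    (heven : ∀ e ∈ good, |Phi sides (2 * k) none e 1 - a| ≤ ε * a)
    (hN : ∀ e ∈ good, (good.filter fun e' =>
      ¬ Disjoint (supp sides (2 * k + 1) none e) (supp sides (2 * k + 1) none e')).card ≤ N)
    (hc : 0 < c) (hcN : (good.card : ℝ) * N ≤ c ^ 2) {F : (Tr → ℝ) → ℝ}
    (hlo : ∀ᵐ U ∂labels Tr, ∑ e ∈ E, W sides (2 * k + 1) e 1 U ≤ F U)
    (hhi : ∀ᵐ U ∂labels Tr, F U ≤ ∑ e ∈ E, W sides (2 * k) e 1 U) :
    ∫ U, |F U - a * E.card| ∂labels Tr
      ≤ 2 * (ε * a * good.card + (E.card - good.card) * (1 + a) + c) := by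
  have hN' : ∀ e ∈ good, (good.filter fun e' =>
      ¬ Disjoint (supp sides (2 * k) none e) (supp sides (2 * k) none e')).card ≤ N := fun e he =>
    (card_le_card (monotone_filter_right _ fun e' _ h hd =>
      h (Disjoint.mono (supp_mono _ _ _) (supp_mono _ _ _) hd))).trans (hN e he)
  have hWi : ∀ j, Integrable
      (fun U : Tr → ℝ => |(∑ e ∈ E, W sides j e 1 U) - a * E.card|) (labels Tr) := by
    intro j
    refine ((integrable_finsetSum _ fun e _ => ?_).sub (integrable_const _)).abs
    refine Integrable.of_bound ?_ 1 (Filter.Eventually.of_forall fun U => ?_)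
    · exact (measurable_W j e 1).aestronglyMeasurable
    · rw [Real.norm_eq_abs]; exact abs_le_one_of_mem (W_mem j e 1 U)
  have hle : ∀ᵐ U ∂labels Tr, |F U - a * E.card|
      ≤ |(∑ e ∈ E, W sides (2 * k + 1) e 1 U) - a * E.card|
        + |(∑ e ∈ E, W sides (2 * k) e 1 U) - a * E.card| := by
    filter_upwards [hlo, hhi] with U h1 h2
    have := abs_nonneg ((∑ e ∈ E, W sides (2 * k + 1) e 1 U) - a * E.card)
    have := abs_nonneg ((∑ e ∈ E, W sides (2 * k) e 1 U) - a * E.card)
    have := le_abs_self ((∑ e ∈ E, W sides (2 * k) e 1 U) - a * E.card)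
    have := neg_abs_le ((∑ e ∈ E, W sides (2 * k + 1) e 1 U) - a * E.card)
    exact abs_le.2 ⟨by linarith, by linarith⟩
  have h1 := integral_mono_of_nonneg (μ := labels Tr)
    (Filter.Eventually.of_forall fun U => abs_nonneg (F U - a * E.card))
    ((hWi (2 * k + 1)).add (hWi (2 * k))) hle
  simp only [Pi.add_apply] at h1
  rw [integral_add (hWi _) (hWi _)] at h1
  linarith [l1_trunc ha hsub htree hodd hN hc hcN,
    l1_trunc ha hsub (fun e he => (htree e he).pred) heven hN' hc hcN]

end Vale.Agent.P046.Tree
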