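import Vale.Agent.P046.Order
import Vale.Agent.P046.Tree.Recur
import Vale.Agent.P046.Tree.SurviveL1

/-!
Phase III as a statement about the sequential removal process: if most edges of the starting edge
set have tree neighbourhoods on which the recursion is about `a`, the final number of edges is
about `a` times the number of starting edges, in `L^1`.
-/

namespace Vale.Agent.P046.Tree

open MeasureTheory Finset
open scoped Classical

variable {Ed Tr : Type*} [DecidableEq Ed] [Fintype Tr] [DecidableEq Tr] (sides : Tr → Finset Ed)

/-- The sides of the triangles inside `E`; other triangles get no side. -/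
def rsides (E : Finset Ed) (T : Tr) : Finset Ed := if sides T ⊆ E then sides T else ∅

variable {sides}

lemma star_rsides (E : Finset Ed) (e : Ed) :
    star (rsides sides E) none e = (Order.cands sides E).filter (fun T => e ∈ sides T) := by
  ext T
  simp only [mem_star, mem_filter, Order.mem_cands, rsides]
  constructor
  · rintro ⟨h, -⟩
    split_ifs at h with hT
    · exact ⟨⟨hT, e, h⟩, h⟩
    · simp at h
  · rintro ⟨⟨hT, -⟩, h⟩
    exact ⟨by rw [if_pos hT]; exact h, by simp⟩

lemma others_rsides {E : Finset Ed} {e : Ed} {T : Tr} (h : T ∈ star (rsides sides E) none e) :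
    others (rsides sides E) T e = (sides T).erase e := by
  rw [star_rsides, mem_filter, Order.mem_cands] at h
  simp [others, rsides, h.1.1]

/-- The truncations of the two developments agree. -/
lemma W_rsides (E : Finset Ed) (U : Tr → ℝ) : ∀ (k : ℕ) (e : Ed) (t : ℝ),
    W (rsides sides E) k e t U = Order.Y sides U E k e t
  | 0, _, _ => rfl
  | k + 1, e, t => by
    simp only [W, Order.Y]
    rw [← star_rsides]
    refine prod_congr rfl fun T hT => ?_
    rw [others_rsides hT, bef]
    congr 2
    exact prod_congr rfl fun g _ => W_rsides E U k g (U T)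

lemma lab_eq_unif : lab = Order.unif :=
  Measure.restrict_congr_set Ioo_ae_eq_Icc.symm

omit [DecidableEq Tr] in
lemma labels_eq : labels Tr = Order.labels Tr := by
  rw [labels, Order.labels, lab_eq_unif]

variable (sides)

/-- Branches of a node `(parent, edge)`. -/
def nodeC (E : Finset Ed) (v : Option Tr × Ed) : Finset Tr := star (rsides sides E) v.1 v.2

/-- Left side of a branch. -/
noncomputable def nodeL (E : Finset Ed) (v : Option Tr × Ed) (T : Tr) : Option Tr × Ed :=
  (some T, if h : (others (rsides sides E) T v.2).card = 2
    then (card_eq_two.1 h).choose else v.2)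

/-- Right side of a branch. -/
noncomputable def nodeR (E : Finset Ed) (v : Option Tr × Ed) (T : Tr) : Option Tr × Ed :=
  (some T, if h : (others (rsides sides E) T v.2).card = 2
    then (card_eq_two.1 h).choose_spec.choose else v.2)

variable {sides}

/-- For three-element sides the product recursion is the two-sided recursion. -/
lemma Phi_eq_iter (h3 : ∀ T, (sides T).card = 3) (E : Finset Ed) :
    ∀ (k : ℕ) (v : Option Tr × Ed) (t : ℝ), Phi (rsides sides E) k v.1 v.2 t
      = iter (nodeC sides E) (nodeL sides E) (nodeR sides E) k v t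
  | 0, _, _ => rfl
  | k + 1, v, t => by
    simp only [Phi, iter_succ, step, nodeC]
    refine prod_congr rfl fun T hT => ?_
    have he : v.2 ∈ rsides sides E T := (mem_star.1 hT).1
    have hcard : (others (rsides sides E) T v.2).card = 2 := by
      rw [others, card_erase_of_mem he]
      unfold rsides at he ⊢
      split_ifs at he ⊢ with hTE
      · rw [h3]
      · simp at he
    obtain ⟨hne, heq⟩ := (card_eq_two.1 hcard).choose_spec.choose_spec
    rw [branchInt]
    congr 1
    refine intervalIntegral.integral_congr fun s _ => ?_
    rw [← Phi_eq_iter h3 E k (nodeL sides E v T) s, ← Phi_eq_iter h3 E k (nodeR sides E v T) s]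
    simp only [nodeL, nodeR, dif_pos hcard]
    conv_lhs => rw [heq]
    exact prod_pair hne

/-- **Phase III.** -/
theorem phase3_l1 (h3 : ∀ T, (sides T).card = 3) {E good : Finset Ed} {k N : ℕ} {a ε c : ℝ}
    (ha : 0 ≤ a) (hsub : good ⊆ E)
    (htree : ∀ e ∈ good, IsTree (rsides sides E) (2 * k + 1) none e)
    (hodd : ∀ e ∈ good, |iter (nodeC sides E) (nodeL sides E) (nodeR sides E) (2 * k + 1)
      (none, e) 1 - a| ≤ ε * a)
    (heven : ∀ e ∈ good, |iter (nodeC sides E) (nodeL sides E) (nodeR sides E) (2 * k)
      (none, e) 1 - a| ≤ ε * a)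
    (hN : ∀ e ∈ good, (good.filter fun e' => ¬ Disjoint (supp (rsides sides E) (2 * k + 1) none e)
      (supp (rsides sides E) (2 * k + 1) none e')).card ≤ N)
    (hc : 0 < c) (hcN : (good.card : ℝ) * N ≤ c ^ 2) :
    Order.seq sides (fun S => |(S.card : ℝ) - a * E.card|) E
      ≤ 2 * (ε * a * good.card + (E.card - good.card) * (1 + a) + c) := by
  obtain ⟨-, heq⟩ :=
    Order.integral_final_labels sides (fun S => |(S.card : ℝ) - a * E.card|) E
  rw [← heq, ← labels_eq]
  have hsw := Order.card_final_sandwich sides E k
  rw [← labels_eq] at hsw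
  refine l1_of_sandwich (sides := rsides sides E) (F := fun U => ((Order.final sides U E).card : ℝ))
    ha hsub htree
    (fun e he => ?_) (fun e he => ?_) hN hc hcN ?_ ?_
  · rw [Phi_eq_iter h3 E _ (none, e)]; exact hodd e he
  · rw [Phi_eq_iter h3 E _ (none, e)]; exact heven e he
  · filter_upwards [hsw] with U hU
    simp only [W_rsides]; exact hU.1
  · filter_upwards [hsw] with U hU
    simp only [W_rsides]; exact hU.2

end Vale.Agent.P046.Tree
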