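import Vale.Agent.P046.Chain
import Vale.Agent.P046.Tree.Phase3

/-!
The triangles of the complete graph as labelled candidates, and the identification of the
sequential process with the removal chain run to completion.
-/

namespace Vale.Agent.P046.Tree

open Finset

variable {n : ℕ}

/-- Triangles of the complete graph. -/
abbrev Tri (n : ℕ) := {t : Finset (Fin n) // t.card = 3}

/-- Their sides. -/
def triSides (T : Tri n) : Finset (Finset (Fin n)) := Vale.Agent.P046.sides T.1

lemma card_triSides (T : Tri n) : (triSides T).card = 3 := by
  simp [triSides, Vale.Agent.P046.sides, T.2]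

lemma image_cands (E : Chain.St n) :
    (Order.cands triSides E).image Subtype.val = Vale.Agent.P046.triangles E := by
  ext t
  simp only [mem_image, Order.mem_cands, Vale.Agent.P046.triangles, mem_filter, mem_powersetCard]
  constructor
  · rintro ⟨T, ⟨h, -⟩, rfl⟩
    exact ⟨⟨subset_univ _, T.2⟩, h⟩
  · rintro ⟨⟨-, ht⟩, h⟩
    exact ⟨⟨t, ht⟩, ⟨h, card_pos.1 (by rw [card_triSides]; norm_num)⟩, rfl⟩

/-- Enough steps of the chain give the sequential process. -/
lemma expect_eq_seq (f : Chain.St n → ℝ) : ∀ (k j : ℕ) (E : Chain.St n), E.card ≤ k →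
    Chain.expect k (fun _ F => f F) j E = Order.seq triSides f E
  | 0, j, E, h => by
    have hne : ¬ (Order.cands triSides E).Nonempty := by
      rintro ⟨T, hT⟩
      have := Order.card_lt_of_cand triSides hT
      omega
    rw [Order.seq_of_empty triSides f hne]
    rfl
  | k + 1, j, E, h => by
    rw [Chain.expect_succ, Chain.avg, ← image_cands]
    by_cases hne : (Order.cands triSides E).Nonempty
    · rw [if_neg (by simpa [← nonempty_iff_ne_empty] using hne),
        Order.seq_of_nonempty triSides f hne,
        card_image_of_injective _ Subtype.val_injective,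
        sum_image (fun a _ b _ h => Subtype.val_injective h)]
      congr 1
      refine sum_congr rfl fun T hT => expect_eq_seq f k (j + 1) _ ?_
      have := Order.card_lt_of_cand triSides hT
      simp only [triSides] at this
      omega
    · rw [if_pos (by simpa [not_nonempty_iff_eq_empty] using hne),
        Order.seq_of_empty triSides f hne]
      clear h
      induction k generalizing j with
      | zero => rfl
      | succ k ih =>
        rw [Chain.expect_succ, Chain.avg,
          if_pos (by rw [← image_cands]; simpa [not_nonempty_iff_eq_empty] using hne)]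
        exact ih (j + 1)

/-- **Phase III for the removal chain**: from a deterministic graph, run to completion. -/
theorem phase3_chain {E good : Chain.St n} {k N steps j : ℕ} {a ε c : ℝ}
    (hsteps : E.card ≤ steps) (ha : 0 ≤ a) (hsub : good ⊆ E)
    (htree : ∀ e ∈ good, IsTree (rsides triSides E) (2 * k + 1) none e)
    (hodd : ∀ e ∈ good, |iter (nodeC triSides E) (nodeL triSides E) (nodeR triSides E) (2 * k + 1)
      (none, e) 1 - a| ≤ ε * a)
    (heven : ∀ e ∈ good, |iter (nodeC triSides E) (nodeL triSides E) (nodeR triSides E) (2 * k)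
      (none, e) 1 - a| ≤ ε * a)
    (hN : ∀ e ∈ good, (good.filter fun e' => ¬ Disjoint
      (supp (rsides triSides E) (2 * k + 1) none e)
      (supp (rsides triSides E) (2 * k + 1) none e')).card ≤ N)
    (hc : 0 < c) (hcN : (good.card : ℝ) * N ≤ c ^ 2) :
    Chain.expect steps (fun _ F => |(F.card : ℝ) - a * E.card|) j E
      ≤ 2 * (ε * a * good.card + (E.card - good.card) * (1 + a) + c) := by
  rw [expect_eq_seq (fun F => |(F.card : ℝ) - a * E.card|) steps j E hsteps]
  exact phase3_l1 card_triSides ha hsub htree hodd heven hN hc hcN

/-- The recursion at depth `k` only sees the nodes within `k` steps: two branching structures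
agreeing there give the same values. -/
lemma iter_congr {N ι : Type*} {C C' : N → Finset ι} {l l' r r' : N → ι → N}
    (Q : ℕ → N → Prop)
    (hQ : ∀ k v, Q (k + 1) v → C' v = C v ∧
      ∀ i ∈ C v, l' v i = l v i ∧ r' v i = r v i ∧ Q k (l v i) ∧ Q k (r v i)) :
    ∀ k v, Q k v → ∀ t : ℝ, iter C' l' r' k v t = iter C l r k v t
  | 0, _, _, _ => rfl
  | k + 1, v, hv, t => by
    obtain ⟨hC, hi⟩ := hQ k v hv
    simp only [iter_succ, step, hC]
    refine prod_congr rfl fun i hmem => ?_
    obtain ⟨hl, hr, hql, hqr⟩ := hi i hmem
    simp only [branchInt, hl, hr, iter_congr Q hQ k _ hql, iter_congr Q hQ k _ hqr]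

end Vale.Agent.P046.Tree
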