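import Mathlib

/-!
Labels: independent uniform labels on a finite type, and the two facts used about them
(one coordinate can be resampled; functions of disjoint sets of coordinates multiply).
-/

namespace Vale.Agent.P046.Tree

open MeasureTheory ProbabilityTheory Finset

variable {Tr : Type*} [Fintype Tr] [DecidableEq Tr]

/-- The law of one label: uniform on `[0, 1]`. -/
noncomputable def lab : Measure ℝ := volume.restrict (Set.Icc 0 1)

instance : IsProbabilityMeasure lab := by
  constructor
  simp [lab]

/-- The law of all labels. -/
noncomputable def labels (Tr : Type*) [Fintype Tr] : Measure (Tr → ℝ) :=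
  Measure.pi (fun _ : Tr => lab)

instance : IsProbabilityMeasure (labels Tr) := by
  unfold labels; infer_instance

/-- Resampling one coordinate preserves the law of the labels. -/
lemma measurePreserving_update (T : Tr) :
    MeasurePreserving (fun p : ℝ × (Tr → ℝ) => Function.update p.2 T p.1)
      (lab.prod (labels Tr)) (labels Tr) := by
  have hm : Measurable (fun p : ℝ × (Tr → ℝ) => Function.update p.2 T p.1) := by
    rw [measurable_pi_iff]
    intro i
    rcases eq_or_ne i T with rfl | hi
    · simp only [Function.update_self]; exact measurable_fst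
    · simp only [Function.update_of_ne hi]; exact (measurable_pi_apply i).comp measurable_snd
  refine ⟨hm, (Measure.pi_eq fun s hs => ?_).symm⟩
  rw [Measure.map_apply hm (MeasurableSet.univ_pi hs)]
  have hpre : (fun p : ℝ × (Tr → ℝ) => Function.update p.2 T p.1) ⁻¹' Set.univ.pi s
      = s T ×ˢ Set.univ.pi (Function.update s T Set.univ) := by
    ext p
    simp only [Set.mem_preimage, Set.mem_univ_pi, Set.mem_prod]
    constructor
    · intro h
      refine ⟨by simpa using h T, fun i => ?_⟩
      rcases eq_or_ne i T with rfl | hi
      · simp
      · simpa [Function.update_of_ne hi] using h i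
    · intro h i
      rcases eq_or_ne i T with rfl | hi
      · simpa using h.1
      · simpa [Function.update_of_ne hi] using h.2 i
  rw [hpre, Measure.prod_prod]
  have hpi : labels Tr (Set.univ.pi (Function.update s T Set.univ))
      = ∏ i, lab (Function.update s T Set.univ i) := Measure.pi_pi _ _
  rw [hpi, ← Finset.mul_prod_erase univ (fun i => lab (Function.update s T Set.univ i))
      (mem_univ T), ← Finset.mul_prod_erase univ (fun i => lab (s i)) (mem_univ T)]
  have h1 : ∏ i ∈ univ.erase T, lab (Function.update s T Set.univ i)
      = ∏ i ∈ univ.erase T, lab (s i) := by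
    refine Finset.prod_congr rfl fun i hi => ?_
    rw [Function.update_of_ne (Finset.ne_of_mem_erase hi)]
  rw [h1]
  simp

/-- Integrals of functions of the labels, resampling one coordinate. -/
lemma integral_update (T : Tr) {F : (Tr → ℝ) → ℝ} (hF : Measurable F)
    {C : ℝ} (hC : ∀ U, |F U| ≤ C) :
    ∫ U, F U ∂labels Tr = ∫ s, ∫ U, F (Function.update U T s) ∂labels Tr ∂lab := by
  have h := measurePreserving_update (Tr := Tr) T
  calc ∫ U, F U ∂labels Tr
      = ∫ U, F U ∂((lab.prod (labels Tr)).map fun p => Function.update p.2 T p.1) := by
        rw [h.map_eq]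
    _ = ∫ p, F (Function.update p.2 T p.1) ∂lab.prod (labels Tr) := by
        rw [integral_map h.measurable.aemeasurable hF.aestronglyMeasurable]
    _ = _ := by
        refine integral_prod (fun p : ℝ × (Tr → ℝ) => F (Function.update p.2 T p.1)) ?_
        exact Integrable.of_bound (hF.comp h.measurable).aestronglyMeasurable C
          (Filter.Eventually.of_forall fun p => by
            rw [Real.norm_eq_abs]; exact hC _)

/-- Extension of a partial labelling by zero. -/
def fill (A : Finset Tr) (w : A → ℝ) : Tr → ℝ :=
  fun i => if h : i ∈ A then w ⟨i, h⟩ else 0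

omit [Fintype Tr] in
lemma measurable_fill (A : Finset Tr) : Measurable (fill A) := by
  rw [measurable_pi_iff]
  intro i
  by_cases h : i ∈ A
  · simp only [fill, dif_pos h]; exact measurable_pi_apply _
  · simp only [fill, dif_neg h]; exact measurable_const

/-- Functions of disjoint sets of labels have product expectation. -/
lemma integral_mul_disjoint {A B : Finset Tr} (hAB : Disjoint A B) {f g : (Tr → ℝ) → ℝ}
    (hf : Measurable f) (hg : Measurable g)
    (hfA : DependsOn f (A : Set Tr)) (hgB : DependsOn g (B : Set Tr)) :
    ∫ U, f U * g U ∂labels Tr = (∫ U, f U ∂labels Tr) * ∫ U, g U ∂labels Tr := by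
  have hI : iIndepFun (fun (i : Tr) (U : Tr → ℝ) => U i) (labels Tr) :=
    iIndepFun_pi (μ := fun _ : Tr => lab) (X := fun _ => id) (fun _ => aemeasurable_id)
  have hAB' := hI.indepFun_finset A B hAB (fun i => measurable_pi_apply i)
  have hf' : f = (fun w => f (fill A w)) ∘ (fun U (i : A) => U i) := by
    funext U
    refine hfA fun i hi => ?_
    have hi' : i ∈ A := by exact_mod_cast hi
    simp only [fill, dif_pos hi']
  have hg' : g = (fun w => g (fill B w)) ∘ (fun U (i : B) => U i) := by
    funext U
    refine hgB fun i hi => ?_
    have hi' : i ∈ B := by exact_mod_cast hi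
    simp only [fill, dif_pos hi']
  have h := hAB'.comp (φ := fun w => f (fill A w)) (ψ := fun w => g (fill B w))
    (hf.comp (measurable_fill A)) (hg.comp (measurable_fill B))
  rw [← hf', ← hg'] at h
  exact h.integral_fun_mul_eq_mul_integral hf.aestronglyMeasurable hg.aestronglyMeasurable

/-- A product of functions of pairwise disjoint sets of labels. -/
lemma integral_prod_disjoint {ι : Type*} [DecidableEq ι] (S : Finset ι) (A : ι → Finset Tr)
    (f : ι → (Tr → ℝ) → ℝ) (hd : (S : Set ι).PairwiseDisjoint A)
    (hf : ∀ i ∈ S, Measurable (f i)) (hdep : ∀ i ∈ S, DependsOn (f i) (A i : Set Tr)) :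
    ∫ U, ∏ i ∈ S, f i U ∂labels Tr = ∏ i ∈ S, ∫ U, f i U ∂labels Tr := by
  induction S using Finset.induction_on with
  | empty => simp
  | insert a S ha ih =>
    simp only [Finset.prod_insert ha]
    rw [Finset.coe_insert] at hd
    have hdis : Disjoint (A a) (S.biUnion A) := by
      rw [Finset.disjoint_biUnion_right]
      intro i hi
      exact hd (Set.mem_insert a _) (Set.mem_insert_of_mem _ hi)
        (by rintro rfl; exact ha hi)
    have hdepS : DependsOn (fun U => ∏ i ∈ S, f i U) (S.biUnion A : Set Tr) := by
      intro U V h
      refine Finset.prod_congr rfl fun i hi => hdep i (Finset.mem_insert_of_mem hi) fun j hj => ?_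
      exact h j (Finset.mem_coe.2 (Finset.mem_biUnion.2 ⟨i, hi, Finset.mem_coe.1 hj⟩))
    rw [integral_mul_disjoint hdis (hf a (Finset.mem_insert_self a S))
      (Finset.measurable_prod S fun i hi => hf i (Finset.mem_insert_of_mem hi))
      (hdep a (Finset.mem_insert_self a S)) hdepS,
      ih (hd.subset (Set.subset_insert a _)) (fun i hi => hf i (Finset.mem_insert_of_mem hi))
        (fun i hi => hdep i (Finset.mem_insert_of_mem hi))]

end Vale.Agent.P046.Tree
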