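import Mathlib

/-!
# Analysis of the survival recursion on an almost regular tree
-/

set_option linter.unusedSectionVars false

namespace Vale.Agent.P046.Tree

open Finset

variable {ι β : Type}

/-- Branching data of a tree in which every branch leads to a pair of children. -/
structure Data (ι β : Type) where
  kids : ι → Finset β
  ch : ι → β → Finset ι
  x : ι → ℝ
  y : ι → ℝ
  D : ℝ
  N : ℕ
  eps : ℝ
  lam : ℝ
  c1 : ℝ
  c2 : ℝ

namespace Data

variable (d : Data ι β)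

/-- Logarithmic time of slot `j`. -/
noncomputable def ell (j : ℕ) : ℝ := Real.log (1 + 2 * d.D * ((j:ℝ) / d.N))

/-- The scalar second order correction. -/
noncomputable def bfun (l : ℝ) : ℝ :=
  -((d.c1 + d.c2) / 16) * (l ^ 2 - 2 * l + 2 - 2 * Real.exp (-l))
    - 1 / (4 * d.D) * (l - 1 + Real.exp (-l))

/-- The correction to the main term `-l/2` at node `a`. -/
noncomputable def corr (a : ι) (l : ℝ) : ℝ :=
  -(l / 2) * d.x a + l ^ 2 / 8 * d.y a + d.bfun l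

/-- The approximate logarithm of the survival probability. -/
noncomputable def tgt (a : ι) (j : ℕ) : ℝ := -(d.ell j) / 2 + d.corr a (d.ell j)

/-- The survival recursion. -/
noncomputable def rho : ℕ → ι → ℕ → ℝ
  | 0, _, _ => 1
  | k + 1, a, i => ∏ b ∈ d.kids a, (1 - (∑ j ∈ range i, ∏ g ∈ d.ch a b, rho k g j) / d.N)

/-- The branch integral of a family `q`. -/
noncomputable def zof (q : ι → ℕ → ℝ) (a : ι) (b : β) (i : ℕ) : ℝ :=
  (∑ j ∈ range i, ∏ g ∈ d.ch a b, q g j) / d.N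

/-- The branch integral of the approximate solution. -/
noncomputable def z0 (a : ι) (b : β) (i : ℕ) : ℝ := d.zof (fun g j => Real.exp (d.tgt g j)) a b i

/-- Regularity hypotheses. -/
structure Reg : Prop where
  hD : 1 ≤ d.D
  hN : 0 < d.N
  heps : 0 ≤ d.eps
  hlam : 1 ≤ d.lam
  hell : Real.log (1 + 2 * d.D) ≤ d.lam
  hDeps : 1 / d.D ≤ d.eps ^ 2
  hsmall : d.eps * d.lam ^ 2 ≤ 1 / 1000
  hfine : d.D ^ 2 * Real.exp (2 * d.lam) * d.lam ^ 4 / d.N ≤ d.eps ^ 4 / 1000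
  hc1 : |d.c1| ≤ d.eps ^ 2
  hc2 : |d.c2| ≤ d.eps ^ 2
  hch : ∀ a, ∀ b ∈ d.kids a, (d.ch a b).card = 2
  hcard : ∀ a, ((d.kids a).card : ℝ) = d.D * (1 + d.x a)
  hx : ∀ a, |d.x a| ≤ d.eps
  hy : ∀ a, |d.y a| ≤ d.eps ^ 2
  hxsum : ∀ a, |(∑ b ∈ d.kids a, ∑ g ∈ d.ch a b, d.x g) - d.y a * (d.kids a).card|
    ≤ d.eps ^ 3 * (d.kids a).card
  hysum : ∀ a, |(∑ b ∈ d.kids a, ∑ g ∈ d.ch a b, d.y g) - d.c1 * (d.kids a).card|
    ≤ d.eps ^ 3 * (d.kids a).card
  hx2sum : ∀ a, |(∑ b ∈ d.kids a, (∑ g ∈ d.ch a b, d.x g) ^ 2) - d.c2 * (d.kids a).card|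
    ≤ d.eps ^ 3 * (d.kids a).card

/-- A Riemann sum estimate in logarithmic time. -/
lemma riemann (hD : 1 ≤ d.D) (hN : 0 < d.N) (hell : Real.log (1 + 2 * d.D) ≤ d.lam)
    (F f f' : ℝ → ℝ) (hF : ∀ l, HasDerivAt F (f l) l) (hf : ∀ l, HasDerivAt f (f' l) l)
    {M : ℝ} (hM : ∀ l, 0 ≤ l → l ≤ d.lam → |f l| ≤ M ∧ |f' l| ≤ M) {i : ℕ} (hi : i ≤ d.N) :
    |(∑ j ∈ range i, f (d.ell j) / (1 + 2 * d.D * ((j:ℝ) / d.N))) / d.N
      - (F (d.ell i) - F 0) / (2 * d.D)| ≤ 4 * d.D * M / d.N := by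
  set h : ℝ → ℝ := fun t => F (Real.log (1 + 2 * d.D * t)) / (2 * d.D) with hh
  set h1 : ℝ → ℝ := fun t => f (Real.log (1 + 2 * d.D * t)) / (1 + 2 * d.D * t) with hh1
  have hDp : 0 < d.D := by linarith
  have hpos : ∀ t : ℝ, 0 ≤ t → 1 ≤ 1 + 2 * d.D * t := fun t ht => by
    have : 0 ≤ 2 * d.D * t := by positivity
    linarith
  have hlin : ∀ t : ℝ, HasDerivAt (fun t => 1 + 2 * d.D * t) (2 * d.D) t := fun t => by
    simpa using ((hasDerivAt_id t).const_mul (2 * d.D)).const_add 1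
  have hl : ∀ t : ℝ, 0 ≤ t → HasDerivAt (fun t => Real.log (1 + 2 * d.D * t))
      (2 * d.D / (1 + 2 * d.D * t)) t :=
    fun t ht => (hlin t).log (by linarith [hpos t ht])
  have hh' : ∀ t : ℝ, 0 ≤ t → HasDerivAt h (h1 t) t := by
    intro t ht
    refine (((hF _).comp t (hl t ht)).div_const (2 * d.D)).congr_deriv ?_
    have := hpos t ht
    simp only [hh1]
    field_simp
  have hrange : ∀ t : ℝ, 0 ≤ t → t ≤ 1 → 0 ≤ Real.log (1 + 2 * d.D * t) ∧
      Real.log (1 + 2 * d.D * t) ≤ d.lam := by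
    intro t ht ht1
    refine ⟨Real.log_nonneg (hpos t ht), le_trans (Real.log_le_log (by linarith [hpos t ht]) ?_) hell⟩
    nlinarith
  have hLip : ∀ s t : ℝ, 0 ≤ s → s ≤ t → t ≤ 1 → |h1 t - h1 s| ≤ 4 * d.D * M * (t - s) := by
    intro s t hs hst ht
    have := (convex_Icc s t).norm_image_sub_le_of_norm_hasDerivWithin_le
      (f := h1) (f' := fun u => (f' (Real.log (1 + 2 * d.D * u)) - f (Real.log (1 + 2 * d.D * u)))
        * (2 * d.D) / (1 + 2 * d.D * u) ^ 2) (C := 4 * d.D * M)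
      (fun u hu => by
        have hu0 : 0 ≤ u := hs.trans hu.1
        have hp := hpos u hu0
        refine ((((hf _).comp u (hl u hu0)).div (hlin u) (by linarith)).congr_deriv ?_).hasDerivWithinAt
        simp only [Function.comp]
        field_simp)
      (fun u hu => by
        have hu0 : 0 ≤ u := hs.trans hu.1
        obtain ⟨a1, a2⟩ := hrange u hu0 (hu.2.trans ht)
        obtain ⟨b1, b2⟩ := hM _ a1 a2
        rw [Real.norm_eq_abs, abs_div, abs_mul, abs_of_pos (by positivity : 0 < 2 * d.D),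
          abs_of_nonneg (sq_nonneg (1 + 2 * d.D * u))]
        refine (div_le_self (by positivity) (one_le_pow₀ (hpos u hu0))).trans ?_
        have := abs_sub (f' (Real.log (1 + 2 * d.D * u))) (f (Real.log (1 + 2 * d.D * u)))
        nlinarith)
      (Set.left_mem_Icc.2 hst) (Set.right_mem_Icc.2 hst)
    rwa [Real.norm_eq_abs, Real.norm_eq_abs, abs_of_nonneg (sub_nonneg.2 hst)] at this
  have hN' : (0:ℝ) < d.N := by exact_mod_cast hN
  have step : ∀ j : ℕ, j < d.N →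
      |h1 ((j:ℝ) / d.N) / d.N - (h (((j + 1 : ℕ):ℝ) / d.N) - h ((j:ℝ) / d.N))|
        ≤ 4 * d.D * M / d.N / d.N := by
    intro j hj
    set s : ℝ := (j:ℝ) / d.N with hs
    have hs0 : 0 ≤ s := by positivity
    have hst : (((j + 1 : ℕ):ℝ) / d.N) = s + 1 / d.N := by push_cast; ring
    have ht1 : s + 1 / d.N ≤ 1 := by
      rw [← hst, div_le_one hN']; exact_mod_cast hj
    have hle : s ≤ s + 1 / d.N := by linarith [one_div_pos.2 hN']
    have := (convex_Icc s (s + 1 / d.N)).norm_image_sub_le_of_norm_hasDerivWithin_le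
      (f := fun t => h t - h1 s * t) (f' := fun t => h1 t - h1 s) (C := 4 * d.D * M * (1 / d.N))
      (fun u hu => (((hh' u (hs0.trans hu.1)).sub ((hasDerivAt_id u).const_mul (h1 s))).congr_deriv
        (by ring)).hasDerivWithinAt)
      (fun u hu => by
        rw [Real.norm_eq_abs]
        refine (hLip s u hs0 hu.1 (hu.2.trans ht1)).trans ?_
        have : 0 ≤ M := le_trans (abs_nonneg _) (hM 0 le_rfl (le_trans
          (Real.log_nonneg (hpos 1 zero_le_one)) (by simpa using hell))).1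
        exact mul_le_mul_of_nonneg_left (by linarith [hu.2]) (by positivity))
      (Set.left_mem_Icc.2 hle) (Set.right_mem_Icc.2 hle)
    rw [Real.norm_eq_abs, Real.norm_eq_abs, add_sub_cancel_left,
      abs_of_pos (one_div_pos.2 hN')] at this
    rw [hst, abs_sub_comm]
    calc |h (s + 1 / d.N) - h s - h1 s / d.N|
        = |h (s + 1 / d.N) - h1 s * (s + 1 / d.N) - (h s - h1 s * s)| := by congr 1; ring
      _ ≤ _ := this.trans_eq (by ring)
  have tele : (F (d.ell i) - F 0) / (2 * d.D)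
      = ∑ j ∈ range i, (h (((j + 1 : ℕ):ℝ) / d.N) - h ((j:ℝ) / d.N)) := by
    rw [sum_range_sub (fun j : ℕ => h ((j:ℝ) / d.N))]
    simp [hh, ell, sub_div]
  have hM0 : 0 ≤ M := le_trans (abs_nonneg _) (hM 0 le_rfl (le_trans
    (Real.log_nonneg (hpos 1 zero_le_one)) (by simpa using hell))).1
  rw [tele, sum_div, ← sum_sub_distrib]
  refine (abs_sum_le_sum_abs _ _).trans ?_
  refine (sum_le_sum (fun j hj => step j (lt_of_lt_of_le (mem_range.1 hj) hi))).trans ?_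
  rw [sum_const, card_range, nsmul_eq_mul]
  calc (i:ℝ) * (4 * d.D * M / d.N / d.N) ≤ d.N * (4 * d.D * M / d.N / d.N) :=
        mul_le_mul_of_nonneg_right (by exact_mod_cast hi) (by positivity)
    _ = 4 * d.D * M / d.N := by field_simp

lemma bfun_deriv (l : ℝ) : HasDerivAt d.bfun
    (-((d.c1 + d.c2) / 16) * (2 * l - 2 + 2 * Real.exp (-l))
      - 1 / (4 * d.D) * (1 - Real.exp (-l))) l := by
  have he : HasDerivAt (fun l => Real.exp (-l)) (-Real.exp (-l)) l := by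
    simpa using (hasDerivAt_id l).neg.exp
  have h1 : HasDerivAt (fun l => l ^ 2 - 2 * l + 2 - 2 * Real.exp (-l))
      (2 * l - 2 + 2 * Real.exp (-l)) l :=
    ((((hasDerivAt_pow 2 l).sub ((hasDerivAt_id l).const_mul 2)).add_const 2).sub
      (he.const_mul 2)).congr_deriv (by ring)
  have h2 : HasDerivAt (fun l => l - 1 + Real.exp (-l)) (1 - Real.exp (-l)) l :=
    (((hasDerivAt_id l).sub_const 1).add he).congr_deriv (by ring)
  exact (h1.const_mul _).sub (h2.const_mul _)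

variable {d} (h : d.Reg)
include h

lemma D_pos : 0 < d.D := lt_of_lt_of_le one_pos h.hD

lemma el_range {j : ℕ} (hj : j ≤ d.N) : 0 ≤ d.ell j ∧ d.ell j ≤ d.lam := by
  have h1 : (0:ℝ) ≤ (j:ℝ) / d.N := by positivity
  have h2 : (j:ℝ) / d.N ≤ 1 := div_le_one_of_le₀ (by exact_mod_cast hj) (by positivity)
  have h3 := D_pos h
  refine ⟨Real.log_nonneg (by nlinarith), le_trans (Real.log_le_log (by positivity) ?_) h.hell⟩
  nlinarith

lemma exp_neg_ell (j : ℕ) : Real.exp (-(d.ell j)) = 1 / (1 + 2 * d.D * ((j:ℝ) / d.N)) := by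
  have := D_pos h
  rw [Real.exp_neg, ell, Real.exp_log (by positivity), one_div]

lemma el_lam : d.eps * d.lam ≤ 1 / 1000 := by
  have := h.hsmall
  have := h.heps
  have := h.hlam
  nlinarith [mul_nonneg (mul_nonneg h.heps (by linarith : 0 ≤ d.lam)) (by linarith : 0 ≤ d.lam - 1)]

lemma e1 : d.eps ≤ 1 / 1000 := by
  have := el_lam h
  nlinarith [h.heps, h.hlam]

lemma bfun_abs {l : ℝ} (h0 : 0 ≤ l) (h1 : l ≤ d.lam) :
    |d.bfun l| ≤ 2 * d.eps ^ 2 * d.lam ^ 2 := by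
  have hD := D_pos h
  have he0 := (Real.exp_pos (-l)).le
  have he1 : Real.exp (-l) ≤ 1 := Real.exp_le_one_iff.2 (by linarith)
  have hl2 : l ^ 2 ≤ d.lam ^ 2 := pow_le_pow_left₀ h0 h1 2
  have hL : 1 ≤ d.lam := h.hlam
  have a1 : |l ^ 2 - 2 * l + 2 - 2 * Real.exp (-l)| ≤ 7 * d.lam ^ 2 := by
    rw [abs_le]; constructor <;> nlinarith
  have a2 : |l - 1 + Real.exp (-l)| ≤ 3 * d.lam ^ 2 := by
    rw [abs_le]; constructor <;> nlinarith
  have c' : |(d.c1 + d.c2) / 16| ≤ d.eps ^ 2 / 8 := by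
    rw [abs_div, abs_of_pos (by norm_num : (0:ℝ) < 16)]
    have := abs_add_le d.c1 d.c2
    linarith [h.hc1, h.hc2]
  have d' : |1 / (4 * d.D)| ≤ d.eps ^ 2 / 4 := by
    rw [abs_of_pos (by positivity)]
    calc 1 / (4 * d.D) = 1 / d.D / 4 := by ring
      _ ≤ _ := by linarith [h.hDeps]
  unfold bfun
  refine (abs_sub _ _).trans ?_
  rw [abs_mul, abs_mul, abs_neg]
  nlinarith [mul_le_mul c' a1 (abs_nonneg _) (by positivity),
    mul_le_mul d' a2 (abs_nonneg _) (by positivity)]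

lemma pair_abs (f : ι → ℝ) {s : Finset ι} (hs : s.card = 2) {K : ℝ} (hf : ∀ g ∈ s, |f g| ≤ K) :
    |∑ g ∈ s, f g| ≤ 2 * K := by
  refine (abs_sum_le_sum_abs _ _).trans ((sum_le_card_nsmul _ _ _ hf).trans_eq ?_)
  rw [hs, nsmul_eq_mul]; norm_num

lemma corr_abs (a : ι) {l : ℝ} (h0 : 0 ≤ l) (h1 : l ≤ d.lam) :
    |d.corr a l| ≤ d.eps * d.lam := by
  have hb := bfun_abs h h0 h1
  have hx := h.hx a
  have hy := h.hy a
  have hl2 : l ^ 2 ≤ d.lam ^ 2 := pow_le_pow_left₀ h0 h1 2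
  have hs := el_lam h
  have he := h.heps
  have hL := h.hlam
  have a1 : |-(l / 2) * d.x a| ≤ d.lam / 2 * d.eps := by
    rw [abs_mul, abs_neg, abs_of_nonneg (by linarith : 0 ≤ l / 2)]
    exact mul_le_mul (by linarith) hx (abs_nonneg _) (by linarith)
  have a2 : |l ^ 2 / 8 * d.y a| ≤ d.lam ^ 2 / 8 * d.eps ^ 2 := by
    rw [abs_mul, abs_of_nonneg (by positivity : 0 ≤ l ^ 2 / 8)]
    exact mul_le_mul (by linarith) hy (abs_nonneg _) (by positivity)
  have a3 := abs_add_le (-(l / 2) * d.x a + l ^ 2 / 8 * d.y a) (d.bfun l)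
  have a4 := abs_add_le (-(l / 2) * d.x a) (l ^ 2 / 8 * d.y a)
  have a5 : d.eps ^ 2 * d.lam ^ 2 ≤ (1 / 1000) * (d.eps * d.lam) := by
    nlinarith [mul_nonneg (mul_nonneg he (by linarith : 0 ≤ d.lam))
      (by linarith : 0 ≤ 1 / 1000 - d.eps * d.lam)]
  unfold corr
  nlinarith

lemma tgt_zero (a : ι) : d.tgt a 0 = 0 := by
  simp [tgt, corr, bfun, ell]

/-- The product over a pair of children of the approximate solution. -/
lemma prod_tgt {a : ι} {b : β} (hb : b ∈ d.kids a) (j : ℕ) :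
    ∏ g ∈ d.ch a b, Real.exp (d.tgt g j)
      = 1 / (1 + 2 * d.D * ((j:ℝ) / d.N)) * Real.exp (∑ g ∈ d.ch a b, d.corr g (d.ell j)) := by
  rw [← Real.exp_sum, ← exp_neg_ell h, ← Real.exp_add]
  congr 1
  simp only [tgt, sum_add_distrib, sum_const, h.hch a b hb, nsmul_eq_mul]
  push_cast
  ring

lemma expand {a : ι} {b : β} (hb : b ∈ d.kids a) {l : ℝ} (h0 : 0 ≤ l) (h1 : l ≤ d.lam) :
    |Real.exp (∑ g ∈ d.ch a b, d.corr g l)
      - (1 - l / 2 * (∑ g ∈ d.ch a b, d.x g) + l ^ 2 / 8 * (∑ g ∈ d.ch a b, d.y g)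
        + l ^ 2 / 8 * (∑ g ∈ d.ch a b, d.x g) ^ 2 + 2 * d.bfun l)|
      ≤ 9 * d.eps ^ 3 * d.lam ^ 3 := by
  set Sx := ∑ g ∈ d.ch a b, d.x g with hSx
  set Sy := ∑ g ∈ d.ch a b, d.y g with hSy
  set bb := d.bfun l with hbb
  have hS : ∑ g ∈ d.ch a b, d.corr g l = -(l / 2) * Sx + (l ^ 2 / 8 * Sy + 2 * bb) := by
    simp only [corr, sum_add_distrib, sum_const, h.hch a b hb, nsmul_eq_mul, ← mul_sum]
    push_cast
    ring
  have hx : |Sx| ≤ 2 * d.eps := pair_abs h d.x (h.hch a b hb) (fun g _ => h.hx g)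
  have hy : |Sy| ≤ 2 * d.eps ^ 2 := pair_abs h d.y (h.hch a b hb) (fun g _ => h.hy g)
  have hb2 := bfun_abs h h0 h1
  have he := h.heps
  have hL := h.hlam
  have hs := el_lam h
  set u := l ^ 2 / 8 * Sy + 2 * bb with hu
  set v := -(l / 2) * Sx with hv
  have hu' : |u| ≤ 5 * d.eps ^ 2 * d.lam ^ 2 := by
    refine (abs_add_le _ _).trans ?_
    rw [abs_mul, abs_mul, abs_of_nonneg (by positivity : 0 ≤ l ^ 2 / 8), abs_two]
    have : l ^ 2 / 8 * |Sy| ≤ d.lam ^ 2 / 8 * (2 * d.eps ^ 2) :=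
      mul_le_mul (by nlinarith) hy (abs_nonneg _) (by positivity)
    nlinarith
  have hv' : |v| ≤ d.eps * d.lam := by
    rw [abs_mul, abs_neg, abs_of_nonneg (by linarith : 0 ≤ l / 2)]
    calc l / 2 * |Sx| ≤ d.lam / 2 * (2 * d.eps) :=
          mul_le_mul (by linarith) hx (abs_nonneg _) (by linarith)
      _ = _ := by ring
  have hu1 : |u| ≤ 5 / 1000 * (d.eps * d.lam) := by
    refine hu'.trans ?_
    nlinarith [mul_nonneg (mul_nonneg he (by linarith : 0 ≤ d.lam))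
      (by linarith : 0 ≤ 1 / 1000 - d.eps * d.lam)]
  have hw : |v + u| ≤ 1.01 * (d.eps * d.lam) := by
    refine (abs_add_le v u).trans ?_
    nlinarith [mul_nonneg he (by linarith : 0 ≤ d.lam)]
  have hw1 : |v + u| ≤ 1 := by linarith
  have hexp := Real.exp_bound hw1 (n := 3) (by norm_num)
  simp only [sum_range_succ, sum_range_zero, Nat.factorial] at hexp
  norm_num at hexp
  have hw3 : |v + u| ^ 3 ≤ (1.01 * (d.eps * d.lam)) ^ 3 := pow_le_pow_left₀ (abs_nonneg _) hw 3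
  have hcross : |v * u + u ^ 2 / 2| ≤ 6 * d.eps ^ 3 * d.lam ^ 3 := by
    refine (abs_add_le _ _).trans ?_
    rw [abs_mul, abs_div, abs_pow, abs_two]
    have h1' := mul_le_mul hv' hu' (abs_nonneg _) (by positivity)
    have h2' : |u| ^ 2 ≤ (5 / 1000 * (d.eps * d.lam)) * (5 * d.eps ^ 2 * d.lam ^ 2) := by
      rw [sq]; exact mul_le_mul hu1 hu' (abs_nonneg _) (by positivity)
    nlinarith [pow_nonneg (mul_nonneg he (by linarith : 0 ≤ d.lam)) 3]
  rw [hS]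
  have : Real.exp (v + u) - (1 - l / 2 * Sx + l ^ 2 / 8 * Sy + l ^ 2 / 8 * Sx ^ 2 + 2 * bb)
      = (Real.exp (v + u) - (1 + (v + u) + (v + u) ^ 2 / 2)) + (v * u + u ^ 2 / 2) := by
    simp only [hv, hu]; ring
  rw [this]
  refine (abs_add_le _ _).trans ?_
  nlinarith [pow_nonneg (mul_nonneg he (by linarith : 0 ≤ d.lam)) 3]

lemma card_le (a : ι) : ((d.kids a).card : ℝ) ≤ 1.001 * d.D := by
  rw [h.hcard a]
  nlinarith [(abs_le.1 (h.hx a)).2, e1 h, D_pos h]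

/-- The primitive of the averaged branch integrand. -/
lemma sum_branch {a : ι} {l : ℝ} (h0 : 0 ≤ l) (h1 : l ≤ d.lam) :
    |(∑ b ∈ d.kids a, Real.exp (∑ g ∈ d.ch a b, d.corr g l))
      - d.D * (1 + d.x a - d.y a / 2 * l + (d.c1 + d.c2) / 8 * l ^ 2 + 2 * d.bfun l)|
      ≤ 25 * d.D * d.eps ^ 3 * d.lam ^ 3 := by
  set K : ℝ := ((d.kids a).card : ℝ) with hK
  set T : β → ℝ := fun b => 1 - l / 2 * (∑ g ∈ d.ch a b, d.x g)
    + l ^ 2 / 8 * (∑ g ∈ d.ch a b, d.y g)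
    + l ^ 2 / 8 * (∑ g ∈ d.ch a b, d.x g) ^ 2 + 2 * d.bfun l with hT
  have e : |(∑ b ∈ d.kids a, Real.exp (∑ g ∈ d.ch a b, d.corr g l)) - ∑ b ∈ d.kids a, T b|
      ≤ K * (9 * d.eps ^ 3 * d.lam ^ 3) := by
    rw [← sum_sub_distrib]
    refine (abs_sum_le_sum_abs _ _).trans ((sum_le_sum (fun b hb => expand h hb h0 h1)).trans_eq ?_)
    rw [sum_const, nsmul_eq_mul]
  have hTs : ∑ b ∈ d.kids a, T b = K * (1 + 2 * d.bfun l)
      - l / 2 * (∑ b ∈ d.kids a, ∑ g ∈ d.ch a b, d.x g)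
      + l ^ 2 / 8 * (∑ b ∈ d.kids a, ∑ g ∈ d.ch a b, d.y g)
      + l ^ 2 / 8 * (∑ b ∈ d.kids a, (∑ g ∈ d.ch a b, d.x g) ^ 2) := by
    simp only [hT, sum_add_distrib, sum_sub_distrib, ← mul_sum, sum_const, nsmul_eq_mul]
    ring
  set X := ∑ b ∈ d.kids a, ∑ g ∈ d.ch a b, d.x g
  set Y := ∑ b ∈ d.kids a, ∑ g ∈ d.ch a b, d.y g
  set Z := ∑ b ∈ d.kids a, (∑ g ∈ d.ch a b, d.x g) ^ 2
  set R := -(d.y a / 2 * l) + (d.c1 + d.c2) / 8 * l ^ 2 + 2 * d.bfun l with hR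
  have hKeq : K = d.D * (1 + d.x a) := h.hcard a
  have hsplit : ∑ b ∈ d.kids a, T b - d.D * (1 + d.x a - d.y a / 2 * l
      + (d.c1 + d.c2) / 8 * l ^ 2 + 2 * d.bfun l)
      = -(l / 2) * (X - d.y a * K) + l ^ 2 / 8 * (Y - d.c1 * K) + l ^ 2 / 8 * (Z - d.c2 * K)
        + d.D * d.x a * R := by
    rw [hTs, hR, hKeq]; ring
  have hb2 := bfun_abs h h0 h1
  have he := h.heps
  have hL := h.hlam
  have hD := D_pos h
  have hl2 : l ^ 2 ≤ d.lam ^ 2 := pow_le_pow_left₀ h0 h1 2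
  have hlam2 : d.lam ≤ d.lam ^ 2 := by nlinarith
  have hR' : |R| ≤ 5 * d.eps ^ 2 * d.lam ^ 2 := by
    refine (abs_add_le _ _).trans ?_
    refine (add_le_add_left (abs_add_le _ _) _).trans ?_
    rw [abs_neg, abs_mul, abs_mul, abs_mul, abs_div, abs_div, abs_two,
      abs_of_nonneg h0, abs_of_nonneg (sq_nonneg l), abs_of_pos (by norm_num : (0:ℝ) < 8)]
    have q1 : |d.y a| / 2 * l ≤ d.eps ^ 2 / 2 * d.lam ^ 2 :=
      mul_le_mul (by linarith [h.hy a]) (by linarith) h0 (by positivity)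
    have q2 : |d.c1 + d.c2| / 8 * l ^ 2 ≤ d.eps ^ 2 / 4 * d.lam ^ 2 :=
      mul_le_mul (by linarith [abs_add_le d.c1 d.c2, h.hc1, h.hc2]) hl2 (sq_nonneg _) (by positivity)
    nlinarith
  have hK0 : 0 ≤ K := by positivity
  have hK2 : K ≤ 1.001 * d.D := card_le h a
  have hE : |∑ b ∈ d.kids a, T b - d.D * (1 + d.x a - d.y a / 2 * l
      + (d.c1 + d.c2) / 8 * l ^ 2 + 2 * d.bfun l)| ≤ d.eps ^ 3 * d.lam ^ 2 * K
      + d.D * (5 * d.eps ^ 3 * d.lam ^ 2) := by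
    rw [hsplit]
    refine (abs_add_le _ _).trans (add_le_add ?_ ?_)
    · refine (abs_add_le _ _).trans ?_
      refine (add_le_add_left (abs_add_le _ _) _).trans ?_
      rw [abs_mul, abs_mul, abs_mul, abs_neg, abs_of_nonneg (by linarith : 0 ≤ l / 2),
        abs_of_nonneg (by positivity : 0 ≤ l ^ 2 / 8)]
      have t1 : l / 2 * |X - d.y a * K| ≤ d.lam ^ 2 / 2 * (d.eps ^ 3 * K) :=
        mul_le_mul (by linarith) (h.hxsum a) (abs_nonneg _) (by positivity)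
      have t2 : l ^ 2 / 8 * |Y - d.c1 * K| ≤ d.lam ^ 2 / 8 * (d.eps ^ 3 * K) :=
        mul_le_mul (by linarith) (h.hysum a) (abs_nonneg _) (by positivity)
      have t3 : l ^ 2 / 8 * |Z - d.c2 * K| ≤ d.lam ^ 2 / 8 * (d.eps ^ 3 * K) :=
        mul_le_mul (by linarith) (h.hx2sum a) (abs_nonneg _) (by positivity)
      nlinarith [mul_nonneg (mul_nonneg (pow_nonneg he 3) hK0) (sq_nonneg d.lam)]
    · rw [abs_mul, abs_mul, abs_of_pos hD, mul_assoc]
      refine mul_le_mul_of_nonneg_left ?_ hD.le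
      calc |d.x a| * |R| ≤ d.eps * (5 * d.eps ^ 2 * d.lam ^ 2) :=
            mul_le_mul (h.hx a) hR' (abs_nonneg _) he
        _ = _ := by ring
  calc _ ≤ |(∑ b ∈ d.kids a, Real.exp (∑ g ∈ d.ch a b, d.corr g l)) - ∑ b ∈ d.kids a, T b|
        + |∑ b ∈ d.kids a, T b - d.D * (1 + d.x a - d.y a / 2 * l
          + (d.c1 + d.c2) / 8 * l ^ 2 + 2 * d.bfun l)| := abs_sub_le _ _ _
    _ ≤ _ := by
      have h23 : d.lam ^ 2 ≤ d.lam ^ 3 := pow_le_pow_right₀ hL (by norm_num)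
      have p1 := mul_le_mul_of_nonneg_right hK2 (by positivity : 0 ≤ d.eps ^ 3 * d.lam ^ 3)
      have p2 := mul_le_mul_of_nonneg_left h23 (by positivity : 0 ≤ d.eps ^ 3 * K)
      have p3 := mul_le_mul_of_nonneg_left h23 (by positivity : 0 ≤ d.eps ^ 3 * d.D)
      nlinarith [mul_nonneg hD.le (by positivity : 0 ≤ d.eps ^ 3 * d.lam ^ 3)]

end Data

end Vale.Agent.P046.Tree
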