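import Vale.Agent.P046.Tree.Rec

/-!
# One step of the survival recursion near the approximate solution
-/

set_option linter.unusedSectionVars false

namespace Vale.Agent.P046.Tree

open Finset

variable {ι β : Type}

namespace Data

variable {d : Data ι β} (h : d.Reg)
include h

/-- The accuracy of the approximate solution. -/
noncomputable def err (d : Data ι β) : ℝ := 20 * d.eps ^ 3 * d.lam ^ 4

lemma N_pos : (0:ℝ) < d.N := by exact_mod_cast h.hN

lemma exp2_ge : 1 ≤ Real.exp (2 * d.lam) := Real.one_le_exp (by linarith [h.hlam])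

lemma mesh : d.D ^ 2 / d.N ≤ d.eps ^ 4 / 1000 := by
  refine le_trans (div_le_div_of_nonneg_right ?_ (N_pos h).le) h.hfine
  have := exp2_ge h
  calc d.D ^ 2 = d.D ^ 2 * 1 * 1 := by ring
    _ ≤ d.D ^ 2 * Real.exp (2 * d.lam) * d.lam ^ 4 :=
      mul_le_mul (mul_le_mul_of_nonneg_left this (sq_nonneg _)) (one_le_pow₀ h.hlam)
        zero_le_one (by positivity)

lemma eps4_le : d.eps ^ 4 ≤ d.eps ^ 3 / 1000 := by
  have := e1 h
  nlinarith [pow_nonneg h.heps 3]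

lemma sum_r {i : ℕ} (hi : i ≤ d.N) :
    |(∑ j ∈ range i, 1 / (1 + 2 * d.D * ((j:ℝ) / d.N))) / d.N - d.ell i / (2 * d.D)|
      ≤ 4 * d.D / d.N := by
  have := d.riemann h.hD h.hN h.hell (fun l => l) (fun _ => 1) (fun _ => 0)
    (fun l => hasDerivAt_id l) (fun l => hasDerivAt_const l (1:ℝ)) (M := 1)
    (fun l _ _ => by simp) hi
  simpa using this

lemma sum_r_le {i : ℕ} (hi : i ≤ d.N) :
    (∑ j ∈ range i, 1 / (1 + 2 * d.D * ((j:ℝ) / d.N))) / d.N ≤ 0.51 * d.lam / d.D := by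
  have h1 := (abs_le.1 (sum_r h hi)).2
  have h2 := (el_range h hi).2
  have hD := D_pos h
  have h3 := mesh h
  have h4 : d.eps ^ 4 ≤ 1 := pow_le_one₀ h.heps (by linarith [e1 h])
  have h5 : 4 * d.D / d.N ≤ 0.01 * d.lam / d.D := by
    rw [div_le_div_iff₀ (N_pos h) hD]
    rw [div_le_iff₀ (N_pos h)] at h3
    nlinarith [N_pos h, h.hlam]
  have h6 : d.ell i / (2 * d.D) ≤ 0.5 * d.lam / d.D := by
    rw [div_le_div_iff₀ (by positivity) hD]
    nlinarith
  calc _ ≤ d.ell i / (2 * d.D) + 4 * d.D / d.N := by linarith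
    _ ≤ 0.5 * d.lam / d.D + 0.01 * d.lam / d.D := add_le_add h6 h5
    _ = _ := by ring

lemma corr_pair_abs {a : ι} {b : β} (hb : b ∈ d.kids a) {j : ℕ} (hj : j ≤ d.N) :
    |∑ g ∈ d.ch a b, d.corr g (d.ell j)| ≤ 2 * (d.eps * d.lam) :=
  pair_abs h _ (h.hch a b hb) (fun g _ => corr_abs h g (el_range h hj).1 (el_range h hj).2)

lemma exp_pair {a : ι} {b : β} (hb : b ∈ d.kids a) {j : ℕ} (hj : j ≤ d.N) :
    |Real.exp (∑ g ∈ d.ch a b, d.corr g (d.ell j)) - 1| ≤ 4 * (d.eps * d.lam) := by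
  have h1 := corr_pair_abs h hb hj
  have h2 := el_lam h
  exact (Real.abs_exp_sub_one_le (by linarith)).trans (by linarith)

lemma z0_bounds {a : ι} {b : β} (hb : b ∈ d.kids a) {i : ℕ} (hi : i ≤ d.N) :
    |d.z0 a b i - d.ell i / (2 * d.D)| ≤ 3 * d.eps * d.lam ^ 2 / d.D ∧
      0 ≤ d.z0 a b i ∧ d.z0 a b i ≤ d.lam / d.D := by
  have hD := D_pos h
  have hN := N_pos h
  set w : ℕ → ℝ := fun j => Real.exp (∑ g ∈ d.ch a b, d.corr g (d.ell j)) with hw
  set r : ℕ → ℝ := fun j => 1 / (1 + 2 * d.D * ((j:ℝ) / d.N)) with hr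
  have hr0 : ∀ j, 0 ≤ r j := fun j => by positivity
  have hz : d.z0 a b i = (∑ j ∈ range i, r j * w j) / d.N := by
    simp only [z0, zof, prod_tgt h hb, hr, hw]
  have hd : |(∑ j ∈ range i, r j * w j) / d.N - (∑ j ∈ range i, r j) / d.N|
      ≤ 4 * (d.eps * d.lam) * ((∑ j ∈ range i, r j) / d.N) := by
    rw [← sub_div, ← sum_sub_distrib, abs_div, abs_of_pos hN, ← mul_div_assoc, mul_sum]
    refine div_le_div_of_nonneg_right ((abs_sum_le_sum_abs _ _).trans (sum_le_sum ?_)) hN.le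
    intro j hj
    have hjN : j ≤ d.N := (mem_range.1 hj).le.trans hi
    calc |r j * w j - r j| = r j * |w j - 1| := by
          rw [show r j * w j - r j = r j * (w j - 1) by ring, abs_mul, abs_of_nonneg (hr0 j)]
      _ ≤ r j * (4 * (d.eps * d.lam)) := mul_le_mul_of_nonneg_left (exp_pair h hb hjN) (hr0 j)
      _ = _ := by ring
  have h1 := sum_r h hi
  have h2 := sum_r_le h hi
  have he := h.heps
  have hL := h.hlam
  have h5 : 4 * d.D / d.N ≤ 0.5 * d.eps * d.lam ^ 2 / d.D := by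
    rw [div_le_div_iff₀ hN hD]
    have h3 := mesh h
    rw [div_le_iff₀ hN] at h3
    have h4 : d.eps ^ 4 ≤ d.eps * d.lam ^ 2 := by
      calc d.eps ^ 4 = d.eps * d.eps ^ 3 := by ring
        _ ≤ d.eps * d.lam ^ 2 := mul_le_mul_of_nonneg_left
          (le_trans (pow_le_one₀ he (by linarith [e1 h])) (one_le_pow₀ hL)) he
    nlinarith
  have h6 : 4 * (d.eps * d.lam) * (0.51 * d.lam / d.D) = 2.04 * d.eps * d.lam ^ 2 / d.D := by ring
  have main : |d.z0 a b i - d.ell i / (2 * d.D)| ≤ 3 * d.eps * d.lam ^ 2 / d.D := by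
    rw [hz]
    refine (abs_sub_le _ ((∑ j ∈ range i, r j) / d.N) _).trans ?_
    have := mul_le_mul_of_nonneg_left h2 (by positivity : 0 ≤ 4 * (d.eps * d.lam))
    calc _ ≤ 2.04 * d.eps * d.lam ^ 2 / d.D + 0.5 * d.eps * d.lam ^ 2 / d.D :=
          add_le_add ((hd.trans this).trans_eq h6) (h1.trans h5)
      _ ≤ _ := by
        rw [← add_div]
        exact div_le_div_of_nonneg_right (by nlinarith [mul_nonneg he (sq_nonneg d.lam)]) hD.le
  refine ⟨main, ?_, ?_⟩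
  · rw [hz]
    exact div_nonneg (sum_nonneg fun j _ => mul_nonneg (hr0 j) (Real.exp_pos _).le) hN.le
  · have h7 := (abs_le.1 main).2
    have h8 := (el_range h hi).2
    have h9 : d.ell i / (2 * d.D) + 3 * d.eps * d.lam ^ 2 / d.D ≤ d.lam / d.D := by
      rw [show d.ell i / (2 * d.D) = (d.ell i / 2) / d.D by ring, ← add_div]
      refine div_le_div_of_nonneg_right ?_ hD.le
      nlinarith [h.hsmall]
    linarith

lemma lam_div : d.lam / d.D ≤ 1 / 1000000 := by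
  have h1 : d.lam / d.D ≤ d.lam * d.eps ^ 2 := by
    rw [div_eq_mul_one_div]
    exact mul_le_mul_of_nonneg_left h.hDeps (by linarith [h.hlam])
  have h2 := el_lam h
  nlinarith [e1 h, h.heps, h.hlam]

/-- The averaged branch integrand integrates to an explicit primitive. -/
lemma primitive (a : ι) {i : ℕ} (hi : i ≤ d.N) :
    |d.D * ((∑ j ∈ range i, 1 / (1 + 2 * d.D * ((j:ℝ) / d.N)) * (1 + d.x a - d.y a / 2 * d.ell j
        + (d.c1 + d.c2) / 8 * d.ell j ^ 2 + 2 * d.bfun (d.ell j))) / d.N)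
      - ((1 + d.x a) * d.ell i - d.y a / 4 * d.ell i ^ 2 - 2 * d.bfun (d.ell i)
        - 1 / (4 * d.D) * d.ell i ^ 2) / 2| ≤ d.eps ^ 3 * d.lam ^ 4 := by
  have hD := D_pos h
  have hN := N_pos h
  have he := h.heps
  have hL := h.hlam
  set P : ℝ → ℝ := fun t =>
    1 + d.x a - d.y a / 2 * t + (d.c1 + d.c2) / 8 * t ^ 2 + 2 * d.bfun t with hP
  set F : ℝ → ℝ := fun t =>
    (1 + d.x a) * t - d.y a / 4 * t ^ 2 - 2 * d.bfun t - 1 / (4 * d.D) * t ^ 2 with hF
  set B' : ℝ → ℝ := fun t => -((d.c1 + d.c2) / 16) * (2 * t - 2 + 2 * Real.exp (-t))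
      - 1 / (4 * d.D) * (1 - Real.exp (-t)) with hB'
  set P' : ℝ → ℝ := fun t => -(d.y a / 2) + (d.c1 + d.c2) / 4 * t + 2 * B' t with hP'
  have hFd : ∀ t, HasDerivAt F (P t) t := by
    intro t
    refine (((((hasDerivAt_id t).const_mul (1 + d.x a)).sub
      ((hasDerivAt_pow 2 t).const_mul (d.y a / 4))).sub ((bfun_deriv d t).const_mul 2)).sub
      ((hasDerivAt_pow 2 t).const_mul (1 / (4 * d.D)))).congr_deriv ?_
    simp only [hP, bfun]
    field_simp
    ring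
  have hPd : ∀ t, HasDerivAt P (P' t) t := by
    intro t
    refine (((((hasDerivAt_const t (1 + d.x a)).sub ((hasDerivAt_id t).const_mul (d.y a / 2)))).add
      ((hasDerivAt_pow 2 t).const_mul ((d.c1 + d.c2) / 8))).add
      ((bfun_deriv d t).const_mul 2)).congr_deriv ?_
    simp only [hP', hB']
    ring
  have hc : |d.c1 + d.c2| ≤ 2 * d.eps ^ 2 := by
    linarith [abs_add_le d.c1 d.c2, h.hc1, h.hc2]
  have hiD : 1 / d.D ≤ d.eps ^ 2 := h.hDeps
  have hs := el_lam h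
  have he2 : d.eps ^ 2 * d.lam ^ 2 ≤ 1 / 1000000 := by
    nlinarith [mul_nonneg he (by linarith : 0 ≤ d.lam)]
  have hM : ∀ t, 0 ≤ t → t ≤ d.lam → |P t| ≤ 2 ∧ |P' t| ≤ 2 := by
    intro t ht0 ht1
    have hb := bfun_abs h ht0 ht1
    have ht2 : t ^ 2 ≤ d.lam ^ 2 := pow_le_pow_left₀ ht0 ht1 2
    have e1' := Real.exp_pos (-t)
    have e2' : Real.exp (-t) ≤ 1 := Real.exp_le_one_iff.2 (by linarith)
    have hiD0 : 0 ≤ 1 / d.D := by positivity
    have hl2 : d.lam ≤ d.lam ^ 2 := by nlinarith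
    have q1 : |d.y a / 2 * t| ≤ d.eps ^ 2 * d.lam ^ 2 := by
      rw [abs_mul, abs_div, abs_two, abs_of_nonneg ht0]
      exact mul_le_mul (by linarith [h.hy a, abs_nonneg (d.y a)]) (by linarith) ht0 (sq_nonneg _)
    have q2 : |(d.c1 + d.c2) / 8 * t ^ 2| ≤ d.eps ^ 2 * d.lam ^ 2 := by
      rw [abs_mul, abs_div, abs_of_pos (by norm_num : (0:ℝ) < 8), abs_of_nonneg (sq_nonneg t)]
      exact mul_le_mul (by linarith [sq_nonneg d.eps]) ht2 (sq_nonneg _) (sq_nonneg _)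
    have q3 : |(d.c1 + d.c2) / 4 * t| ≤ d.eps ^ 2 * d.lam ^ 2 := by
      rw [abs_mul, abs_div, abs_of_pos (by norm_num : (0:ℝ) < 4), abs_of_nonneg ht0]
      exact mul_le_mul (by linarith [sq_nonneg d.eps]) (by linarith) ht0 (sq_nonneg _)
    have q4 : |B' t| ≤ d.eps ^ 2 * d.lam ^ 2 := by
      refine (abs_sub _ _).trans ?_
      rw [abs_mul, abs_mul, abs_neg, abs_div,
        abs_of_pos (by norm_num : (0:ℝ) < 16), abs_of_pos (by positivity : 0 < 1 / (4 * d.D)),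
        abs_of_nonneg (by linarith : 0 ≤ 1 - Real.exp (-t))]
      have w1 : |2 * t - 2 + 2 * Real.exp (-t)| ≤ 4 * d.lam ^ 2 := by
        rw [abs_le]; constructor <;> nlinarith
      have w2 : |d.c1 + d.c2| / 16 * |2 * t - 2 + 2 * Real.exp (-t)|
          ≤ d.eps ^ 2 / 8 * (4 * d.lam ^ 2) :=
        mul_le_mul (by linarith) w1 (abs_nonneg _) (by positivity)
      have w3 : 1 / (4 * d.D) * (1 - Real.exp (-t)) ≤ d.eps ^ 2 / 4 * 1 :=
        mul_le_mul (by rw [show 1 / (4 * d.D) = 1 / d.D / 4 by ring]; linarith) (by linarith)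
          (by linarith) (by positivity)
      nlinarith
    refine ⟨?_, ?_⟩
    · have := abs_le.1 (h.hx a)
      rw [abs_le]
      simp only [hP]
      constructor <;>
        linarith [abs_le.1 q1, abs_le.1 q2, abs_le.1 hb, this.1, this.2, e1 h]
    · have := abs_le.1 (h.hy a)
      have h20 : d.eps ^ 2 ≤ 1 := pow_le_one₀ he (by linarith [e1 h])
      rw [abs_le]
      simp only [hP']
      constructor <;> linarith [abs_le.1 q3, abs_le.1 q4, this.1, this.2]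
  have hR := d.riemann h.hD h.hN h.hell F P P' hFd hPd hM hi
  have hF0 : F 0 = 0 := by simp [hF, bfun]
  have e : ∀ j : ℕ, 1 / (1 + 2 * d.D * ((j:ℝ) / d.N)) * P (d.ell j)
      = P (d.ell j) / (1 + 2 * d.D * ((j:ℝ) / d.N)) := fun j => by ring
  show |d.D * ((∑ j ∈ range i, 1 / (1 + 2 * d.D * ((j:ℝ) / d.N)) * P (d.ell j)) / d.N)
      - F (d.ell i) / 2| ≤ _
  simp only [e]
  rw [show F (d.ell i) / 2 = d.D * ((F (d.ell i) - F 0) / (2 * d.D)) by rw [hF0]; field_simp; ring,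
    ← mul_sub, abs_mul, abs_of_pos hD]
  refine (mul_le_mul_of_nonneg_left hR hD.le).trans ?_
  calc d.D * (4 * d.D * 2 / d.N) = 8 * (d.D ^ 2 / d.N) := by ring
    _ ≤ 8 * (d.eps ^ 3 / 1000 / 1000) := by linarith [mesh h, eps4_le h]
    _ ≤ d.eps ^ 3 * d.lam ^ 4 := by
      nlinarith [mul_nonneg (pow_nonneg he 3)
        (by linarith [one_le_pow₀ (n := 4) hL] : (0:ℝ) ≤ d.lam ^ 4 - 1), pow_nonneg he 3]

/-- The total of the branch integrals is given by the averaged integrand. -/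
lemma total_z0 (a : ι) {i : ℕ} (hi : i ≤ d.N) :
    |(∑ b ∈ d.kids a, d.z0 a b i) - d.D * ((∑ j ∈ range i,
      1 / (1 + 2 * d.D * ((j:ℝ) / d.N)) * (1 + d.x a - d.y a / 2 * d.ell j
        + (d.c1 + d.c2) / 8 * d.ell j ^ 2 + 2 * d.bfun (d.ell j))) / d.N)|
      ≤ 13 * d.eps ^ 3 * d.lam ^ 4 := by
  have hD := D_pos h
  have hN := N_pos h
  have he := h.heps
  have hL := h.hlam
  set P : ℝ → ℝ := fun t =>
    1 + d.x a - d.y a / 2 * t + (d.c1 + d.c2) / 8 * t ^ 2 + 2 * d.bfun t with hP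
  set r : ℕ → ℝ := fun j => 1 / (1 + 2 * d.D * ((j:ℝ) / d.N)) with hr
  have hz : ∑ b ∈ d.kids a, d.z0 a b i
      = (∑ j ∈ range i, r j * ∑ b ∈ d.kids a, Real.exp (∑ g ∈ d.ch a b, d.corr g (d.ell j))) / d.N := by
    simp only [z0, zof, ← sum_div, mul_sum]
    congr 1
    rw [sum_comm]
    exact sum_congr rfl (fun j _ => sum_congr rfl (fun b hb => by rw [prod_tgt h hb]))
  have hA : |(∑ b ∈ d.kids a, d.z0 a b i) - d.D * ((∑ j ∈ range i, r j * P (d.ell j)) / d.N)|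
      ≤ 13 * d.eps ^ 3 * d.lam ^ 4 := by
    rw [hz, ← mul_div_assoc, ← sub_div, mul_sum, ← sum_sub_distrib, abs_div, abs_of_pos hN]
    refine (div_le_div_of_nonneg_right (abs_sum_le_sum_abs _ _) hN.le).trans ?_
    refine (div_le_div_of_nonneg_right (sum_le_sum (g := fun j => r j * (25 * d.D * d.eps ^ 3 * d.lam ^ 3))
      ?_) hN.le).trans ?_
    · intro j hj
      have hjN : j ≤ d.N := (mem_range.1 hj).le.trans hi
      rw [show d.D * (r j * P (d.ell j)) = r j * (d.D * P (d.ell j)) by ring, ← mul_sub, abs_mul,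
        abs_of_nonneg (by positivity : 0 ≤ r j)]
      exact mul_le_mul_of_nonneg_left (sum_branch h (el_range h hjN).1 (el_range h hjN).2)
        (by positivity)
    · rw [← sum_mul, mul_div_right_comm]
      have := mul_le_mul_of_nonneg_right (sum_r_le h hi)
        (by positivity : 0 ≤ 25 * d.D * d.eps ^ 3 * d.lam ^ 3)
      refine this.trans ?_
      rw [show 0.51 * d.lam / d.D * (25 * d.D * d.eps ^ 3 * d.lam ^ 3)
        = 12.75 * d.eps ^ 3 * d.lam ^ 4 by field_simp; ring]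
      nlinarith [mul_nonneg (pow_nonneg he 3) (pow_nonneg (by linarith : 0 ≤ d.lam) 4)]
  exact hA

/-- Second order expansion of one branch. -/
lemma log_z0 {a : ι} {b : β} (hb : b ∈ d.kids a) {i : ℕ} (hi : i ≤ d.N) :
    |Real.log (1 - d.z0 a b i) + d.z0 a b i + d.ell i ^ 2 / (8 * d.D ^ 2)|
      ≤ 3.1 * d.eps * d.lam ^ 3 / d.D ^ 2 := by
  have hD := D_pos h
  have hN := N_pos h
  have he := h.heps
  have hL := h.hlam
  obtain ⟨hl0, hl1⟩ := el_range h hi
  set l := d.ell i with hl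
  obtain ⟨z1, z2, z3⟩ := z0_bounds h hb hi
  set z := d.z0 a b i
  have z4 : z ≤ 1 / 1000000 := z3.trans (lam_div h)
  have hlog := Real.abs_log_sub_add_sum_range_le (x := z) (by rw [abs_of_nonneg z2]; linarith) 2
  simp only [sum_range_succ, sum_range_zero] at hlog
  norm_num at hlog
  have h3 : |z| ^ (3:ℕ) / (1 - |z|) ≤ 2 * (d.lam / d.D) ^ 3 := by
    rw [abs_of_nonneg z2, div_le_iff₀ (by linarith)]
    have := pow_le_pow_left₀ z2 z3 3
    nlinarith [pow_nonneg (by positivity : 0 ≤ d.lam / d.D) 3]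
  have hsq : |z ^ 2 / 2 - l ^ 2 / (8 * d.D ^ 2)| ≤ 3 * d.eps * d.lam ^ 2 / d.D * (d.lam / d.D) := by
    rw [show z ^ 2 / 2 - l ^ 2 / (8 * d.D ^ 2)
      = (z - l / (2 * d.D)) * ((z + l / (2 * d.D)) / 2) by field_simp; ring, abs_mul]
    refine mul_le_mul z1 ?_ (abs_nonneg _) (by positivity)
    have : l / (2 * d.D) ≤ d.lam / d.D := by
      rw [div_le_div_iff₀ (by positivity) hD]; nlinarith
    have : 0 ≤ l / (2 * d.D) := by positivity
    rw [abs_of_nonneg (by linarith)]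
    linarith
  have h4 : 2 * (d.lam / d.D) ^ 3 ≤ 0.1 * d.eps * d.lam ^ 3 / d.D ^ 2 := by
    rw [show 2 * (d.lam / d.D) ^ 3 = 2 * (1 / d.D) * d.lam ^ 3 / d.D ^ 2 by ring]
    refine div_le_div_of_nonneg_right (mul_le_mul_of_nonneg_right ?_ (by positivity)) (by positivity)
    nlinarith [e1 h, h.hDeps]
  have e : Real.log (1 - z) + z + l ^ 2 / (8 * d.D ^ 2)
      = (z + z ^ 2 / 2 + Real.log (1 - z)) - (z ^ 2 / 2 - l ^ 2 / (8 * d.D ^ 2)) := by ring
  rw [e]
  refine (abs_sub _ _).trans ?_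
  have e5 : 3 * d.eps * d.lam ^ 2 / d.D * (d.lam / d.D) + 0.1 * d.eps * d.lam ^ 3 / d.D ^ 2
      = 3.1 * d.eps * d.lam ^ 3 / d.D ^ 2 := by ring
  linarith [hlog.trans (h3.trans h4)]

/-- The approximate solution almost solves the recursion. -/
lemma consistency (a : ι) {i : ℕ} (hi : i ≤ d.N) :
    |(∑ b ∈ d.kids a, Real.log (1 - d.z0 a b i)) - d.tgt a i| ≤ d.err := by
  have hD := D_pos h
  have hN := N_pos h
  have he := h.heps
  have hL := h.hlam
  obtain ⟨hl0, hl1⟩ := el_range h hi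
  set l := d.ell i with hl
  have hA := total_z0 h a hi
  have hB := primitive h a hi
  rw [← hl] at hB
  set F : ℝ → ℝ := fun t =>
    (1 + d.x a) * t - d.y a / 4 * t ^ 2 - 2 * d.bfun t - 1 / (4 * d.D) * t ^ 2 with hF
  replace hB : |d.D * ((∑ j ∈ range i, 1 / (1 + 2 * d.D * ((j:ℝ) / d.N)) * (1 + d.x a
      - d.y a / 2 * d.ell j + (d.c1 + d.c2) / 8 * d.ell j ^ 2 + 2 * d.bfun (d.ell j))) / d.N)
      - F l / 2| ≤ d.eps ^ 3 * d.lam ^ 4 := hB
  have hper : ∀ b ∈ d.kids a, |Real.log (1 - d.z0 a b i) + d.z0 a b i + l ^ 2 / (8 * d.D ^ 2)|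
      ≤ 3.1 * d.eps * d.lam ^ 3 / d.D ^ 2 := fun b hb => log_z0 h hb hi
  have hC : |(∑ b ∈ d.kids a, Real.log (1 - d.z0 a b i)) + (∑ b ∈ d.kids a, d.z0 a b i)
      + (1 + d.x a) * l ^ 2 / (8 * d.D)| ≤ 4 * d.eps ^ 3 * d.lam ^ 4 := by
    have : (1 + d.x a) * l ^ 2 / (8 * d.D) = ∑ _b ∈ d.kids a, l ^ 2 / (8 * d.D ^ 2) := by
      rw [sum_const, nsmul_eq_mul, h.hcard a]; field_simp
    rw [this, ← sum_add_distrib, ← sum_add_distrib]
    refine (abs_sum_le_sum_abs _ _).trans ((sum_le_sum hper).trans ?_)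
    rw [sum_const, nsmul_eq_mul]
    calc ((d.kids a).card : ℝ) * (3.1 * d.eps * d.lam ^ 3 / d.D ^ 2)
        ≤ 1.001 * d.D * (3.1 * d.eps * d.lam ^ 3 / d.D ^ 2) :=
          mul_le_mul_of_nonneg_right (card_le h a) (by positivity)
      _ = 3.1031 * d.eps * (1 / d.D) * d.lam ^ 3 := by field_simp; ring
      _ ≤ 3.1031 * d.eps * d.eps ^ 2 * d.lam ^ 3 := by gcongr; exact h.hDeps
      _ ≤ _ := by
        have := pow_le_pow_right₀ hL (show 3 ≤ 4 by norm_num)
        nlinarith [mul_le_mul_of_nonneg_left this (pow_nonneg he 3),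
          mul_nonneg (pow_nonneg he 3) (pow_nonneg (by linarith : 0 ≤ d.lam) 4)]
  have hx2 : |d.x a * l ^ 2 / (8 * d.D)| ≤ d.eps ^ 3 * d.lam ^ 4 := by
    rw [abs_div, abs_mul, abs_of_nonneg (sq_nonneg l), abs_of_pos (by positivity : 0 < 8 * d.D)]
    calc |d.x a| * l ^ 2 / (8 * d.D) ≤ d.eps * d.lam ^ 2 / (8 * d.D) := by
          refine div_le_div_of_nonneg_right (mul_le_mul (h.hx a) (pow_le_pow_left₀ hl0 hl1 2)
            (sq_nonneg _) he) (by positivity)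
      _ = d.eps * (1 / d.D) * d.lam ^ 2 / 8 := by ring
      _ ≤ d.eps * d.eps ^ 2 * d.lam ^ 2 / 8 := by gcongr; exact h.hDeps
      _ ≤ _ := by
        have := pow_le_pow_right₀ hL (show 2 ≤ 4 by norm_num)
        nlinarith [mul_le_mul_of_nonneg_left this (pow_nonneg he 3),
          mul_nonneg (pow_nonneg he 3) (pow_nonneg (by linarith : 0 ≤ d.lam) 4)]
  have halg : d.tgt a i = -(F l / 2) - l ^ 2 / (8 * d.D) := by
    simp only [tgt, corr, hF, ← hl]
    ring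
  rw [halg]
  have e7 : (1 + d.x a) * l ^ 2 / (8 * d.D) = l ^ 2 / (8 * d.D) + d.x a * l ^ 2 / (8 * d.D) := by
    ring
  rw [e7] at hC
  have hK : 0 ≤ d.eps ^ 3 * d.lam ^ 4 := by positivity
  unfold err
  rw [abs_le]
  constructor <;> linarith [abs_le.1 hA, abs_le.1 hB, abs_le.1 hC, abs_le.1 hx2]

end Data

end Vale.Agent.P046.Tree
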