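import Vale.Agent.P046.Tree.Recur

/-!
If `lo ≤ step hi` and `step lo ≤ hi`, the iterates from `1` enter the box `[lo, hi]` up to a
factor `exp η` after a number of steps linear in (windows) × (mass of the clock).
-/

namespace Vale.Agent.P046.Tree

open MeasureTheory Set intervalIntegral Real

noncomputable section

variable {N ι : Type*} {C : N → Finset ι} {l r : N → ι → N}

/-- data of a box for the recursion -/
structure Box (C : N → Finset ι) (l r : N → ι → N) (lo hi : N → ℝ → ℝ) (ω : ℝ → ℝ) : Prop where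
  hi_cont : ∀ v, Continuous (hi v)
  lo_cont : ∀ v, Continuous (lo v)
  lo_nonneg : ∀ v, ∀ t ∈ Icc (0 : ℝ) 1, 0 ≤ lo v t
  lo_le_hi : ∀ v, ∀ t ∈ Icc (0 : ℝ) 1, lo v t ≤ hi v t
  sub : ∀ v, ∀ t ∈ Icc (0 : ℝ) 1, lo v t ≤ step C l r hi v t
  super : ∀ v, ∀ t ∈ Icc (0 : ℝ) 1, step C l r lo v t ≤ hi v t
  ω_cont : Continuous ω
  ω_nonneg : ∀ t ∈ Icc (0 : ℝ) 1, 0 ≤ ω t
  sum_le : ∀ v, ∀ s ∈ Icc (0 : ℝ) 1, ∑ i ∈ C v, hi (l v i) s * hi (r v i) s ≤ ω s
  small : ∀ v, ∀ i ∈ C v, branchInt l r hi v i 1 ≤ 1 / 16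

/-- the clock -/
def clock (ω : ℝ → ℝ) (t : ℝ) : ℝ := ∫ s in (0 : ℝ)..t, ω s

lemma clock_zero (ω : ℝ → ℝ) : clock ω 0 = 0 := intervalIntegral.integral_same

lemma hasDerivAt_clock {ω : ℝ → ℝ} (h : Continuous ω) (t : ℝ) : HasDerivAt (clock ω) (ω t) t :=
  h.integral_hasStrictDerivAt 0 t |>.hasDerivAt

lemma continuous_clock {ω : ℝ → ℝ} (h : Continuous ω) : Continuous (clock ω) :=
  intervalIntegral.continuous_primitive (fun a b => h.intervalIntegrable a b) 0

lemma clock_mono {ω : ℝ → ℝ} (h : Continuous ω) (h0 : ∀ t ∈ Icc (0 : ℝ) 1, 0 ≤ ω t) {a b : ℝ}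
    (ha : 0 ≤ a) (hab : a ≤ b) (hb : b ≤ 1) : clock ω a ≤ clock ω b := by
  have := integral_nonneg (μ := volume) hab (f := ω) fun s hs =>
    h0 s ⟨ha.trans hs.1, hs.2.trans hb⟩
  rw [← intervalIntegral.integral_interval_sub_left (h.intervalIntegrable 0 b)
    (h.intervalIntegrable 0 a)] at this
  exact sub_nonneg.1 this

/-- the exponential profile reproduces itself with the factor `1/32` -/
lemma integral_clock_exp {ω : ℝ → ℝ} (h : Continuous ω) (t : ℝ) :
    ∫ s in (0 : ℝ)..t, ω s * exp (32 * clock ω s) = (exp (32 * clock ω t) - 1) / 32 := by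
  have hd : ∀ s : ℝ,
      HasDerivAt (fun s => exp (32 * clock ω s) / 32) (ω s * exp (32 * clock ω s)) s := fun s => by
    have := (((hasDerivAt_clock h s).const_mul 32).exp).div_const 32
    refine this.congr_deriv ?_
    ring
  rw [integral_eq_sub_of_hasDerivAt (fun s _ => hd s) ((h.mul ((continuous_const.mul
    (continuous_clock h)).rexp)).intervalIntegrable _ _), clock_zero, mul_zero, exp_zero]
  ring

variable {lo hi : N → ℝ → ℝ} {ω : ℝ → ℝ}

/-- upper bound with profile `A` -/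
def Up (C : N → Finset ι) (l r : N → ι → N) (hi : N → ℝ → ℝ) (ω : ℝ → ℝ) (k : ℕ) (τ A : ℝ) : Prop :=
  ∀ v, ∀ s ∈ Icc (0 : ℝ) τ, iter C l r k v s ≤ hi v s * exp (A * exp (32 * clock ω s))

/-- lower bound with profile `A` -/
def Low (C : N → Finset ι) (l r : N → ι → N) (lo : N → ℝ → ℝ) (ω : ℝ → ℝ) (k : ℕ) (τ A : ℝ) : Prop :=
  ∀ v, ∀ s ∈ Icc (0 : ℝ) τ, lo v s * exp (-(A * exp (32 * clock ω s))) ≤ iter C l r k v s

namespace Box

variable (B : Box C l r lo hi ω)
include B

lemma hi_nonneg (v : N) (t : ℝ) (ht : t ∈ Icc (0 : ℝ) 1) : 0 ≤ hi v t :=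
  (B.lo_nonneg v t ht).trans (B.lo_le_hi v t ht)

lemma branch_hi_le (v : N) (i : ι) (hi' : i ∈ C v) {t : ℝ} (ht : t ∈ Icc (0 : ℝ) 1) :
    branchInt l r hi v i t ≤ 1 / 16 := by
  refine le_trans ?_ (B.small v i hi')
  exact integral_mono_interval le_rfl ht.1 ht.2
    (MeasureTheory.ae_restrict_of_forall_mem measurableSet_Ioc fun s hs =>
      mul_nonneg (B.hi_nonneg _ s ⟨hs.1.le, hs.2⟩) (B.hi_nonneg _ s ⟨hs.1.le, hs.2⟩))
    (intervalIntegrable_branch B.hi_cont v i _ _)

lemma sum_weighted_le (v : N) {τ : ℝ} (hτ : τ ≤ 1) {t : ℝ} (ht : t ∈ Icc (0 : ℝ) τ) {A : ℝ}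
    (hA : 0 ≤ A) :
    ∑ i ∈ C v, ∫ s in (0 : ℝ)..t, hi (l v i) s * hi (r v i) s * (A * exp (32 * clock ω s)) ≤
      A * exp (32 * clock ω t) / 32 := by
  have hp : Continuous fun s => A * exp (32 * clock ω s) :=
    continuous_const.mul ((continuous_const.mul (continuous_clock B.ω_cont)).rexp)
  have hii : ∀ i ∈ C v, IntervalIntegrable
      (fun s => hi (l v i) s * hi (r v i) s * (A * exp (32 * clock ω s))) volume 0 t := fun i _ =>
    (((B.hi_cont _).mul (B.hi_cont _)).mul hp).intervalIntegrable _ _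
  rw [← intervalIntegral.integral_finsetSum hii]
  have e : A * exp (32 * clock ω t) / 32 - A / 32 =
      ∫ s in (0 : ℝ)..t, ω s * (A * exp (32 * clock ω s)) := by
    rw [show (fun s => ω s * (A * exp (32 * clock ω s))) =
      fun s => A * (ω s * exp (32 * clock ω s)) by funext s; ring,
      intervalIntegral.integral_const_mul, integral_clock_exp B.ω_cont]
    ring
  refine le_trans (integral_mono_on ht.1 ?_
    ((show Continuous fun s => ω s * (A * exp (32 * clock ω s)) from
      B.ω_cont.mul hp).intervalIntegrable _ _) ?_)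
    (by linarith)
  · exact (continuous_finsetSum _ fun i _ =>
      (((B.hi_cont _).mul (B.hi_cont _)).mul hp)).intervalIntegrable _ _
  · intro s hs
    rw [← Finset.sum_mul]
    exact mul_le_mul_of_nonneg_right (B.sum_le v s ⟨hs.1, hs.2.trans (ht.2.trans hτ)⟩)
      (mul_nonneg hA (exp_pos _).le)

lemma up_low {k : ℕ} {τ A : ℝ} (hτ : τ ≤ 1) (hA : 0 ≤ A)
    (hsmall : ∀ s ∈ Icc (0 : ℝ) τ, A * exp (32 * clock ω s) ≤ 1 / 2)
    (h : Up C l r hi ω k τ A) : Low C l r lo ω (k + 1) τ (A / 4) := by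
  intro v t ht
  have ht1 : t ∈ Icc (0 : ℝ) 1 := ⟨ht.1, ht.2.trans hτ⟩
  set p : ℝ → ℝ := fun s => A * exp (32 * clock ω s) with hp
  set Δ : ι → ℝ := fun i => 4 * ∫ s in (0 : ℝ)..t, hi (l v i) s * hi (r v i) s * p s with hΔ
  have hΔ0 : ∀ i, 0 ≤ Δ i := fun i => mul_nonneg (by norm_num) (integral_nonneg ht.1 fun s hs => by
    have h1 : s ∈ Icc (0 : ℝ) 1 := ⟨hs.1, hs.2.trans ht1.2⟩
    exact mul_nonneg (mul_nonneg (B.hi_nonneg _ s h1) (B.hi_nonneg _ s h1))
      (mul_nonneg hA (exp_pos _).le))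
  have hpc : Continuous p := continuous_const.mul
    ((continuous_const.mul (continuous_clock B.ω_cont)).rexp)
  have hI : ∀ i, branchInt l r (iter C l r k) v i t ≤ branchInt l r hi v i t + Δ i := by
    intro i
    simp only [hΔ, branchInt]
    rw [← intervalIntegral.integral_const_mul, ← intervalIntegral.integral_add
      (intervalIntegrable_branch B.hi_cont v i _ _)
      ((show Continuous fun s => (4 : ℝ) * (hi (l v i) s * hi (r v i) s * p s) from
        continuous_const.mul (((B.hi_cont _).mul (B.hi_cont _)).mul hpc)).intervalIntegrable _ _)]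
    refine integral_mono_on ht.1 (intervalIntegrable_branch (nice_iter k).1 v i _ _)
      ((((B.hi_cont _).mul (B.hi_cont _)).add
        (continuous_const.mul (((B.hi_cont _).mul (B.hi_cont _)).mul hpc))).intervalIntegrable _ _)
      fun s hs => ?_
    have h1 : s ∈ Icc (0 : ℝ) τ := ⟨hs.1, hs.2.trans ht.2⟩
    have h2 : s ∈ Icc (0 : ℝ) 1 := ⟨hs.1, hs.2.trans ht1.2⟩
    have hx : exp (p s) * exp (p s) ≤ 1 + 4 * p s := by
      have hp0 : 0 ≤ p s := mul_nonneg hA (exp_pos _).le
      have h5 := hsmall s h1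
      have hb := abs_exp_sub_one_sub_id_le (x := p s * 2) (by
        rw [abs_of_nonneg (by linarith)]; show A * exp (32 * clock ω s) * 2 ≤ 1; linarith)
      rw [abs_le] at hb
      have h6 : (p s * 2) ^ 2 ≤ p s * 2 := by
        have : p s * 2 ≤ 1 := by show A * exp (32 * clock ω s) * 2 ≤ 1; linarith
        nlinarith
      rw [← exp_add, show p s + p s = p s * 2 by ring]
      linarith [hb.2]
    calc iter C l r k (l v i) s * iter C l r k (r v i) s
        ≤ (hi (l v i) s * exp (p s)) * (hi (r v i) s * exp (p s)) :=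
          mul_le_mul (h _ s h1) (h _ s h1) ((nice_iter k).2 _ s h2).1
            (mul_nonneg (B.hi_nonneg _ s h2) (exp_pos _).le)
      _ ≤ hi (l v i) s * hi (r v i) s + 4 * (hi (l v i) s * hi (r v i) s * p s) := by
          have := mul_le_mul_of_nonneg_left hx
            (mul_nonneg (B.hi_nonneg (l v i) s h2) (B.hi_nonneg (r v i) s h2))
          linarith
  have hΔsmall : ∀ i ∈ C v, Δ i ≤ 1 / 8 := by
    intro i hi'
    have hle : ∫ s in (0 : ℝ)..t, hi (l v i) s * hi (r v i) s * p s ≤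
        ∫ s in (0 : ℝ)..t, hi (l v i) s * hi (r v i) s * (1 / 2) :=
      integral_mono_on ht.1 ((((B.hi_cont _).mul (B.hi_cont _)).mul hpc).intervalIntegrable _ _)
        ((((B.hi_cont _).mul (B.hi_cont _)).mul continuous_const).intervalIntegrable _ _)
        fun s hs => mul_le_mul_of_nonneg_left (hsmall s ⟨hs.1, hs.2.trans ht.2⟩) (mul_nonneg
          (B.hi_nonneg _ s ⟨hs.1, hs.2.trans ht1.2⟩) (B.hi_nonneg _ s ⟨hs.1, hs.2.trans ht1.2⟩))
    rw [intervalIntegral.integral_mul_const] at hle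
    have := B.branch_hi_le v i hi' ht1
    simp only [hΔ, branchInt] at this ⊢
    linarith
  have hterm : ∀ i ∈ C v, (1 - branchInt l r hi v i t) * exp (-(2 * Δ i)) ≤
      1 - branchInt l r (iter C l r k) v i t := by
    intro i hi'
    have hd := hΔ0 i
    have hb := B.branch_hi_le v i hi' ht1
    have he : exp (-(2 * Δ i)) * (1 + 2 * Δ i) ≤ 1 := by
      have := mul_le_mul_of_nonneg_left (add_one_le_exp (2 * Δ i)) (exp_pos (-(2 * Δ i))).le
      rw [← exp_add, neg_add_cancel, exp_zero] at this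
      linarith
    have hs := hΔsmall i hi'
    have := hI i
    nlinarith [mul_le_mul_of_nonneg_left he (show (0 : ℝ) ≤ 1 - branchInt l r hi v i t - Δ i by linarith),
      exp_pos (-(2 * Δ i))]
  have hprod : step C l r hi v t * exp (-(2 * ∑ i ∈ C v, Δ i)) ≤ iter C l r (k + 1) v t := by
    rw [iter_succ, Finset.mul_sum, ← Finset.sum_neg_distrib, exp_sum, step, step,
      ← Finset.prod_mul_distrib]
    exact Finset.prod_le_prod (fun i hi' => mul_nonneg
      (by linarith [B.branch_hi_le v i hi' ht1]) (exp_pos _).le) hterm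
  refine le_trans (le_trans ?_ (mul_le_mul_of_nonneg_right (B.sub v t ht1) (exp_pos _).le)) hprod
  refine mul_le_mul_of_nonneg_left (exp_le_exp.2 (neg_le_neg ?_)) (B.lo_nonneg v t ht1)
  simp only [hΔ, hp, ← Finset.mul_sum]
  linarith [B.sum_weighted_le v hτ ht hA]

lemma low_up {k : ℕ} {τ A : ℝ} (hτ : τ ≤ 1) (hA : 0 ≤ A)
    (h : Low C l r lo ω k τ A) : Up C l r hi ω (k + 1) τ (A / 8) := by
  intro v t ht
  have ht1 : t ∈ Icc (0 : ℝ) 1 := ⟨ht.1, ht.2.trans hτ⟩
  set p : ℝ → ℝ := fun s => A * exp (32 * clock ω s) with hp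
  set Δ : ι → ℝ := fun i => 2 * ∫ s in (0 : ℝ)..t, hi (l v i) s * hi (r v i) s * p s with hΔ
  have hΔ0 : ∀ i, 0 ≤ Δ i := fun i => mul_nonneg (by norm_num) (integral_nonneg ht.1 fun s hs => by
    have h1 : s ∈ Icc (0 : ℝ) 1 := ⟨hs.1, hs.2.trans ht1.2⟩
    exact mul_nonneg (mul_nonneg (B.hi_nonneg _ s h1) (B.hi_nonneg _ s h1))
      (mul_nonneg hA (exp_pos _).le))
  have hpc : Continuous p := continuous_const.mul
    ((continuous_const.mul (continuous_clock B.ω_cont)).rexp)
  have hI : ∀ i, branchInt l r lo v i t - Δ i ≤ branchInt l r (iter C l r k) v i t := by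
    intro i
    simp only [hΔ, branchInt]
    rw [← intervalIntegral.integral_const_mul, ← intervalIntegral.integral_sub
      (intervalIntegrable_branch B.lo_cont v i _ _)
      ((show Continuous fun s => (2 : ℝ) * (hi (l v i) s * hi (r v i) s * p s) from
        continuous_const.mul (((B.hi_cont _).mul (B.hi_cont _)).mul hpc)).intervalIntegrable _ _)]
    refine integral_mono_on ht.1
      ((((B.lo_cont _).mul (B.lo_cont _)).sub
        (continuous_const.mul (((B.hi_cont _).mul (B.hi_cont _)).mul hpc))).intervalIntegrable _ _)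
      (intervalIntegrable_branch (nice_iter k).1 v i _ _) fun s hs => ?_
    have h1 : s ∈ Icc (0 : ℝ) τ := ⟨hs.1, hs.2.trans ht.2⟩
    have h2 : s ∈ Icc (0 : ℝ) 1 := ⟨hs.1, hs.2.trans ht1.2⟩
    have hp0 : 0 ≤ p s := mul_nonneg hA (exp_pos _).le
    have hll : lo (l v i) s * lo (r v i) s ≤ hi (l v i) s * hi (r v i) s :=
      mul_le_mul (B.lo_le_hi _ s h2) (B.lo_le_hi _ s h2) (B.lo_nonneg _ s h2) (B.hi_nonneg _ s h2)
    have hx : 1 - 2 * p s ≤ exp (-p s) * exp (-p s) := by
      rw [← exp_add]; linarith [add_one_le_exp (-p s + -p s)]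
    calc lo (l v i) s * lo (r v i) s - 2 * (hi (l v i) s * hi (r v i) s * p s)
        ≤ lo (l v i) s * lo (r v i) s * (1 - 2 * p s) := by
          nlinarith [mul_le_mul_of_nonneg_right hll hp0]
      _ ≤ (lo (l v i) s * exp (-p s)) * (lo (r v i) s * exp (-p s)) := by
          have := mul_le_mul_of_nonneg_left hx
            (mul_nonneg (B.lo_nonneg (l v i) s h2) (B.lo_nonneg (r v i) s h2))
          linarith
      _ ≤ _ := mul_le_mul (h _ s h1) (h _ s h1) (mul_nonneg (B.lo_nonneg _ s h2) (exp_pos _).le)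
          ((nice_iter k).2 _ s h2).1
  have hlo : ∀ i ∈ C v, branchInt l r lo v i t ≤ 1 / 16 := fun i hi' => by
    refine le_trans ?_ (B.branch_hi_le v i hi' ht1)
    exact integral_mono_on ht.1 (intervalIntegrable_branch B.lo_cont v i _ _)
      (intervalIntegrable_branch B.hi_cont v i _ _) fun s hs =>
      mul_le_mul (B.lo_le_hi _ s ⟨hs.1, hs.2.trans ht1.2⟩) (B.lo_le_hi _ s ⟨hs.1, hs.2.trans ht1.2⟩)
        (B.lo_nonneg _ s ⟨hs.1, hs.2.trans ht1.2⟩) (B.hi_nonneg _ s ⟨hs.1, hs.2.trans ht1.2⟩)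
  have hterm : ∀ i ∈ C v, 1 - branchInt l r (iter C l r k) v i t ≤
      (1 - branchInt l r lo v i t) * exp (2 * Δ i) := by
    intro i hi'
    have hd := hΔ0 i
    have := hI i
    nlinarith [hlo i hi', mul_le_mul_of_nonneg_left (add_one_le_exp (2 * Δ i))
      (show (0 : ℝ) ≤ 1 - branchInt l r lo v i t by linarith [hlo i hi'])]
  have hprod : iter C l r (k + 1) v t ≤ step C l r lo v t * exp (2 * ∑ i ∈ C v, Δ i) := by
    rw [iter_succ, Finset.mul_sum, exp_sum, step, step, ← Finset.prod_mul_distrib]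
    exact Finset.prod_le_prod (fun i _ => by
      linarith [(branchInt_mem (nice_iter (C := C) (l := l) (r := r) k) v i ht1 (l := l) (r := r)).2, ht1.2]) hterm
  refine hprod.trans (le_trans (mul_le_mul_of_nonneg_right (B.super v t ht1) (exp_pos _).le) ?_)
  refine mul_le_mul_of_nonneg_left (exp_le_exp.2 ?_) (B.hi_nonneg v t ht1)
  simp only [hΔ, hp, ← Finset.mul_sum]
  linarith [B.sum_weighted_le v hτ ht hA]

lemma up_double {k : ℕ} {τ A : ℝ} (hτ : τ ≤ 1) (hA : 0 ≤ A)
    (hsmall : ∀ s ∈ Icc (0 : ℝ) τ, A * exp (32 * clock ω s) ≤ 1 / 2) (n : ℕ)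
    (h : Up C l r hi ω k τ A) : Up C l r hi ω (k + 2 * n) τ (A / 32 ^ n) := by
  induction n with
  | zero => simpa using h
  | succ n ih =>
    have hA' : 0 ≤ A / 32 ^ n := by positivity
    have hs : ∀ s ∈ Icc (0 : ℝ) τ, A / 32 ^ n * exp (32 * clock ω s) ≤ 1 / 2 := fun s hs =>
      le_trans (mul_le_mul_of_nonneg_right (div_le_self hA (one_le_pow₀ (by norm_num)))
        (exp_pos _).le) (hsmall s hs)
    have := B.low_up hτ (by positivity) (B.up_low hτ hA' hs ih)
    rw [show A / 32 ^ (n + 1) = A / 32 ^ n / 4 / 8 by rw [pow_succ]; ring,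
      show k + 2 * (n + 1) = k + 2 * n + 1 + 1 by ring]
    exact this

/-- The squeeze theorem: windows `τ 0 = 0, …, τ W = 1` of clock mass `≤ 1/100` on which `hi`
drops by at most `exp (1/4)`. -/
theorem squeeze {τ : ℕ → ℝ} {W : ℕ} (hτ0 : τ 0 = 0) (hτW : τ W = 1)
    (hτm : ∀ w < W, τ w ≤ τ (w + 1))
    (hwin : ∀ w < W, clock ω (τ (w + 1)) - clock ω (τ w) ≤ 1 / 100)
    (hdrop : ∀ w < W, ∀ v, ∀ s ∈ Icc (τ w) (τ (w + 1)), hi v (τ w) ≤ hi v s * exp (1 / 4))
    {E : ℝ} (hE : 0 ≤ E) (hEs : E * exp (32 * clock ω 1) ≤ 1 / 10)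
    {n : ℕ} (hn : 1 ≤ E * 32 ^ n) :
    ∀ m, 2 * n * W + 1 ≤ m → ∀ v, ∀ t ∈ Icc (0 : ℝ) 1,
      lo v t * exp (-(E * exp (32 * clock ω t))) ≤ iter C l r m v t ∧
      iter C l r m v t ≤ hi v t * exp (E * exp (32 * clock ω t)) := by
  have hmem : ∀ w ≤ W, τ w ∈ Icc (0 : ℝ) 1 := by
    intro w hw
    constructor
    · induction w with
      | zero => rw [hτ0]
      | succ w ih => exact (ih (by omega)).trans (hτm w (by omega))
    · obtain ⟨d, rfl⟩ := Nat.exists_eq_add_of_le hw
      rw [← hτW]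
      clear hτW hw
      induction d with
      | zero => exact le_rfl
      | succ d ih =>
        exact (ih (fun u hu => hτm u (by omega)) (fun u hu => hwin u (by omega))
          (fun u hu => hdrop u (by omega))).trans (hτm (w + d) (by omega))
  have hEle : ∀ s ∈ Icc (0 : ℝ) 1, E * exp (32 * clock ω s) ≤ 1 / 10 := fun s hs =>
    le_trans (mul_le_mul_of_nonneg_left (exp_le_exp.2 (by
      linarith [clock_mono B.ω_cont B.ω_nonneg hs.1 hs.2 le_rfl])) hE) hEs
  have key : ∀ w ≤ W, Up C l r hi ω (2 * n * w) (τ w) E := by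
    intro w hw
    induction w with
    | zero =>
      intro v s hs
      rw [hτ0] at hs
      obtain rfl : s = 0 := le_antisymm hs.2 hs.1
      have h1 := B.super v 0 ⟨le_rfl, zero_le_one⟩
      rw [step_zero] at h1
      simp only [mul_zero, iter_zero]
      exact one_le_mul_of_one_le_of_one_le h1 (one_le_exp (mul_nonneg hE (exp_pos _).le))
    | succ w ih =>
      have ihw := ih (by omega)
      have hm := hmem w (by omega)
      have hm' := hmem (w + 1) hw
      set A := E + 1 / 4 * exp (-(32 * clock ω (τ w))) with hA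
      have hA0 : 0 ≤ A := by positivity
      have e0 : exp (-(32 * clock ω (τ w))) * exp (32 * clock ω (τ w)) = 1 := by
        rw [← exp_add]; simp
      have hU : Up C l r hi ω (2 * n * w) (τ (w + 1)) A := by
        intro v s hs
        have hs1 : s ∈ Icc (0 : ℝ) 1 := ⟨hs.1, hs.2.trans hm'.2⟩
        rcases le_total s (τ w) with h | h
        · refine (ihw v s ⟨hs.1, h⟩).trans (mul_le_mul_of_nonneg_left (exp_le_exp.2 ?_)
            (B.hi_nonneg v s hs1))
          exact mul_le_mul_of_nonneg_right (by rw [hA]; linarith [exp_pos (-(32 * clock ω (τ w)))])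
            (exp_pos _).le
        · refine le_trans ((iter_antitone _ v) hm hs1 h) ((ihw v (τ w) ⟨hm.1, le_rfl⟩).trans ?_)
          refine le_trans (mul_le_mul_of_nonneg_right (hdrop w (by omega) v s ⟨h, hs.2⟩)
            (exp_pos _).le) ?_
          rw [mul_assoc, ← exp_add]
          refine mul_le_mul_of_nonneg_left (exp_le_exp.2 ?_) (B.hi_nonneg v s hs1)
          have hc : exp (32 * clock ω (τ w)) ≤ exp (32 * clock ω s) := exp_le_exp.2 (by
            linarith [clock_mono B.ω_cont B.ω_nonneg hm.1 h hs1.2])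
          rw [hA]
          nlinarith [mul_le_mul_of_nonneg_left hc hE,
            mul_le_mul_of_nonneg_left hc (exp_pos (-(32 * clock ω (τ w)))).le]
      have hsmall : ∀ s ∈ Icc (0 : ℝ) (τ (w + 1)), A * exp (32 * clock ω s) ≤ 1 / 2 := by
        intro s hs
        have h1 := hEle s ⟨hs.1, hs.2.trans hm'.2⟩
        have h2 : exp (-(32 * clock ω (τ w))) * exp (32 * clock ω s) ≤ 148 / 100 := by
          rw [← exp_add]
          refine le_trans (exp_le_exp.2 (show _ ≤ (32 : ℝ) / 100 by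
            linarith [clock_mono B.ω_cont B.ω_nonneg hs.1 hs.2 hm'.2, hwin w (by omega)])) ?_
          have := exp_bound_div_one_sub_of_interval (x := (32 : ℝ) / 100) (by norm_num) (by norm_num)
          refine this.trans ?_
          norm_num
        rw [hA, add_mul, mul_assoc]
        linarith
      have hd := B.up_double hm'.2 hA0 hsmall n hU
      rw [show 2 * n * (w + 1) = 2 * n * w + 2 * n by ring]
      intro v s hs
      refine (hd v s hs).trans (mul_le_mul_of_nonneg_left (exp_le_exp.2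
        (mul_le_mul_of_nonneg_right ?_ (exp_pos _).le)) (B.hi_nonneg v s ⟨hs.1, hs.2.trans hm'.2⟩))
      rw [div_le_iff₀ (by positivity)]
      refine le_trans ?_ hn
      have hE1 : E ≤ 1 / 10 := by
        have := hEle 0 ⟨le_rfl, zero_le_one⟩
        rwa [clock_zero, mul_zero, exp_zero, mul_one] at this
      have he : exp (-(32 * clock ω (τ w))) ≤ 1 := by
        rw [exp_le_one_iff]
        have := clock_mono B.ω_cont B.ω_nonneg (le_refl (0 : ℝ)) hm.1 hm.2
        rw [clock_zero] at this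
        linarith
      rw [hA]; linarith
  intro m hm v t ht
  have hU := key W le_rfl
  rw [hτW] at hU
  have hL := B.up_low le_rfl hE (fun s hs => (hEle s hs).trans (by norm_num)) hU
  have hev : 2 * n * W = 2 * (n * W) := by ring
  refine ⟨?_, ?_⟩
  · refine le_trans (le_trans (mul_le_mul_of_nonneg_left (exp_le_exp.2 (neg_le_neg ?_))
      (B.lo_nonneg v t ht)) (hL v t ht)) ?_
    · exact mul_le_mul_of_nonneg_right (by linarith) (exp_pos _).le
    · rw [hev]
      exact (iter_sandwich (n * W)).2 m (by omega) v t ht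
  · refine le_trans ?_ (hU v t ht)
    rw [hev]
    exact (iter_sandwich (n * W)).1 m (by omega) v t ht

end Box

end

end Vale.Agent.P046.Tree
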