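import Vale.Agent.P046.Tree.Phase3

/-!
Sizes of supports: if every edge is in at most `D` triangles and triangles have at most three
sides, a depth `j` support meets at most `(18 D ^ 2) ^ j` others.
-/

namespace Vale.Agent.P046.Tree

open Finset

variable {Ed Tr : Type*} [DecidableEq Ed] [Fintype Tr] [DecidableEq Tr] {sides : Tr → Finset Ed}

/-- The edges whose depth `k` support can contain `T`. -/
def near (sides : Tr → Finset Ed) : ℕ → Tr → Finset Ed
  | 0, _ => ∅
  | k + 1, T => sides T ∪ (near sides k T).biUnion (fun f => (star sides none f).biUnion sides)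

lemma mem_near_of_mem_supp : ∀ (k : ℕ) (P : Option Tr) (e : Ed) {T : Tr},
    T ∈ supp sides k P e → e ∈ near sides k T
  | 0, _, _, _, h => by simp [supp] at h
  | k + 1, P, e, T, h => by
    simp only [supp, mem_biUnion, mem_insert] at h
    obtain ⟨S, hS, rfl | ⟨f, hf, hfT⟩⟩ := h
    · exact mem_union_left _ (mem_star.1 hS).1
    · refine mem_union_right _ (mem_biUnion.2 ⟨f, mem_near_of_mem_supp k (some S) f hfT,
        mem_biUnion.2 ⟨S, mem_star.2 ⟨?_, by simp⟩, (mem_star.1 hS).1⟩⟩)
      exact mem_of_mem_erase hf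

variable {D : ℕ}

lemma star_card_le (hD : ∀ e, (star sides none e).card ≤ D) (P : Option Tr) (e : Ed) :
    (star sides P e).card ≤ D :=
  (card_le_card fun T hT => mem_star.2 ⟨(mem_star.1 hT).1, by simp⟩).trans (hD e)

lemma card_supp_le (hD : ∀ e, (star sides none e).card ≤ D) (hD1 : 1 ≤ D)
    (h3 : ∀ T, (sides T).card ≤ 3) : ∀ (k : ℕ) (P : Option Tr) (e : Ed),
    (supp sides k P e).card ≤ (3 * D) ^ k
  | 0, _, _ => by simp [supp]
  | k + 1, P, e => by
    have hT : ∀ T ∈ star sides P e,
        (insert T ((others sides T e).biUnion (supp sides k (some T)))).card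
          ≤ 2 * (3 * D) ^ k + 1 := by
      intro T hT
      refine (card_insert_le _ _).trans (Nat.add_le_add_right ?_ 1)
      have ho : (others sides T e).card ≤ 2 := by
        rw [others, card_erase_of_mem (mem_star.1 hT).1]
        have := h3 T
        omega
      exact (card_biUnion_le_card_mul _ _ _ fun f _ => card_supp_le hD hD1 h3 k (some T) f).trans
        (Nat.mul_le_mul_right _ ho)
    refine (card_biUnion_le_card_mul _ _ _ hT).trans
      ((Nat.mul_le_mul_right _ (star_card_le hD P e)).trans ?_)
    have h1 : 1 ≤ (3 * D) ^ k := Nat.one_le_pow _ _ (by omega)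
    rw [pow_succ]
    nlinarith

lemma card_near_le (hD : ∀ e, (star sides none e).card ≤ D) (hD1 : 1 ≤ D)
    (h3 : ∀ T, (sides T).card ≤ 3) : ∀ (k : ℕ) (T : Tr), (near sides k T).card ≤ (6 * D) ^ k
  | 0, _ => by simp [near]
  | k + 1, T => by
    have h2 : ((near sides k T).biUnion fun f => (star sides none f).biUnion sides).card
        ≤ (6 * D) ^ k * (D * 3) :=
      (card_biUnion_le_card_mul _ _ _ fun f _ =>
        (card_biUnion_le_card_mul _ _ _ fun S _ => h3 S).trans
          (Nat.mul_le_mul_right _ (hD f))).trans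
        (Nat.mul_le_mul_right _ (card_near_le hD hD1 h3 k T))
    refine (card_union_le _ _).trans ((Nat.add_le_add (h3 T) h2).trans ?_)
    have h1 : 1 ≤ (6 * D) ^ k := Nat.one_le_pow _ _ (by omega)
    rw [pow_succ]
    nlinarith

/-- The number of supports meeting a given one. -/
theorem card_meet_le (hD : ∀ e, (star sides none e).card ≤ D) (hD1 : 1 ≤ D)
    (h3 : ∀ T, (sides T).card ≤ 3) (j : ℕ) (good : Finset Ed) (e : Ed) :
    (good.filter fun e' => ¬ Disjoint (supp sides j none e) (supp sides j none e')).card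
      ≤ (18 * D ^ 2) ^ j := by
  have hsub : (good.filter fun e' => ¬ Disjoint (supp sides j none e) (supp sides j none e'))
      ⊆ (supp sides j none e).biUnion (near sides j) := by
    intro e' he'
    obtain ⟨T, hT, hT'⟩ := not_disjoint_iff.1 (mem_filter.1 he').2
    exact mem_biUnion.2 ⟨T, hT, mem_near_of_mem_supp j none e' hT'⟩
  refine (card_le_card hsub).trans ((card_biUnion_le_card_mul _ _ _ fun T _ =>
    card_near_le hD hD1 h3 j T).trans ((Nat.mul_le_mul_right _ (card_supp_le hD hD1 h3 j none e)).trans
      (le_of_eq ?_)))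
  rw [← mul_pow]
  ring

omit [Fintype Tr] [DecidableEq Tr] in
/-- The hypotheses for restricted sides. -/
lemma card_rsides_le {sides₀ : Tr → Finset Ed} (h3 : ∀ T, (sides₀ T).card = 3) (E : Finset Ed)
    (T : Tr) : (rsides sides₀ E T).card ≤ 3 := by
  unfold rsides
  split_ifs
  · exact (h3 T).le
  · simp

end Vale.Agent.P046.Tree
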